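import Vale.Agent.P275MC.Glue

/-!
# P275, model of currents: the integral of forms with compact support, Stokes formula
-/

open scoped Manifold ContDiff Topology Matrix
open Filter MeasureTheory Set
open Vale.Agent.P272.K Vale.Agent.P272.K.C2 Vale.Agent.P272.K.INT Vale.Agent.P299.IX
  Vale.Agent.P299.IX.Fock Vale.Agent.P281Z.Hg Vale.Agent.P281Z.Hg.G1H Vale.Agent.P281Z.Hg.G2H
  Vale.Agent.P281Z.Hg.Pb1H

noncomputable section

namespace Vale.Agent.P275MC

section alg
variable {n : ℕ}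

/-- the reversal of forms -/
def rv (n : ℕ) : FM n := dgl fun q => (-1) ^ q.choose 2

theorem rv_eps (l : Fin n) (v : Fk n) : wg (rv n *ᵥ (eps l *ᵥ v)) = wg (rv n *ᵥ v) * eps l := by
  have h : (dgl fun p => (-1) ^ (p + 1).choose 2 : FM n) = par * rv n := by
    rw [par, rv, dgl_mul]
    congr 1
    funext p
    rw [Nat.choose_succ_succ, Nat.choose_one_right, pow_add]
  rw [Matrix.mulVec_mulVec, rv, dgl_eps, h, ← Matrix.mulVec_mulVec, f1a.wg_eps, f1a.eps_wg,
    Matrix.mulVec_mulVec, ← mul_assoc, par_sq, one_mul, rv]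

theorem Bq_eq (u v : Fk n) : Bq u v = (wg (rv n *ᵥ v) *ᵥ u) Finset.univ := by
  induction v using F1aH.fk_ind generalizing u with
  | h0 => rw [Bq_one, rv, dgl_ev]; simp [f1a.wg_ev]
  | he l v ih => rw [← f1a.Bq_eps, ih, rv_eps, Matrix.mulVec_mulVec]
  | ha v v' h h' =>
    rw [Bq_add_r, h, h', Matrix.mulVec_add, f1a.wg_add, Matrix.add_mulVec, Pi.add_apply]
  | hs c v h =>
    rw [Bq_smul_r, h, Matrix.mulVec_smul, f1a.wg_smul, Matrix.smul_mulVec, Pi.smul_apply,
      smul_eq_mul]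

end alg

variable {d : ℕ} {M : Type} [TopologicalSpace M] [ChartedSpace (Cm d) M] {e e' : Chart d M}
  {x : M} {a b u : SF d M} {K U : Set M} {k : ℤ}

theorem Sp_chart (he : e ∈ atlas (Cm d) M) (h : u ∈ Sp d K) {z : Cm d} (hz : z ∉ e '' K) :
    vl u e z = 0 := by
  by_cases h1 : z ∈ e.target
  · exact e.right_inv h1 ▸ h _ (fun h2 => hz ⟨_, h2, e.right_inv h1⟩) e (at_tg he h1)
  · exact (vl_isF u).off e z fun h2 => h1 h2.2

omit [ChartedSpace (Cm d) M] in
theorem cd_chart {E : Type} [NormedAddCommGroup E] [NormedSpace ℝ E] (hK : IsCompact K)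
    (hs : K ⊆ e.source) {g : Cm d → E} (h1 : ∀ x ∈ K, ContDiffAt ℝ ∞ g (e x))
    (h0 : ∀ z ∉ e '' K, g z = 0) : ContDiff ℝ ∞ g ∧ HasCompactSupport g := by
  have hc : IsCompact (e '' K) := hK.image_of_continuousOn (e.continuousOn.mono hs)
  refine ⟨contDiff_iff_contDiffAt.2 fun z => ?_, HasCompactSupport.intro hc h0⟩
  by_cases hz : z ∈ e '' K
  · obtain ⟨y, hy, rfl⟩ := hz
    exact h1 y hy
  · exact contDiffAt_const.congr_of_eventuallyEq
      (mem_of_superset (hc.isClosed.isOpen_compl.mem_nhds hz) h0)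

theorem Bq_chart (he : e ∈ atlas (Cm d) M) (h : a ∈ Ac d e.source) (b : SF d M) (A : Fm d) :
    ContDiff ℝ ∞ (fun z => Bq (A *ᵥ vl a e z) (vl b e z)) ∧
      HasCompactSupport fun z => Bq (A *ᵥ vl a e z) (vl b e z) := by
  obtain ⟨K, h1, h2, h3⟩ := h
  exact cd_chart h1 h2 (fun y hy => cd_Bq (cd_mulVec (MC_const _ _)
    ((vl_isF a).sm e y ⟨he, h2 hy⟩)) ((vl_isF b).sm e y ⟨he, h2 hy⟩)) fun z hz => by
      rw [Sp_chart he h3 hz, Matrix.mulVec_zero, Bq_zero_l]

theorem Bq_int (he : e ∈ atlas (Cm d) M) (h : a ∈ Ac d e.source) (b : SF d M) :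
    Integrable fun z => Bq (vl a e z) (vl b e z) := by
  have h1 := Bq_chart he h b 1
  simp only [Matrix.one_mulVec] at h1
  exact h1.1.continuous.integrable_of_hasCompactSupport h1.2

variable [IsManifold 𝓘(ℂ, Cm d) ω M]

theorem int_change (he : e ∈ atlas (Cm d) M) (he' : e' ∈ atlas (Cm d) M) (h : a ∈ Ac d e.source)
    (h' : a ∈ Ac d e'.source) (b : SF d M) :
    ∫ z, Bq (vl a e z) (vl b e z) = ∫ z, Bq (vl a e' z) (vl b e' z) := by
  have h0 : ∀ (c c' : Chart d M), c ∈ atlas (Cm d) M → a ∈ Ac d c'.source → ∀ x ∈ c.source,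
      x ∉ c'.source → Bq (vl a c (c x)) (vl b c (c x)) = 0 := by
    rintro c c' hc ⟨K, -, h2, h3⟩ x hx hx'
    rw [h3 x (fun h4 => hx' (h2 h4)) c ⟨hc, hx⟩, Bq_zero_l]
  have h1 : ∀ (c : Chart d M) (φ : ℂ → ℝ), φ 0 = 0 → ∫ z, φ (Bq (vl a c z) (vl b c z)) =
      ∫ z in c.target, 1 * φ (Bq (vl a c z) (vl b c z)) := fun c φ hφ => by
    simp only [one_mul]
    exact (setIntegral_eq_integral_of_forall_compl_eq_zero fun z hz => by
      rw [(vl_isF a).off c z fun h2 => hz h2.2, Bq_zero_l, hφ]).symm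
  have h2 := integral_change (f := fun _ => 1) (dens f1a k1b' a b).1 he he'
    (fun x hx hx' => by rw [h0 e' e he' h x hx hx']; simp)
    fun x hx hx' => by rw [h0 e e' he h' x hx hx']; simp
  have h3 := integral_change (f := fun _ => 1) (dens f1a k1b' a b).2 he he'
    (fun x hx hx' => by rw [h0 e' e he' h x hx hx']; simp)
    fun x hx hx' => by rw [h0 e e' he h' x hx hx']; simp
  rw [← h1 e Complex.re rfl, ← h1 e' Complex.re rfl] at h2
  rw [← h1 e Complex.im rfl, ← h1 e' Complex.im rfl] at h3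
  rw [← integral_re_add_im (Bq_int he h b), ← integral_re_add_im (Bq_int he' h' b)]
  exact congrArg₂ (fun s t : ℝ => (s : ℂ) + t * Complex.I) h2 h3

variable [T2Space M]

theorem ex_Qc : ∃ Q : SF d M →ₗ[ℂ] SF d M →ₗ[ℂ] ℂ, ∀ e ∈ atlas (Cm d) M, ∀ a ∈ Ac d e.source,
    ∀ b, Q a b = ∫ z, Bq (vl a e z) (vl b e z) := by
  choose S hS using fun c : atlas (Cm d) M => LinearMap.exists_extend (p := Ac d c.1.source)
    (LinearMap.mk₂ ℂ
      (fun (a : Ac d c.1.source) (b : SF d M) => ∫ z, Bq (vl a.1 c.1 z) (vl b c.1 z))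
      (fun a a' b => by
        rw [← integral_add (Bq_int c.2 a.2 b) (Bq_int c.2 a'.2 b)]
        exact integral_congr_ae (.of_forall fun z => Bq_add_l _ _ _))
      (fun r a b => by
        rw [smul_eq_mul, ← integral_const_mul]
        exact integral_congr_ae (.of_forall fun z => Bq_smul_l _ _ _))
      (fun a b b' => by
        rw [← integral_add (Bq_int c.2 a.2 b) (Bq_int c.2 a.2 b')]
        exact integral_congr_ae (.of_forall fun z => Bq_add_r _ _ _))
      fun r a b => by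
        rw [smul_eq_mul, ← integral_const_mul]
        exact integral_congr_ae (.of_forall fun z => Bq_smul_r _ _ _))
  have h1 : ∀ c : atlas (Cm d) M, ∀ a ∈ Ac d c.1.source, ∀ b,
      S c a b = ∫ z, Bq (vl a c.1 z) (vl b c.1 z) := fun c a ha b =>
    LinearMap.congr_fun (LinearMap.congr_fun (hS c) ⟨a, ha⟩) b
  obtain ⟨T, hT⟩ := glue0 (fun c : atlas (Cm d) M => c.1.open_source) S fun c c' a h h' =>
    LinearMap.ext fun b => by rw [h1 c a h, h1 c' a h', int_change c.2 c'.2 h h']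
  exact ⟨T, fun e he a ha b => by rw [hT ⟨e, he⟩ a ha, h1 ⟨e, he⟩ a ha]⟩

variable (d M) in
/-- the pairing of a form with compact support (first argument) with a form -/
def Qc : SF d M →ₗ[ℂ] SF d M →ₗ[ℂ] ℂ := ex_Qc.choose

theorem Qc_chart (he : e ∈ atlas (Cm d) M) (h : a ∈ Ac d e.source) (b : SF d M) :
    Qc d M a b = ∫ z, Bq (vl a e z) (vl b e z) := ex_Qc.choose_spec e he a h b

variable (d M) in
/-- the integral of forms with compact support -/
def itc : SF d M →ₗ[ℂ] ℂ := (Qc d M).flip (one d M)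

omit [IsManifold 𝓘(ℂ, Cm d) ω M] [T2Space M] in
theorem int_congr (he : e ∈ atlas (Cm d) M) {F G : Cm d → ℂ} (h : ∀ x, At e x → F (e x) = G (e x))
    (h0 : ∀ z ∉ e.target, F z = G z) : ∫ z, F z = ∫ z, G z :=
  integral_congr_ae (.of_forall fun z => by
    by_cases hz : z ∈ e.target
    · exact e.right_inv hz ▸ h _ (at_tg he hz)
    · exact h0 z hz)

theorem itc_chart (he : e ∈ atlas (Cm d) M) (h : a ∈ Ac d e.source) :
    itc d M a = ∫ z, vl a e z Finset.univ :=
  (Qc_chart he h _).trans (int_congr he (fun x hx => by rw [one_vl e x hx, Bq_one]) fun z hz => by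
    rw [(vl_isF a).off e z fun h2 => hz h2.2, Bq_zero_l, Pi.zero_apply])

/-- reduction to forms supported in small charts -/
theorem Ac_ind (hU : IsOpen U) {P : SF d M → Prop} (h0 : P 0) (ha : ∀ u v, P u → P v → P (u + v))
    (h : ∀ e ∈ atlas (Cm d) M, ∀ u ∈ Ac d (e.source ∩ U), P u) (hu : u ∈ Ac d U) : P u := by
  have h1 : U = ⋃ c : atlas (Cm d) M, c.1.source ∩ U := by
    refine Subset.antisymm (fun x hx => mem_iUnion.2 ⟨⟨_, chart_mem_atlas (Cm d) x⟩,
      mem_chart_source _ x, hx⟩) (iUnion_subset fun _ => inter_subset_right)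
  rw [h1, Ac_iUnion fun c : atlas (Cm d) M => c.1.open_source.inter hU] at hu
  exact Submodule.iSup_induction _ (motive := P) hu (fun c => h c.1 c.2) h0 ha

theorem Ac_ext {W : Type*} [AddCommGroup W] [Module ℂ W] {L R : SF d M →ₗ[ℂ] W}
    (h : ∀ e ∈ atlas (Cm d) M, ∀ u ∈ Ac d e.source, L u = R u) (hu : u ∈ Ac d univ) :
    L u = R u :=
  Ac_ind (P := fun u => L u = R u) isOpen_univ (by simp) (fun u v h1 h2 => by simp [h1, h2])
    (fun e he u hu => h e he u (Ac_mono inter_subset_left hu)) hu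

theorem Qc_op {F : Rw d M (Fm d)} {T : Module.End ℂ (SF d M)} (hT : IsOp F T) {b b' : SF d M}
    (h : ∀ e x, At e x → ∀ u, Bq (F e (e x) *ᵥ u) (vl b e (e x)) = Bq u (vl b' e (e x)))
    (ha : a ∈ Ac d univ) : Qc d M (T a) b = Qc d M a b' :=
  Ac_ext (L := (Qc d M).flip b ∘ₗ T) (R := (Qc d M).flip b') (fun e he a ha => by
    rw [LinearMap.comp_apply, LinearMap.flip_apply, LinearMap.flip_apply,
      Qc_chart he (op_Ac hT ha), Qc_chart he ha]
    exact int_congr he (fun x hx => by rw [hT a e x hx, h e x hx]) fun z hz => by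
      rw [(vl_isF _).off e z fun h2 => hz h2.2, (vl_isF a).off e z fun h2 => hz h2.2, Bq_zero_l,
        Bq_zero_l]) ha

theorem Qc_mu {ρ : M → ℝ} (hρ : SmoothFn (n := d) ρ) (ha : a ∈ Ac d univ) (b : SF d M) :
    Qc d M (mu hρ a) b = Qc d M a (mu hρ b) :=
  Qc_op (opr_vl _) (fun e x hx u => by
    rw [mu_vl _ _ hx, e.left_inv hx.2, Matrix.smul_mulVec, Matrix.one_mulVec, Bq_smul_l,
      Bq_smul_r]) ha

/-- the pairing is the integral of the wedge product -/
theorem Qc_eq (ha : a ∈ Ac d univ) (b : SF d M) :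
    Qc d M a b = itc d M (wd (opr _ (cov_dgl fun q => (-1) ^ q.choose 2) b) a) :=
  (Qc_op (opr_vl (cov_wg _)) (fun e x hx u => by
    rw [one_vl e x hx, Bq_one, Bq_eq, opr_vl (cov_dgl fun q => (-1) ^ q.choose 2) b e x hx]
    rfl) ha).symm

theorem Qc_Dg {m : ℕ} (ha : a ∈ Ac d univ) (hb : b ∈ Dg d M m) :
    Qc d M a b = (-1) ^ m.choose 2 * itc d M (wd b a) := by
  have h : opr _ (cov_dgl fun q => (-1) ^ q.choose 2) b = ((-1 : ℂ) ^ m.choose 2) • b :=
    ext' fun e x he => funext fun I => by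
      rw [opr_vl (cov_dgl fun q => (-1) ^ q.choose 2) b e x he, dgl_mulVec, vl_smul,
        Pi.smul_apply, smul_eq_mul]
      by_cases h1 : I.card = m
      · rw [h1]
      · rw [hb e _ I fun h2 => h1 (Nat.cast_injective h2), mul_zero, mul_zero]
  rw [Qc_eq ha, h, wd_smul, map_smul, smul_eq_mul]

/-- the pairing only depends on the values on the support -/
theorem Qc_zero (hK : IsCompact K) (ha : a ∈ Sp d K) (hb : ∀ x ∈ K, b ∈ ZP x) :
    Qc d M a b = 0 := by
  have h : wd (opr _ (cov_dgl fun q => (-1) ^ q.choose 2) b) a = 0 := eq_zero_of_ZP fun x => by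
    by_cases hx : x ∈ K
    · exact wd_ZP_left (op_ZP (opr_vl _) (hb x hx)) a
    · exact op_ZP (opr_vl (cov_wg _)) (ha x hx)
  rw [Qc_eq ⟨K, hK, subset_univ _, ha⟩, h, map_zero]

/-- Stokes formula -/
theorem Qc_dd (ha : a ∈ Ac d univ) (b : SF d M) :
    Qc d M (dd d M a) b = -Qc d M a (dd d M b) :=
  Ac_ext (L := (Qc d M).flip b ∘ₗ dd d M) (R := -(Qc d M).flip (dd d M b)) (fun e he a ha => by
    have h2 := fun c => Bq_chart he ha b (eps c)
    have h3 := fun c => int_dr ka c (h2 c).1 (h2 c).2 fun z => image_eq_zero_of_notMem_tsupport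
    rw [LinearMap.comp_apply, LinearMap.neg_apply, LinearMap.flip_apply, LinearMap.flip_apply,
      Qc_chart he (dd_Ac ha), Qc_chart he ha, eq_neg_iff_add_eq_zero,
      ← integral_add (Bq_int he (dd_Ac ha) b) (Bq_int he ha _),
      int_congr (G := fun z => ∑ c, dr c (fun y => Bq (eps c *ᵥ vl a e y) (vl b e y)) z) he
        (fun x hx => ?_) fun z hz => ?_, integral_finsetSum _ fun c _ => (h3 c).1]
    · exact Finset.sum_eq_zero fun c _ => ka.stokes c (h2 c).1 (h2 c).2
    · rw [dd_vl a hx, dd_vl b hx, ka.Bq_dT (dif a hx) (dif b hx)]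
    · obtain ⟨K, k1, k2, k3⟩ := ha
      rw [(vl_isF _).off e z fun h2 => hz h2.2, (vl_isF a).off e z fun h2 => hz h2.2, Bq_zero_l,
        Bq_zero_l, add_zero]
      refine (Finset.sum_eq_zero fun c _ => (int_dr ka c (h2 c).1
        (k1.image_of_continuousOn (e.continuousOn.mono k2)) fun z hz => ?_).2 z ?_).symm
      · rw [Sp_chart he k3 hz, Matrix.mulVec_zero, Bq_zero_l]
      · rintro ⟨y, hy, rfl⟩
        exact hz (e.map_source (k2 hy))) ha

theorem itc_dd (ha : a ∈ Ac d univ) : itc d M (dd d M a) = 0 := by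
  rw [itc, LinearMap.flip_apply, Qc_dd ha, dd_one, map_zero, neg_zero]

theorem itc_pj (ha : a ∈ Ac d univ) : itc d M (pj d M (d + d : ℕ) a) = itc d M a :=
  Ac_ext (L := itc d M ∘ₗ pj d M (d + d : ℕ)) (fun e he a ha => by
    rw [LinearMap.comp_apply, itc_chart he (pj_Ac _ ha), itc_chart he ha]
    exact int_congr he (fun x hx => by rw [pj_vl _ _ hx, if_pos (by simp)]) fun z hz => by
      rw [(vl_isF _).off e z fun h2 => hz h2.2, (vl_isF a).off e z fun h2 => hz h2.2]) ha

theorem itc_Dg (ha : a ∈ Am d k univ) (hk : k ≠ (d + d : ℕ)) : itc d M a = 0 := by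
  rw [← itc_pj ha.1, pj_ne ha.2 hk.symm, map_zero]

theorem Qc_symm (ha : a ∈ Ac d univ) (hb : b ∈ Ac d univ) :
    Qc d M a b = (-1) ^ d * Qc d M b a :=
  Ac_ext (L := (Qc d M).flip b) (R := ((-1 : ℂ) ^ d) • Qc d M b) (fun e he a ha => by
    obtain ⟨K, k1, k2, k3⟩ := id ha
    obtain ⟨χ, c1, c2, c3, -, -, c4⟩ := ex_cut (d := d) e.open_source k1 k2
    have h : mu c1 a = a := ext' fun e' x hx => by
      rw [mu_vl _ _ hx]
      by_cases h1 : x ∈ K
      · rw [(c4 x h1).self_of_nhds, Complex.ofReal_one, one_smul]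
      · rw [k3 x h1 e' hx, smul_zero]
    rw [LinearMap.flip_apply, LinearMap.smul_apply, smul_eq_mul, ← h,
      Qc_mu c1 (Ac_mono (subset_univ _) ha), ← Qc_mu c1 hb, Qc_chart he ha,
      Qc_chart he (mu_mem_Ac c1 c2 c3 b), ← integral_const_mul]
    exact integral_congr_ae (.of_forall fun z => f1a.Bq_symm _ _)) ha

theorem realX_Q [CompactSpace M] {X : Cx (SF d M) d} (hX : RealX X) : X.Q = Qc d M :=
  LinearMap.ext fun a => Ac_ext (fun e he a ha => LinearMap.ext fun b => by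
    obtain ⟨K, k1, k2, k3⟩ := id ha
    rw [hX.Q, Qc_chart he ha]
    exact itg_supp (dens f1a k1b' a b) he k1.isClosed k2
      (fun e' x h1 h2 => by rw [k3 x h2 e' h1, Bq_zero_l]) (Bq_int he ha b) (fun _ _ => rfl)
      fun z hz => by rw [(vl_isF a).off e z fun h2 => hz h2.2, Bq_zero_l])
    (by rw [Ac_univ]; trivial)

/-- every nonempty open set carries a top form of integral one -/
theorem ex_itc_one (hU : U ∈ 𝓝 x) : ∃ u ∈ Am d (d + d : ℕ) U, itc d M u = 1 := by
  have he := ca (d := d) x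
  set e := chartAt (Cm d) x
  obtain ⟨χ, c1, c2, c3, c4, -, c5⟩ :=
    ex_bump (d := d) (inter_mem (e.open_source.mem_nhds he.2) hU)
  have c6 := c3.trans inter_subset_left
  have h0 : ∀ z ∈ e.target, z ∉ e '' tsupport χ → χ (e.symm z) = 0 := fun z hz h =>
    image_eq_zero_of_notMem_tsupport fun h1 => h ⟨_, h1, e.right_inv hz⟩
  obtain ⟨v, h1, h2⟩ := loc k1b' e (tsupport χ)
    (fun z => (χ (e.symm z) : ℂ) • ev Finset.univ) he.1 c2 c6 (fun z hz => by
      have h := c1 e _ (at_tg he.1 hz)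
      rw [e.right_inv hz] at h
      exact ((Complex.ofRealCLM.contDiff.contDiffAt.comp _ h).smul
        contDiffAt_const).contDiffWithinAt)
    fun z hz h => by rw [h0 z hz h, Complex.ofReal_zero, zero_smul]
  have hv : v ∈ Ac d e.source := ⟨_, c2, c6, h2⟩
  have h3 : ∀ z, vl v e z Finset.univ = (e.target.indicator (fun z => χ (e.symm z)) z : ℝ) :=
    fun z => by
      by_cases hz : z ∈ e.target
      · rw [h1 z hz, indicator_of_mem hz]
        simp [ev]
      · rw [(vl_isF v).off e z fun h2 => hz h2.2, indicator_of_notMem hz]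
        simp
  have h4 := cd_chart (g := e.target.indicator fun z => χ (e.symm z)) c2 c6 (fun y hy =>
    (c1 e y ⟨he.1, c6 hy⟩).congr_of_eventuallyEq (mem_of_superset
      (e.open_target.mem_nhds (e.map_source (c6 hy))) fun z hz => indicator_of_mem hz _))
    fun z hz => by
      by_cases h : z ∈ e.target
      · rw [indicator_of_mem h, h0 z h hz]
      · exact indicator_of_notMem h _
  have h5 : 0 < ∫ z, e.target.indicator (fun z => χ (e.symm z)) z :=
    h4.1.continuous.integral_pos_of_hasCompactSupport_nonneg_nonzero h4.2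
      (fun z => indicator_nonneg (fun _ _ => c4 _) z) (x := e x) (by
        rw [indicator_of_mem (e.map_source he.2), e.left_inv he.2, c5.self_of_nhds]
        exact one_ne_zero)
  have h6 : itc d M v ≠ 0 := by
    rw [itc_chart he.1 hv]
    simp only [h3, integral_complex_ofReal]
    exact Complex.ofReal_ne_zero.2 h5.ne'
  refine ⟨(itc d M v)⁻¹ • pj d M (d + d : ℕ) v, Submodule.smul_mem _ _
    (pj_Am _ ⟨_, c2, c3.trans inter_subset_right, h2⟩), ?_⟩
  rw [map_smul, itc_pj (Ac_mono (subset_univ _) hv), smul_eq_mul, inv_mul_cancel₀ h6]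

end Vale.Agent.P275MC
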