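import Vale.Agent.P275MC.Cl
import Vale.Agent.P275AR.Hc

/-!
# P275, model of currents: Poincare duality
-/

open scoped Manifold ContDiff Topology
open CategoryTheory TopologicalSpace P275S Module CochainComplex.HomComplex Set Filter MeasureTheory
open Vale.Agent.P272.K Vale.Agent.P281Z Vale.Agent.P281Z.Hg Vale.Agent.P281Z.Hg.G1H
  Vale.Agent.P281Z.Hg.G2H Vale.Agent.P281Z.Hg.Pb1H
open Vale.Agent.P275AR (Hc dc Act Nb poincare)
open Vale.Agent.P275FM (Coh Ch)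

set_option backward.isDefEq.respectTransparency false
set_option linter.unusedSectionVars false

noncomputable section

namespace Vale.Agent.P275MC

variable {d : ℕ} {M : Type} [TopologicalSpace M] [ChartedSpace (Cm d) M]
  [IsManifold 𝓘(ℂ, Cm d) ω M] [T2Space M] {a b u v w : SF d M} {V W : Set M} {l m n p q : ℤ}

theorem dd_pj (h0 : dd d M w = 0) (n : ℤ) : dd d M (pj d M n w) = 0 := by
  rw [← pj_dd, h0, map_zero]

theorem Zf_ind {P : Zf d M → Prop} (h0 : P 0) (ha : ∀ v w, P v → P w → P (v + w))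
    (h : ∀ (n : ℕ) w (_ : w ∈ Dg d M n) (h0 : dd d M w = 0), P ⟨w, h0⟩) (w : Zf d M) : P w := by
  have e : w = ∑ n ∈ Finset.range (d + d + 1), (⟨pj d M (n : ℕ) w.1, dd_pj w.2 _⟩ : Zf d M) :=
    Subtype.ext (by rw [Submodule.coe_sum, pj_sum])
  rw [e]
  exact Finset.sum_induction _ P ha h0 fun n _ => h n _ (pj_mem _ _) _

theorem wd_mem_Zf (a b : Zf d M) : wd a.1 b.1 ∈ Zf d M := by
  change dd d M _ = 0
  rw [dd_wd, show dd d M a.1 = 0 from a.2, show dd d M b.1 = 0 from b.2, wd_zero, map_zero,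
    add_zero]

theorem cl_ne (hw : w ∈ Dg d M n) (h0 : dd d M w = 0) (h : m ≠ n) : cl m ⟨w, h0⟩ = 0 :=
  (cl_congr (w := 0) ((pj_ne hw h).trans (map_zero _).symm)).trans (map_zero _)

/-- the cohomology class of a closed form -/
def clT : Zf d M →ₗ[ℂ] H ℂ (TopCat.of M) := ∑ n ∈ Finset.range (d + d + 1), cl (n : ℕ)

theorem clT_Dg (hw : w ∈ Dg d M n) (h0 : dd d M w = 0) : clT ⟨w, h0⟩ = cl n ⟨w, h0⟩ := by
  rw [clT, LinearMap.sum_apply]
  by_cases h : 0 ≤ n ∧ n ≤ (d + d : ℕ)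
  · obtain ⟨k, rfl⟩ := Int.eq_ofNat_of_zero_le h.1
    exact Finset.sum_eq_single_of_mem k (Finset.mem_range.2 (by omega)) fun j _ hj =>
      cl_ne hw h0 (by omega)
  · obtain rfl : w = 0 := by
      rcases not_and_or.1 h with h | h
      · exact (Dg_neg (by omega)).le hw
      · exact (Dg_big (by omega)).le hw
    exact (Finset.sum_eq_zero fun j _ => map_zero (cl _)).trans (map_zero (cl n)).symm

theorem clT_zero (h0 : w ∈ Zf d M) (h : w = 0) : clT ⟨w, h0⟩ = 0 := by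
  subst h
  exact map_zero clT

theorem pr_clT (n : ℤ) (w : Zf d M) : KG.pr n (clT w) = cl n w := by
  induction w using Zf_ind with
  | h0 => simp only [map_zero]
  | ha v w h1 h2 => rw [map_add, map_add, h1, h2, map_add]
  | h k w hw h0 =>
    rw [clT_Dg hw]
    by_cases e : n = k
    · rw [e]
      exact KG.pr_of_mem (cl_mem _ _)
    · rw [cl_ne hw h0 e]
      exact KG.pr_of_ne (cl_mem _ _) (Ne.symm e)

theorem clT_one : clT ⟨one d M, dd_one⟩ = (1 : H ℂ (TopCat.of M)) := (clT_Dg one_Dg _).trans cl_one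

theorem clT_wd (a b : Zf d M) : clT ⟨wd a.1 b.1, wd_mem_Zf a b⟩ = clT a * clT b := by
  induction a using Zf_ind with
  | h0 =>
    rw [map_zero, zero_mul]
    exact clT_zero _ (wd_zero b.1)
  | ha v w h1 h2 =>
    rw [map_add, add_mul, ← h1, ← h2, ← map_add]
    exact congrArg clT (Subtype.ext (wd_add _ _ _))
  | h k a ha h0 =>
    induction b using Zf_ind with
    | h0 =>
      rw [map_zero clT, mul_zero]
      exact clT_zero _ (map_zero (wd a))
    | ha v w h1 h2 =>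
      rw [map_add clT, mul_add, ← h1, ← h2, ← map_add]
      exact congrArg clT (Subtype.ext (map_add _ _ _))
    | h j b hb h1 =>
      rw [clT_Dg ha, clT_Dg hb, clT_Dg (wd_Dg ha hb)]
      exact cl_wd rfl ha hb h0 h1

theorem clT_dd (v : SF d M) : clT ⟨dd d M v, dd_dd v⟩ = 0 := by
  rw [clT, LinearMap.sum_apply]
  exact Finset.sum_eq_zero fun _ _ => cl_dd v

theorem ch_wd (V : Set M) (w : Zf d M) :
    Ch (dc d V) (dc d V) ((wd w.1).restrict fun _ => wd_Ac _) := by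
  refine ⟨fun z hz => Subtype.ext (wd_mem_Zf w ⟨z.1, congrArg Subtype.val hz⟩), fun y => ?_⟩
  induction w using Zf_ind with
  | h0 => exact ⟨0, Subtype.ext ((wd_zero _).trans (map_zero (dd d M)).symm)⟩
  | ha v w h1 h2 =>
    obtain ⟨s, hs⟩ := h1
    obtain ⟨t, ht⟩ := h2
    exact ⟨s + t, by rw [map_add, ← hs, ← ht]; exact Subtype.ext (wd_add _ _ _)⟩
  | h k w hw h0 =>
    refine ⟨(k : ℤ).negOnePow • ⟨wd w y.1, wd_Ac _ y.2⟩, Subtype.ext ?_⟩
    change wd w (dd d M y.1) = dd d M ((k : ℤ).negOnePow • wd w y.1)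
    rw [map_zsmul_unit, dd_wd' hw h0, smul_smul, Int.units_mul_self, one_smul]

/-- the wedge product with a closed form on cohomology with compact supports -/
def wH (V : Set M) : Zf d M →ₗ[ℂ] Module.End ℂ (Hc d V) where
  toFun w := Coh.map _ (ch_wd V w)
  map_add' v w := LinearMap.ext fun x => by
    obtain ⟨z, hz, rfl⟩ := Coh.ind x
    exact (Coh.mk_congr (Subtype.ext (wd_add _ _ _)) _).trans
      (Coh.mk_add ((ch_wd V v).cyc z hz) ((ch_wd V w).cyc z hz) _)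
  map_smul' c w := LinearMap.ext fun x => by
    obtain ⟨z, hz, rfl⟩ := Coh.ind x
    exact (Coh.mk_congr (Subtype.ext (wd_smul _ _ _)) _).trans
      (Coh.mk_smul c ((ch_wd V w).cyc z hz) _)

theorem wH_mk (w : Zf d M) (z : Ac d V) (hz : dc d V z = 0) :
    wH V w (Coh.mk z hz) = Coh.mk ⟨wd w.1 z.1, wd_Ac _ z.2⟩ ((ch_wd V w).cyc z hz) := rfl

theorem wH_act (w : Zf d M) (h : Act V V (wd w.1)) : wH V w = h.map := rfl

theorem wH_eq_zero (w : Zf d M) (h : ∀ x ∈ V, dd d M v - w.1 ∈ ZP x) : wH V w = 0 :=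
  LinearMap.ext fun x => by
    obtain ⟨z, hz, rfl⟩ := Coh.ind x
    refine Coh.mk_eq_zero.2 ⟨⟨wd v z.1, wd_Ac _ z.2⟩, Subtype.ext ?_⟩
    change wd w.1 z.1 = dd d M (wd v z.1)
    obtain ⟨K, -, k2, k3⟩ := z.2
    rw [dd_wd, show dd d M z.1 = 0 from congrArg Subtype.val hz, map_zero, add_zero, eq_comm,
      ← sub_eq_zero, sub_eq_add_neg, ← neg_one_smul ℂ (wd w.1 z.1), ← wd_smul, ← wd_add,
      neg_one_smul, ← sub_eq_add_neg]
    refine eq_zero_of_ZP fun x => ?_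
    by_cases hx : x ∈ K
    · exact wd_ZP_left (h x (k2 hx)) _
    · exact op_ZP (opr_vl _) (k3 x hx)

variable (d) in
/-- integration -/
def itH (V : Set M) : Hc d V →ₗ[ℂ] ℂ :=
  Submodule.liftQ _ (itc d M ∘ₗ (Ac d V).subtype ∘ₗ (LinearMap.ker (dc d V)).subtype)
    fun _ ⟨y, hy⟩ => (congrArg (fun t : Ac d V => itc d M t.1) hy.symm).trans
      (itc_dd (Ac_mono (subset_univ _) y.2))

theorem itH_mk (z : Ac d V) (hz : dc d V z = 0) : itH d V (Coh.mk z hz) = itc d M z.1 := rfl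

variable (d) in
/-- forgetting the supports -/
def toH (V : Set M) : Hc d V →ₗ[ℂ] H ℂ (TopCat.of M) :=
  Submodule.liftQ _ (clT ∘ₗ (Ac d V).subtype.restrict (p := LinearMap.ker (dc d V))
    fun _ h => congrArg Subtype.val h) fun _ ⟨y, hy⟩ =>
      (congrArg clT (Subtype.ext (congrArg Subtype.val hy).symm)).trans (clT_dd y.1)

theorem toH_mk (z : Ac d V) (hz : dc d V z = 0) :
    toH d V (Coh.mk z hz) = clT ⟨z.1, congrArg Subtype.val hz⟩ := rfl

variable (d) in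
/-- the degree `k` part -/
def prH (V : Set M) (k : ℤ) : Module.End ℂ (Hc d V) :=
  Coh.map ((pj d M k).restrict fun _ => pj_Ac k)
    ⟨fun _ hz => Subtype.ext (dd_pj (congrArg Subtype.val hz) k), fun y =>
      ⟨⟨pj d M (k - 1) y.1, pj_Ac _ y.2⟩, Subtype.ext (by
        have h := pj_dd (k - 1) y.1
        rwa [sub_add_cancel] at h)⟩⟩

theorem prH_mk (k : ℤ) (z : Ac d V) (hz : dc d V z = 0) : prH d V k (Coh.mk z hz) =
    Coh.mk ⟨pj d M k z.1, pj_Ac k z.2⟩ (Subtype.ext (dd_pj (congrArg Subtype.val hz) k)) := rfl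

theorem Hc_ind {P : Hc d V → Prop} (h0 : P 0) (ha : ∀ x y, P x → P y → P (x + y))
    (h : ∀ (k : ℕ) z (hz : z ∈ Am d k V) (h0 : dd d M z = 0),
      P (Coh.mk ⟨z, hz.1⟩ (Subtype.ext h0))) (x : Hc d V) : P x := by
  obtain ⟨z, hz, rfl⟩ := Coh.ind x
  have h1 : dd d M z.1 = 0 := congrArg Subtype.val hz
  have e : z = ∑ n ∈ Finset.range (d + d + 1), (⟨pj d M (n : ℕ) z.1, pj_Ac _ z.2⟩ : Ac d V) :=
    Subtype.ext (by rw [Submodule.coe_sum, pj_sum])
  rw [Coh.mk_congr e, Coh.mk_sum _ fun n => Subtype.ext (dd_pj h1 _)]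
  exact Finset.sum_induction _ P ha h0 fun n _ => h n _ (pj_Am _ z.2) (dd_pj h1 _)

theorem itc_wd_pj (hw : w ∈ Dg d M m) (hu : u ∈ Ac d univ) :
    itc d M (wd w (pj d M ((d + d : ℕ) - m) u)) = itc d M (wd w u) := by
  conv_rhs => rw [← pj_sum u, map_sum, map_sum]
  by_cases h : 0 ≤ (d + d : ℕ) - m ∧ (d + d : ℕ) - m ≤ (d + d : ℕ)
  · obtain ⟨k, hk⟩ := Int.eq_ofNat_of_zero_le h.1
    rw [hk]
    exact (Finset.sum_eq_single_of_mem k (Finset.mem_range.2 (by omega)) fun j _ hj =>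
      itc_Dg (wd_Am hw (pj_Am _ hu)) (by omega)).symm
  · obtain rfl : w = 0 := by
      rcases not_and_or.1 h with h | h
      · exact (Dg_big (by omega)).le hw
      · exact (Dg_neg (by omega)).le hw
    simp only [wd_zero, map_zero, Finset.sum_const_zero]

/-- the sign between forms and currents -/
def sg (m : ℤ) : ℂ := ((m * (m + 1) / 2).negOnePow : ℂ)

theorem sg_sq (m : ℤ) : sg m * sg m = 1 := neg_sq _

theorem sg_ne (m : ℤ) : sg m ≠ 0 := left_ne_zero_of_mul_eq_one (sg_sq m)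

theorem sg_nat (n : ℕ) : sg n = (-1) ^ (n + n.choose 2) := by
  rw [sg, ← Int.cast_negOnePow_natCast, add_comm n, ← Nat.choose_one_right n,
    Nat.choose_one_right n, show n.choose 2 + n = (n + 1).choose 2 by
      rw [Nat.choose_succ_succ' n 1, Nat.choose_one_right, add_comm], Nat.choose_two_right]
  simp [mul_comm]

theorem sg_add (m c : ℤ) : sg (m + 2 * c) = (c.negOnePow : ℂ) * sg m := by
  obtain ⟨t, ht⟩ := Int.even_mul_succ_self m
  rw [sg, sg, show (m + 2 * c) * (m + 2 * c + 1) = 2 * (c + t + 2 * (c * m + c * c)) by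
    linear_combination ht, ht, ← two_mul, Int.mul_ediv_cancel_left _ two_ne_zero,
    Int.mul_ediv_cancel_left _ two_ne_zero, Int.negOnePow_add, Int.negOnePow_two_mul, mul_one,
    Int.negOnePow_add, Units.val_mul, Int.cast_mul]

theorem cv'_fm {U : Opens (TopCat.of M)} (hw : w ∈ Dg d M m)
    (hu : u ∈ Am d ((d + d : ℕ) - m) (U : Set M)) :
    cv' (app ((ιDC d M).f m) U (fm m U w)) ⟨u, hu⟩ = sg m * itc d M (wd w u) := by
  by_cases h : 0 ≤ m
  · obtain ⟨k, rfl⟩ := Int.eq_ofNat_of_zero_le h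
    rw [ιDC_fm, cv'_curOf, pj_eq hw, map_smul, Qc_Dg (Ac_mono (subset_univ _) hu.1) hw, sg_nat,
      Int.cast_negOnePow_natCast, smul_eq_mul, pow_add, mul_assoc]
  · obtain rfl : w = 0 := (Dg_neg (by omega)).le hw
    simp only [map_zero, wd_zero, mul_zero]
    rfl

theorem zero_const [PreconnectedSpace M] (hw : w ∈ Dg d M 0) (h0 : dd d M w = 0) :
    ∃ c : ℂ, w = c • one d M := by
  have h1 : ∀ x, ∃ c : ℂ, w - c • one d M ∈ Nb x := fun x => by
    obtain ⟨v, c, h⟩ := poincare (u := w) (x := x) (h0 ▸ zero_mem _)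
    have h2 := P275AR.op_Nb (T := pj d M 0) (opr_vl _) h
    have h3 := pj_dd (-1) v
    rw [neg_add_cancel, (Dg_neg (by simp)).le (pj_mem (-1) v), map_zero] at h3
    rw [map_add, map_sub, h3, pj_eq hw, map_smul, pj_eq one_Dg, zero_sub, neg_add_eq_sub] at h2
    exact ⟨c, by rw [← neg_sub]; exact neg_mem h2⟩
  choose c hc using h1
  have h2 : ∀ x (s : ℂ), w - s • one d M ∈ ZP x → s = c x := fun x s h => by
    have h3 := congrFun (sub_mem (P275AR.Nb_ZP (hc x)) h _ (ca x)) ∅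
    rw [sub_sub_sub_cancel_left, ← sub_smul, vl_smul, one_vl _ x (ca x)] at h3
    simpa [Vale.Agent.P299.IX.Fock.ev, sub_eq_zero] using h3
  obtain ⟨s, hs⟩ := ((IsLocallyConstant.iff_eventually_eq c).2 fun x =>
    Eventually.mono (hc x) fun y hy => (h2 y _ hy).symm).exists_eq_const
  exact ⟨s, sub_eq_zero.1 (eq_zero_of_ZP fun x =>
    (show c x = s from congrFun hs x) ▸ P275AR.Nb_ZP (hc x))⟩

section pull

variable {d' : ℕ} {N : Type} [TopologicalSpace N] [ChartedSpace (Cm d') N] [T2Space N]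
  [IsManifold 𝓘(ℂ, Cm d') ω N] {f : M → N}

theorem clT_pb (hf : Smo d d' f) (w : Zf d' N) :
    clT ⟨pb hf w.1, pb_Zf hf w⟩ = P275S.pb (tm hf) (clT w) := by
  induction w using Zf_ind with
  | h0 =>
    rw [map_zero clT, map_zero (P275S.pb (k := ℂ) (tm hf))]
    exact clT_zero _ (map_zero (pb hf))
  | ha v w h1 h2 =>
    rw [map_add clT, map_add (P275S.pb (k := ℂ) (tm hf)), ← h1, ← h2, ← map_add]
    exact congrArg clT (Subtype.ext (map_add _ _ _))
  | h k w hw h0 => rw [clT_Dg hw, clT_Dg (pb_Dg hf hw), ← cl_pb]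

theorem toH_pb {hf : Smo d d' f} {V' : Set N} (h : Act V' V (pb hf)) (x : Hc d' V') :
    toH d V (h.map x) = P275S.pb (tm hf) (toH d' V' x) := by
  obtain ⟨z, hz, rfl⟩ := Coh.ind x
  exact clT_pb hf ⟨z.1, congrArg Subtype.val hz⟩

end pull

variable [SecondCountableTopology M]

theorem clT_surj : Function.Surjective (clT (d := d) (M := M)) := fun α => by
  refine KG.ind_deg (P := fun α => ∃ w : Zf d M, clT w = α) ⟨0, map_zero _⟩ (fun n α h => ?_)
    (fun _ _ ⟨v, hv⟩ ⟨w, hw⟩ => ⟨v + w, by rw [map_add, hv, hw]⟩) α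
  obtain ⟨w, hw, h0, e⟩ := cl_surj (d := d) h
  exact ⟨_, (clT_Dg hw h0).trans e⟩

theorem clT_eq_zero_iff (w : Zf d M) : clT w = 0 ↔ ∃ v, dd d M v = w.1 := by
  refine ⟨fun h => ?_, fun ⟨v, e⟩ => (congrArg clT (Subtype.ext e.symm)).trans (clT_dd v)⟩
  have h1 : ∀ n : ℕ, ∃ v, dd d M v = pj d M n w.1 := fun n => by
    obtain ⟨v, -, e⟩ := (cl_eq_zero_iff (pj_mem n w.1) (dd_pj w.2 _)).1 (by
      rw [cl_congr (w := w) (pj_eq (pj_mem _ _)), ← pr_clT, h, map_zero])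
    exact ⟨v, e⟩
  choose v hv using h1
  exact ⟨∑ n ∈ Finset.range (d + d + 1), v n, by simp only [map_sum, hv, pj_sum]⟩

theorem H_ind {P : H ℂ (TopCat.of M) → Prop} (h0 : P 0) (ha : ∀ v w, P v → P w → P (v + w))
    (h : ∀ (n : ℕ) w (_ : w ∈ Dg d M n) (h0 : dd d M w = 0), P (cl n ⟨w, h0⟩))
    (α : H ℂ (TopCat.of M)) : P α := by
  obtain ⟨w, rfl⟩ := clT_surj (d := d) α
  induction w using Zf_ind with
  | h0 => rwa [map_zero]
  | ha v w h1 h2 => exact map_add clT v w ▸ ha _ _ h1 h2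
  | h k w hw h1 => exact clT_Dg hw h1 ▸ h k w hw h1

theorem ex_hm (V : Set M) : ∃ L : H ℂ (TopCat.of M) →ₗ[ℂ] Module.End ℂ (Hc d V),
    ∀ w, L (clT w) = wH V w :=
  ex_fac _ _ fun w h =>
    let ⟨_, e⟩ := (clT_eq_zero_iff w).1 h
    wH_eq_zero w fun x _ => by rw [e, sub_self]; exact zero_mem _

variable (d) in
/-- cohomology acts on cohomology with compact supports -/
def hm (V : Set M) : H ℂ (TopCat.of M) →ₐ[ℂ] Module.End ℂ (Hc d V) :=
  AlgHom.ofLinearMap (ex_hm V).choose (by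
    rw [← clT_one (d := d), (ex_hm V).choose_spec]
    refine LinearMap.ext fun x => ?_
    obtain ⟨z, hz, rfl⟩ := Coh.ind x
    exact Coh.mk_congr (Subtype.ext (one_wd _)) _) fun α β => by
    obtain ⟨a, rfl⟩ := clT_surj (d := d) α
    obtain ⟨b, rfl⟩ := clT_surj (d := d) β
    rw [← clT_wd, (ex_hm V).choose_spec, (ex_hm V).choose_spec, (ex_hm V).choose_spec]
    refine LinearMap.ext fun x => ?_
    obtain ⟨z, hz, rfl⟩ := Coh.ind x
    exact Coh.mk_congr (Subtype.ext (wd_wd _ _ _)) _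

theorem hm_clT (w : Zf d M) : hm d V (clT w) = wH V w := (ex_hm V).choose_spec w

theorem hm_cl (hw : w ∈ Dg d M n) (h0 : dd d M w = 0) :
    hm d V (cl n ⟨w, h0⟩) = wH V ⟨w, h0⟩ := by rw [← clT_Dg hw, hm_clT]

theorem toH_hm (α : H ℂ (TopCat.of M)) (x : Hc d V) : toH d V (hm d V α x) = α * toH d V x := by
  obtain ⟨a, rfl⟩ := clT_surj (d := d) α
  obtain ⟨z, hz, rfl⟩ := Coh.ind x
  rw [hm_clT]
  exact clT_wd a ⟨z.1, congrArg Subtype.val hz⟩

variable (d) in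
/-- the Poincare pairing -/
def pdL (V : Set M) : H ℂ (TopCat.of M) →ₗ[ℂ] Dual ℂ (Hc d V) :=
  LinearMap.llcomp ℂ _ _ _ (itH d V) ∘ₗ (hm d V).toLinearMap

theorem pdL_apply (α : H ℂ (TopCat.of M)) (x : Hc d V) : pdL d V α x = itH d V (hm d V α x) := rfl

theorem pdL_clT (w : Zf d M) (z : Ac d V) (hz : dc d V z = 0) :
    pdL d V (clT w) (Coh.mk z hz) = itc d M (wd w.1 z.1) := by
  rw [pdL_apply, hm_clT]
  rfl

theorem pdL_cl (hw : w ∈ Dg d M n) (h0 : dd d M w = 0) (z : Ac d V) (hz : dc d V z = 0) :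
    pdL d V (cl n ⟨w, h0⟩) (Coh.mk z hz) = itc d M (wd w z.1) :=
  clT_Dg hw h0 ▸ pdL_clT ⟨w, h0⟩ z hz

theorem qis_gam_σI (U : Opens (TopCat.of M)) : QuasiIso ((mapC (Gam ℂ U)).map (σI d M)) :=
  have := nice (d := d) (M := M)
  qis_gam flqC_Cur.softC (softC_I ℂ _) _ U

/-- the pairing with the class of a closed current -/
theorem pdL_cur {α : H ℂ (TopCat.of M)} (T : sec ((Cur d M).X m) ⊤)
    (hT : app ((Cur d M).d m (m + 1)) ⊤ T = 0)
    (h : unit ℂ _ ≫ α = gcl T hT ≫ KG.hom ℂ (σI d M)) (z : Ac d V) (hz : dc d V z = 0) :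
    pdL d V α (Coh.mk z hz) =
      sg m * cv' T ⟨pj d M _ z.1, pj_Am _ (Ac_mono (subset_univ _) z.2)⟩ := by
  have := qis_gam_σI (d := d) (M := M) ⊤
  obtain ⟨w, hw, h0, rfl⟩ := cl_surj (d := d) (n := m) (α := α) (by
    rw [← evK_mem_iff (𝟙 _), evK_apply, uK_id, mul_id, h]
    exact KG.comp_mem_deg (add_zero m) (gcl_mem _ _) (KG.hom_mem_deg _))
  rw [unit_cl, ρI, KG.hom_comp, ← Category.assoc, gcl_comp_hom _ _ (ιDC d M), gcl_comp_hom,
    gcl_comp_hom, gcl_eq_iff _ _ _ _ (m - 1) (sub_add_cancel m 1), ← map_sub] at h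
  obtain ⟨t, ht⟩ := h
  obtain ⟨s, hs⟩ := gam_inj (σI d M) _ (by
    rw [map_sub, hT, hom_app_cocycle _ (d_Zf m ⟨w, h0⟩), sub_zero]) t ht
  have h1 := (CoC.ex_d (C := amC d M) (sub_add_cancel m 1)).1 ⟨s, hs⟩ _
    (pj_Am _ (Ac_mono (subset_univ _) z.2)) (dd_pj (congrArg Subtype.val hz) _)
  have h2 := cv'_fm (U := ⊤) hw (pj_Am _ (Ac_mono (subset_univ _) z.2))
  rw [pdL_cl hw, ← itc_wd_pj hw (Ac_mono (subset_univ _) z.2), ← one_mul (itc d M _),
    ← sg_sq m, mul_assoc, ← h2]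
  exact congrArg (sg m * ·) (sub_eq_zero.1 h1)

theorem ex_cur {α : H ℂ (TopCat.of M)} (h : α ∈ Hd ℂ (TopCat.of M) m) :
    ∃ T hT, unit ℂ _ ≫ α = gcl (n := m) T hT ≫ KG.hom ℂ (σI d M) := by
  obtain ⟨w, -, h0, rfl⟩ := cl_surj (d := d) h
  exact ⟨_, _, by rw [unit_cl, ρI, KG.hom_comp, ← Category.assoc, gcl_comp_hom _ _ (ιDC d M)]⟩

theorem pdL_pr (h : m + n = (d + d : ℕ)) (α : H ℂ (TopCat.of M)) (x : Hc d V) :
    pdL d V (KG.pr m α) x = pdL d V α (prH d V n x) := by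
  obtain ⟨z, hz, rfl⟩ := Coh.ind x
  obtain rfl : n = (d + d : ℕ) - m := by omega
  have hu := Ac_mono (subset_univ _) z.2
  rw [prH_mk]
  refine H_ind (d := d) (P := fun α => pdL d V (KG.pr m α) _ = pdL d V α _)
    (by simp only [map_zero, LinearMap.zero_apply])
    (fun v w h1 h2 => by simp only [map_add, LinearMap.add_apply, h1, h2])
    (fun k w hw h0 => ?_) α
  by_cases e : m = k
  · subst e
    rw [KG.pr_of_mem (cl_mem (k : ℤ) ⟨w, h0⟩), pdL_cl hw, pdL_cl hw, itc_wd_pj hw hu]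
  · rw [KG.pr_of_ne (cl_mem (k : ℤ) ⟨w, h0⟩) (Ne.symm e), map_zero, pdL_cl hw]
    exact (itc_Dg (wd_Am hw (pj_Am _ hu)) (by omega)).symm

theorem pdL_bij : Function.Bijective (pdL d (univ : Set M)) := by
  refine ⟨(injective_iff_map_eq_zero _).2 fun α h => KG.ext_pr fun m => ?_, fun L => ?_⟩
  · obtain ⟨T, hT, e⟩ := ex_cur (d := d) (KG.pr_mem_deg m α)
    refine unit_cancel (injC_I ℂ _) ?_
    rw [e, map_zero, Limits.comp_zero, (gcl_eq_zero_iff _ _ (m - 1) (sub_add_cancel m 1)).2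
      ((CoC.ex_d (C := amC d M) (sub_add_cancel m 1)).2 fun u hu h0 => ?_), Limits.zero_comp]
    have h1 := pdL_cur (V := univ) T hT e ⟨u, hu.1⟩ (Subtype.ext h0)
    rw [pdL_pr (add_sub_cancel m _), h, LinearMap.zero_apply, eq_comm,
      mul_eq_zero_iff_left (sg_ne m)] at h1
    exact (congrArg (cv' T) (Subtype.ext (pj_eq hu.2).symm)).trans h1
  · obtain ⟨S, hS⟩ := LinearMap.exists_extend (L ∘ₗ Coh.mkL (dc d univ))
    have h1 : ∀ m : ℤ, ∃ α, ∀ z hz,
        pdL d univ α (Coh.mk z hz) = L (prH d univ ((d + d : ℕ) - m) (Coh.mk z hz)) := fun m => by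
      let T : sec ((Cur d M).X m) ⊤ := sg m • S ∘ₗ Submodule.inclusion inf_le_left
      have hT : app ((Cur d M).d m (m + 1)) ⊤ T = 0 :=
        (CoC.d_eq_zero (C := amC d M) rfl).2 fun u hu => (congrArg (sg m * ·)
          ((LinearMap.congr_fun hS ⟨dc d univ ⟨u, hu.1⟩, P275AR.dc_dc _⟩).trans
            ((congrArg L (Coh.mk_eq_zero.2 ⟨_, rfl⟩)).trans (map_zero L)))).trans (mul_zero _)
      obtain ⟨α, e⟩ := (unit_bijective (injC_I ℂ (TopCat.of M))).2 (gcl T hT ≫ KG.hom ℂ (σI d M))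
      refine ⟨α, fun z hz => (pdL_cur T hT e z hz).trans ?_⟩
      change sg m * (sg m * S _) = _
      rw [← mul_assoc, sg_sq, one_mul]
      exact LinearMap.congr_fun hS ⟨⟨pj d M _ z.1, pj_Ac _ z.2⟩,
        Subtype.ext (dd_pj (congrArg Subtype.val hz) _)⟩
    choose α hα using h1
    refine ⟨∑ n ∈ Finset.range (d + d + 1), α ((d + d : ℕ) - (n : ℕ)), LinearMap.ext fun x => ?_⟩
    obtain ⟨z, hz, rfl⟩ := Coh.ind x
    simp only [map_sum, LinearMap.sum_apply, hα, sub_sub_cancel, prH_mk]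
    have e : z = ∑ n ∈ Finset.range (d + d + 1), (⟨pj d M (n : ℕ) z.1, pj_Ac _ z.2⟩ : Ac d univ) :=
      Subtype.ext (by rw [Submodule.coe_sum, pj_sum])
    rw [← map_sum, ← Coh.mk_sum _ _ (e ▸ hz)]
    exact congrArg L (Coh.mk_congr e _).symm

variable (d M) in
/-- **Poincare duality** -/
def pd : H ℂ (TopCat.of M) ≃ₗ[ℂ] Dual ℂ (Hc d (univ : Set M)) := .ofBijective _ pdL_bij

theorem pd_eq (α : H ℂ (TopCat.of M)) : pd d M α = pdL d univ α := rfl

theorem pd_clT (w : Zf d M) (z : Ac d univ) (hz : dc d univ z = 0) :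
    pd d M (clT w) (Coh.mk z hz) = itc d M (wd w.1 z.1) := pdL_clT w z hz

theorem pd_cl (hw : w ∈ Dg d M n) (h0 : dd d M w = 0) (z : Ac d univ) (hz : dc d univ z = 0) :
    pd d M (cl n ⟨w, h0⟩) (Coh.mk z hz) = itc d M (wd w z.1) := pdL_cl hw h0 z hz

theorem pd_mul (α β : H ℂ (TopCat.of M)) (x : Hc d (univ : Set M)) :
    pd d M (α * β) x = pd d M α (hm d univ β x) := by
  rw [pd_eq, pdL_apply, map_mul]
  rfl

theorem pd_one (x : Hc d (univ : Set M)) : pd d M 1 x = itH d univ x := by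
  rw [pd_eq, pdL_apply, map_one]
  rfl

theorem pd_pr (h : m + n = (d + d : ℕ)) (α : H ℂ (TopCat.of M)) (x : Hc d (univ : Set M)) :
    pd d M (KG.pr m α) x = pd d M α (prH d univ n x) := pdL_pr h α x

theorem Hc_ext {x y : Hc d (univ : Set M)} (h : ∀ α, pd d M α x = pd d M α y) : x = y :=
  sub_eq_zero.1 ((forall_dual_apply_eq_zero_iff ℂ _).1 fun L => by
    obtain ⟨α, rfl⟩ := (pd d M).surjective L
    rw [map_sub, h, sub_self])

/-- top forms of integral zero are exact -/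
theorem top_exact [PreconnectedSpace M] (hu : u ∈ Am d (d + d : ℕ) (univ : Set M))
    (h : itc d M u = 0) : ∃ v ∈ Am d ((d + d : ℕ) - 1) (univ : Set M), dd d M v = u := by
  have h0 : dd d M u = 0 := (Dg_big (by omega)).le (dd_Dg hu.2)
  obtain ⟨v, hv⟩ := (Coh.mk_eq_zero (D := dc d univ) (z := ⟨u, hu.1⟩) (hz := Subtype.ext h0)).1
    (Hc_ext fun α => by
      rw [map_zero]
      refine H_ind (d := d) (P := fun α => pd d M α _ = 0) (by rw [map_zero, LinearMap.zero_apply])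
        (fun v w h1 h2 => by rw [map_add, LinearMap.add_apply, h1, h2, add_zero])
        (fun k w hw h1 => ?_) α
      rw [pd_cl hw]
      by_cases e : k = 0
      · obtain ⟨c, rfl⟩ := zero_const (w := w) (by simpa only [e, Nat.cast_zero] using hw) h1
        rw [wd_smul, one_wd, map_smul, h, smul_zero]
      · exact itc_Dg (wd_Am hw hu) (by omega))
  refine ⟨_, pj_Am _ v.2, ?_⟩
  rw [← pj_dd, sub_add_cancel, ← P275AR.dc_val, ← hv, pj_eq hu.2]

end Vale.Agent.P275MC
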