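import Vale.Agent.P275MC.Defs

/-!
# P275, model of currents: calculus of forms (supports, degrees, pull-backs)
-/

open scoped Manifold ContDiff Topology Matrix
open Filter MeasureTheory Set
open Vale.Agent.P272.K Vale.Agent.P272.K.C2 Vale.Agent.P272.K.INT Vale.Agent.P299.IX
  Vale.Agent.P299.IX.Fock Vale.Agent.P281Z.Hg Vale.Agent.P281Z.Hg.G1H Vale.Agent.P281Z.Hg.G2H
  Vale.Agent.P281Z.Hg.Pb1H

noncomputable section

namespace Vale.Agent.P275MC

section alg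
variable {n : ℕ}

/-- homogeneous of degree `k` -/
def HD (k : ℤ) (u : Fk n) : Prop := ∀ I : FI n, (I.card : ℤ) ≠ k → u I = 0

theorem HD.eps {k : ℤ} {u : Fk n} (h : HD k u) (l : Fin n) : HD (k + 1) (eps l *ᵥ u) := by
  intro I hI
  rw [eps_mulVec]
  split_ifs with h1
  · rw [h (I.erase l) fun h2 => hI (by rw [← h2, ← Finset.card_erase_add_one h1]; push_cast; rfl),
      mul_zero]
  · rfl

theorem HD.sum {k : ℤ} {α : Type*} (s : Finset α) {u : α → Fk n} (h : ∀ i ∈ s, HD k (u i)) :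
    HD k (∑ i ∈ s, u i) := fun I hI => by
  rw [Finset.sum_apply]
  exact Finset.sum_eq_zero fun i hi => h i hi I hI

theorem HD.smul {k : ℤ} {u : Fk n} (h : HD k u) (c : ℂ) : HD k (c • u) := fun I hI => by
  rw [Pi.smul_apply, h I hI, smul_zero]

theorem HD.wg_ev {k : ℤ} {v : Fk n} (h : HD k v) (I : FI n) :
    HD (I.card + k) (wg (ev I) *ᵥ v) := by
  induction I using Finset.induction_on_min with
  | empty => simpa [f1a.wg_ev] using h
  | insert i I hi ih =>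
    rw [← eps_ev_min hi, f1a.wg_eps, ← Matrix.mulVec_mulVec,
      Finset.card_insert_of_notMem fun h' => lt_irrefl i (hi i h'),
      show ((I.card + 1 : ℕ) : ℤ) + k = I.card + k + 1 by push_cast; ring]
    exact ih.eps i

theorem HD.wg {j k : ℤ} {u v : Fk n} (hu : HD j u) (hv : HD k v) : HD (j + k) (wg u *ᵥ v) := by
  rw [pi_eq_sum_univ' u, F1aH.wg_sum, Matrix.sum_mulVec]
  refine HD.sum _ fun I _ => ?_
  rw [f1a.wg_smul, Matrix.smul_mulVec]
  by_cases h : (I.card : ℤ) = j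
  · exact (h ▸ hv.wg_ev I).smul _
  · rw [hu I h, zero_smul]
    exact fun _ _ => rfl

theorem wg_wg (u v : Fk n) : wg (wg u *ᵥ v) = wg u * wg v := by
  induction u using F1aH.fk_ind with
  | h0 => rw [f1a.wg_ev, Matrix.one_mulVec, one_mul]
  | he l u ih => rw [f1a.wg_eps, ← Matrix.mulVec_mulVec, f1a.wg_eps, ih, mul_assoc]
  | ha u u' h h' => rw [f1a.wg_add, Matrix.add_mulVec, f1a.wg_add, h, h', add_mul]
  | hs c u h => rw [f1a.wg_smul, Matrix.smul_mulVec, f1a.wg_smul, h, Matrix.smul_mul]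

theorem HD.par {k : ℤ} {u : Fk n} (h : HD k u) : par *ᵥ u = (k.negOnePow : ℂ) • u := by
  funext I
  rw [par_mulVec, Pi.smul_apply, smul_eq_mul]
  by_cases h1 : (I.card : ℤ) = k
  · rw [← h1, Int.cast_negOnePow_natCast]
  · rw [h I h1, mul_zero, mul_zero]

theorem Bq_one (u : Fk n) : Bq u (ev ∅) = u Finset.univ := by
  rw [Bq, hst_ev_empty, ev, dotProduct_single, mul_one]

end alg

variable {d : ℕ} {M : Type} [TopologicalSpace M] [ChartedSpace (Cm d) M] {e : Chart d M} {x : M}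
  {u v : SF d M} {K V V' : Set M} {k : ℤ}

theorem Sp_mono (h : K ⊆ V) : Sp d K ≤ Sp d V := fun _ hu x hx => hu x fun h1 => hx (h h1)

theorem Ac_mono (h : V ⊆ V') : Ac d V ≤ Ac d V' := fun _ ⟨K, h1, h2, h3⟩ => ⟨K, h1, h2.trans h, h3⟩

theorem Am_mono (k : ℤ) (h : V ⊆ V') : Am d k V ≤ Am d k V' := inf_le_inf_right _ (Ac_mono h)

theorem Ac_inter [T2Space M] (h : u ∈ Ac d V) (h' : u ∈ Ac d V') : u ∈ Ac d (V ∩ V') := by
  obtain ⟨K, h1, h2, h3⟩ := h
  obtain ⟨K', k1, k2, k3⟩ := h'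
  refine ⟨K ∩ K', h1.inter k1, inter_subset_inter h2 k2, fun x hx => ?_⟩
  by_cases hK : x ∈ K
  · exact k3 x fun h4 => hx ⟨hK, h4⟩
  · exact h3 x hK

theorem eq_zero_of_ZP (h : ∀ x, u ∈ ZP x) : u = 0 := ext' fun e x he => h x e he

theorem Ac_empty : Ac d (∅ : Set M) = ⊥ := by
  refine eq_bot_iff.2 ?_
  rintro u ⟨K, -, h2, h3⟩
  exact eq_zero_of_ZP fun x => h3 x fun h => h2 h

theorem Ac_univ [CompactSpace M] : Ac d (univ : Set M) = ⊤ :=
  eq_top_iff.2 fun _ _ => ⟨univ, isCompact_univ, subset_rfl, fun x hx => (hx (mem_univ x)).elim⟩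

theorem op_ZP {F : Rw d M (Fm d)} {T : SF d M → SF d M} (hT : IsOp F T) (h : u ∈ ZP x) :
    T u ∈ ZP x := fun e he => by rw [hT u e x he, h e he, Matrix.mulVec_zero]

theorem op_Sp {F : Rw d M (Fm d)} {T : SF d M → SF d M} (hT : IsOp F T) (h : u ∈ Sp d K) :
    T u ∈ Sp d K := fun x hx => op_ZP hT (h x hx)

theorem op_Ac {F : Rw d M (Fm d)} {T : SF d M → SF d M} (hT : IsOp F T) (h : u ∈ Ac d V) :
    T u ∈ Ac d V := h.imp fun _ h => ⟨h.1, h.2.1, op_Sp hT h.2.2⟩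

theorem mu_Ac {ρ : M → ℝ} (hρ : SmoothFn (n := d) ρ) (h : u ∈ Ac d V) : mu hρ u ∈ Ac d V :=
  op_Ac (opr_vl _) h

theorem wd_Ac (y : SF d M) (h : u ∈ Ac d V) : wd y u ∈ Ac d V := op_Ac (opr_vl _) h

theorem pj_Ac (k : ℤ) (h : u ∈ Ac d V) : pj d M k u ∈ Ac d V := op_Ac (opr_vl _) h

theorem wd_ZP_left (h : u ∈ ZP x) (v : SF d M) : wd u v ∈ ZP x := fun e he => by
  rw [wd_vl u v he, h e he, F1aH.wg_zero, Matrix.zero_mulVec]

theorem wd_Ac_left (h : u ∈ Ac d V) (v : SF d M) : wd u v ∈ Ac d V :=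
  h.imp fun _ h => ⟨h.1, h.2.1, fun x hx => wd_ZP_left (h.2.2 x hx) v⟩

theorem mu_ZP {ρ : M → ℝ} (hρ : SmoothFn (n := d) ρ) (u : SF d M) (h : ρ x = 0) :
    mu hρ u ∈ ZP x := fun e he => by rw [mu_vl hρ u he, h, Complex.ofReal_zero, zero_smul]

theorem mu_mem_Ac {ρ : M → ℝ} (hρ : SmoothFn (n := d) ρ) (hc : HasCompactSupport ρ)
    (hV : tsupport ρ ⊆ V) (u : SF d M) : mu hρ u ∈ Ac d V :=
  ⟨_, hc, hV, fun _ hx => mu_ZP hρ u (image_eq_zero_of_notMem_tsupport hx)⟩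

theorem mu_comm {ρ σ : M → ℝ} (hρ : SmoothFn (n := d) ρ) (hσ : SmoothFn (n := d) σ) (u : SF d M) :
    mu hρ (mu hσ u) = mu hσ (mu hρ u) := ext' fun e x he => by
  rw [mu_vl _ _ he, mu_vl _ _ he, mu_vl _ _ he, mu_vl _ _ he, smul_comm]

theorem mem_Dg : u ∈ Dg d M k ↔ ∀ e x, At e x → HD k (vl u e (e x)) := by
  refine ⟨fun h e x _ I hI => h e _ I hI, fun h e z I hI => ?_⟩
  by_cases hz : e ∈ atlas (Cm d) M ∧ z ∈ e.target
  · exact e.right_inv hz.2 ▸ h e _ (at_tg hz.1 hz.2) I hI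
  · rw [(vl_isF u).off e z hz, Pi.zero_apply]

theorem pj_mem (k : ℤ) (u : SF d M) : pj d M k u ∈ Dg d M k :=
  mem_Dg.2 fun e x he I hI => by rw [pj_vl k u he, if_neg hI]

theorem pj_eq (h : u ∈ Dg d M k) : pj d M k u = u := ext' fun e x he => funext fun I => by
  rw [pj_vl k u he]
  split_ifs with h1
  · rfl
  · exact (h e _ I h1).symm

theorem pj_ne {j : ℤ} (h : u ∈ Dg d M k) (hj : j ≠ k) : pj d M j u = 0 :=
  ext' fun e x he => funext fun I => by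
    rw [pj_vl j u he]
    split_ifs with h1
    · exact h e _ I (h1 ▸ hj)
    · rfl

theorem mem_Dg_iff : u ∈ Dg d M k ↔ pj d M k u = u := ⟨pj_eq, fun h => h ▸ pj_mem k u⟩

theorem pj_sum (u : SF d M) : ∑ m ∈ Finset.range (d + d + 1), pj d M (m : ℕ) u = u :=
  ext' fun e x he => funext fun I => by
    have h : I.card < d + d + 1 := Nat.lt_succ_of_le (by simpa using I.card_le_univ)
    rw [vl_sum, Finset.sum_apply]
    simp only [pj_vl _ u he, Nat.cast_inj, Finset.sum_ite_eq, Finset.mem_range, h, if_true]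

theorem Dg_neg (h : k < 0) : Dg d M k = ⊥ := eq_bot_iff.2 fun u hu =>
  ext' fun e x _ => funext fun I => hu e _ I (by omega)

theorem Dg_big (h : (d + d : ℕ) < k) : Dg d M k = ⊥ := eq_bot_iff.2 fun u hu =>
  ext' fun e x _ => funext fun I => hu e _ I (by
    have h1 : I.card ≤ d + d := by simpa using I.card_le_univ
    omega)

theorem pj_Am (k : ℤ) (h : u ∈ Ac d V) : pj d M k u ∈ Am d k V := ⟨pj_Ac k h, pj_mem k u⟩

theorem mu_Dg {ρ : M → ℝ} (hρ : SmoothFn (n := d) ρ) (h : u ∈ Dg d M k) : mu hρ u ∈ Dg d M k :=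
  mem_Dg.2 fun e x he => by
    rw [mu_vl hρ u he]
    exact (mem_Dg.1 h e x he).smul _

theorem wd_Dg {j : ℤ} (hu : u ∈ Dg d M j) (hv : v ∈ Dg d M k) : wd u v ∈ Dg d M (j + k) :=
  mem_Dg.2 fun e x he => by
    rw [wd_vl u v he]
    exact (mem_Dg.1 hu e x he).wg (mem_Dg.1 hv e x he)

theorem wd_Am {j : ℤ} (hu : u ∈ Dg d M j) (hv : v ∈ Am d k V) : wd u v ∈ Am d (j + k) V :=
  ⟨wd_Ac u hv.1, wd_Dg hu hv.2⟩

theorem one_Dg : one d M ∈ Dg d M 0 := mem_Dg.2 fun e x he I hI => by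
  rw [one_vl e x he, ev, Pi.single_eq_of_ne]
  rintro rfl
  exact hI rfl

theorem pr_Dg (h : u ∈ Dg d M k) : pr d M u = (k.negOnePow : ℂ) • u := ext' fun e x he => by
  rw [pr_vl u he, vl_smul, (mem_Dg.1 h e x he).par]

theorem wd_one (u : SF d M) : wd u (one d M) = u := ext' fun e x he => by
  rw [wd_vl _ _ he, one_vl e x he, f1a.wg_one]

theorem one_wd (u : SF d M) : wd (one d M) u = u := ext' fun e x he => by
  rw [wd_vl _ _ he, one_vl e x he, f1a.wg_ev, Matrix.one_mulVec]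

theorem wd_wd (u v w : SF d M) : wd (wd u v) w = wd u (wd v w) := ext' fun e x he => by
  rw [wd_vl _ _ he, wd_vl _ _ he, wd_vl _ _ he, wd_vl _ _ he, wg_wg, Matrix.mulVec_mulVec]

theorem wd_add (u v w : SF d M) : wd (u + v) w = wd u w + wd v w := ext' fun e x he => by
  rw [vl_add, wd_vl _ _ he, wd_vl _ _ he, wd_vl _ _ he, vl_add, f1a.wg_add, Matrix.add_mulVec]

theorem wd_smul (c : ℂ) (u w : SF d M) : wd (c • u) w = c • wd u w := ext' fun e x he => by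
  rw [vl_smul, wd_vl _ _ he, wd_vl _ _ he, vl_smul, f1a.wg_smul, Matrix.smul_mulVec]

theorem wd_zero (w : SF d M) : wd (0 : SF d M) w = 0 := by
  rw [← zero_smul ℂ (0 : SF d M), wd_smul, zero_smul, zero_smul]

theorem mu_wd {ρ : M → ℝ} (hρ : SmoothFn (n := d) ρ) (u v : SF d M) :
    mu hρ (wd u v) = wd u (mu hρ v) := ext' fun e x he => by
  rw [mu_vl _ _ he, wd_vl _ _ he, wd_vl _ _ he, mu_vl _ _ he, Matrix.mulVec_smul]

theorem wd_mu {ρ : M → ℝ} (hρ : SmoothFn (n := d) ρ) (u v : SF d M) :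
    wd (mu hρ u) v = mu hρ (wd u v) := ext' fun e x he => by
  rw [mu_vl _ _ he, wd_vl _ _ he, wd_vl _ _ he, mu_vl _ _ he, f1a.wg_smul, Matrix.smul_mulVec]

variable [IsManifold 𝓘(ℂ, Cm d) ω M]

theorem dd_ev (u : SF d M) (h : At e x) : vl (dd d M u) e =ᶠ[𝓝 (e x)] dT (vl u e) :=
  ev_at h (.of_forall fun _ hy => dd_vl u hy)

theorem dd_ZP (h : ∀ᶠ y in 𝓝 x, u ∈ ZP y) : dd d M u ∈ ZP x := fun e he => by
  rw [dd_vl u he, ka.congr (v := fun _ => 0) (ev_at he (h.mono fun y hy => hy e)), ka.const]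

theorem dd_Sp (hK : IsClosed K) (h : u ∈ Sp d K) : dd d M u ∈ Sp d K := fun _ hx =>
  dd_ZP (mem_of_superset (hK.isOpen_compl.mem_nhds hx) h)

theorem dd_Ac [T2Space M] (h : u ∈ Ac d V) : dd d M u ∈ Ac d V :=
  h.imp fun _ h => ⟨h.1, h.2.1, dd_Sp h.1.isClosed h.2.2⟩

theorem dd_dd (u : SF d M) : dd d M (dd d M u) = 0 := ext' fun e x he => by
  rw [dd_vl _ he, ka.congr (dd_ev u he), ka.dd ((vl_isF u).sm e x he), vl_zero]

theorem dd_one : dd d M (one d M) = 0 := ext' fun e x he => by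
  rw [dd_vl _ he, ka.congr (v := fun _ => ev ∅) (ev_at he (.of_forall (one_vl e))), ka.const,
    vl_zero]

/-- the Leibniz rule -/
theorem dd_wd (y u : SF d M) :
    dd d M (wd y u) = wd (dd d M y) u + wd (pr d M y) (dd d M u) := ext' fun e x he => by
  rw [dd_vl _ he, ka.congr (v := fun z => wg (vl y e z) *ᵥ vl u e z)
    (ev_at he (.of_forall fun _ hy => wd_vl y u hy)), ka.leib (dif y he) (dif u he), vl_add,
    wd_vl _ _ he, wd_vl _ _ he, dd_vl _ he, dd_vl _ he, pr_vl _ he]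

theorem dd_mu {ρ : M → ℝ} (hρ : SmoothFn (n := d) ρ) (u : SF d M) :
    dd d M (mu hρ u) = wd (dd d M (mu hρ (one d M))) u + mu hρ (dd d M u) := by
  have h := dd_wd (mu hρ (one d M)) u
  rwa [pr_Dg (mu_Dg hρ one_Dg), Int.negOnePow_zero, Units.val_one, Int.cast_one, one_smul, wd_mu,
    wd_mu, one_wd, one_wd] at h

theorem pj_dd (k : ℤ) (u : SF d M) : pj d M (k + 1) (dd d M u) = dd d M (pj d M k u) :=
  ext' fun e x he => by
    rw [pj, opr_vl _ _ e x he, dd_vl _ he, dd_vl _ he, dg_dT ka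
      (B := dgl fun q => if (q : ℤ) = k then 1 else 0) (fun c => by
        rw [dgl_eps]
        simp) (dif u he)]
    exact ka.congr (ev_at he (.of_forall fun y hy =>
      (opr_vl (cov_dgl fun q => if (q : ℤ) = k then 1 else 0) u e y hy).symm))

theorem dd_Dg (h : u ∈ Dg d M k) : dd d M u ∈ Dg d M (k + 1) := by
  rw [mem_Dg_iff, pj_dd, pj_eq h]

theorem dd_Am [T2Space M] (h : u ∈ Am d k V) : dd d M u ∈ Am d (k + 1) V := ⟨dd_Ac h.1, dd_Dg h.2⟩

theorem realX_d [T2Space M] [CompactSpace M] {X : Cx (SF d M) d} (hX : RealX X) : X.d = dd d M :=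
  LinearMap.ext fun u => ext' fun e x he => (hX.d u e x he).trans (dd_vl u he).symm

theorem realX_dg [T2Space M] [CompactSpace M] {X : Cx (SF d M) d} (hX : RealX X) (m : ℕ) :
    X.dg m = pj d M m := LinearMap.ext fun u => ext' fun e x he => funext fun I => by
  rw [hX.dg m u e x he, dg_mulVec, pj_vl _ _ he]
  simp only [Nat.cast_inj]

variable {d' d'' : ℕ} {M' M'' : Type} [TopologicalSpace M'] [ChartedSpace (Cm d') M']
  [IsManifold 𝓘(ℂ, Cm d') ω M'] [TopologicalSpace M''] [ChartedSpace (Cm d'') M'']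
  [IsManifold 𝓘(ℂ, Cm d'') ω M''] {f : M → M'} {g : M' → M''} {a : SF d' M'}

theorem pb_unique (hf : Smo d d' f) {T : SF d' M' → SF d M} (hT : IsPb f T) (a : SF d' M') :
    T a = pb hf a := ext' fun e x hx => by rw [hT a e _ x hx (ca _), pb_vl hf a e _ x hx (ca _)]

theorem pb_dd (hf : Smo d d' f) (a : SF d' M') : pb hf (dd d' M' a) = dd d M (pb hf a) :=
  ext' fun e x hx => by
    rw [pb_vl hf _ e _ x hx (ca _), dd_vl a (ca _), dd_vl _ hx,
      ka.congr (pb_near hf.cont (pb_vl hf) a hx (ca _)),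
      k1b'.nat (hf.sm e _ x hx (ca _)) (vl_sm a hx (ca _)), pbk, e.left_inv hx.2]

theorem pb_dgl (hf : Smo d d' f) (c : ℕ → ℂ) (a : SF d' M') :
    pb hf (opr _ (cov_dgl c) a) = opr _ (cov_dgl c) (pb hf a) := ext' fun e x hx => by
  rw [pb_vl hf _ e _ x hx (ca _), opr_vl _ a _ _ (ca _), opr_vl _ _ e x hx,
    pb_vl hf _ e _ x hx (ca _), Matrix.mulVec_mulVec, Matrix.mulVec_mulVec, F1aH.dgl_lr]

theorem pb_pj (hf : Smo d d' f) (k : ℤ) (a : SF d' M') :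
    pb hf (pj d' M' k a) = pj d M k (pb hf a) := pb_dgl hf _ a

theorem pb_pr (hf : Smo d d' f) (a : SF d' M') : pb hf (pr d' M' a) = pr d M (pb hf a) :=
  pb_dgl hf _ a

theorem pb_Dg (hf : Smo d d' f) (h : a ∈ Dg d' M' k) : pb hf a ∈ Dg d M k := by
  rw [mem_Dg_iff, ← pb_pj, pj_eq h]

theorem pb_wd (hf : Smo d d' f) (y a : SF d' M') : pb hf (wd y a) = wd (pb hf y) (pb hf a) :=
  ext' fun e x hx => by
    rw [pb_vl hf _ e _ x hx (ca _), wd_vl y a (ca _), wd_vl _ _ hx, pb_vl hf _ e _ x hx (ca _),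
      pb_vl hf _ e _ x hx (ca _), Matrix.mulVec_mulVec, Matrix.mulVec_mulVec, f1a.lr_wg]

theorem pb_one (hf : Smo d d' f) : pb hf (one d' M') = one d M := ext' fun e x hx => by
  rw [pb_vl hf _ e _ x hx (ca _), one_vl _ _ (ca _), one_vl e x hx, f1a.lr_ev]

theorem pb_mu (hf : Smo d d' f) {ρ : M' → ℝ} (hρ : SmoothFn (n := d') ρ)
    (hρ' : SmoothFn (n := d) fun x => ρ (f x)) (a : SF d' M') :
    pb hf (mu hρ a) = mu hρ' (pb hf a) := ext' fun e x hx => by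
  rw [pb_vl hf _ e _ x hx (ca _), mu_vl _ _ (ca _), mu_vl _ _ hx, pb_vl hf _ e _ x hx (ca _),
    Matrix.mulVec_smul]

omit [IsManifold 𝓘(ℂ, Cm d) ω M] [IsManifold 𝓘(ℂ, Cm d') ω M'] in
theorem smoothFn_comp (hf : Smo d d' f) {ρ : M' → ℝ} (hρ : SmoothFn (n := d') ρ) :
    SmoothFn (n := d) fun x => ρ (f x) := fun e x hx => by
  have h1 := hρ _ _ (ca (d := d') (f x))
  have h2 := hf.sm e _ x hx (ca (f x))
  have h3 : chartAt (Cm d') (f x) (f x) = chartAt (Cm d') (f x) (f (e.symm (e x))) := by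
    rw [e.left_inv hx.2]
  rw [h3] at h1
  refine (h1.comp (e x) h2).congr_of_eventuallyEq ?_
  filter_upwards [near hf.cont hx (ca (d := d') (f x))] with z hz
  simp only [Function.comp_apply, (chartAt (Cm d') (f x)).left_inv hz.2.2.2]

theorem pb_ZP (hf : Smo d d' f) (h : a ∈ ZP (f x)) : pb hf a ∈ ZP x := fun e hx => by
  rw [pb_vl hf _ e _ x hx (ca _), h _ (ca _), Matrix.mulVec_zero]

theorem pb_Sp (hf : Smo d d' f) {K : Set M'} (h : a ∈ Sp d' K) : pb hf a ∈ Sp d (f ⁻¹' K) :=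
  fun x hx => pb_ZP hf (h (f x) hx)

theorem pb_Ac (hf : Smo d d' f) {V : Set M'} (hp : ∀ K, IsCompact K → K ⊆ V → IsCompact (f ⁻¹' K))
    (h : a ∈ Ac d' V) : pb hf a ∈ Ac d (f ⁻¹' V) := by
  obtain ⟨K, h1, h2, h3⟩ := h
  exact ⟨_, hp K h1 h2, preimage_mono h2, pb_Sp hf h3⟩

theorem pb_Am (hf : Smo d d' f) {V : Set M'} (hp : ∀ K, IsCompact K → K ⊆ V → IsCompact (f ⁻¹' K))
    (h : a ∈ Am d' k V) : pb hf a ∈ Am d k (f ⁻¹' V) := ⟨pb_Ac hf hp h.1, pb_Dg hf h.2⟩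

theorem pb_id (u : SF d M) : pb smo_id u = u :=
  (pb_unique smo_id (T := id) (fun u e e' x a a' => (vl_isF u).ch e e' x a a') u).symm

theorem pb_comp (hf : Smo d d' f) (hg : Smo d' d'' g) (b : SF d'' M'') :
    pb (smo_comp hf hg) b = pb hf (pb hg b) :=
  (pb_unique (smo_comp hf hg) (T := fun b => pb hf (pb hg b)) (fun u e b x hx hb => by
    have k := jc_lc k1b' hf hg hx (ca (f x)) hb
    rw [pb_vl hf _ e _ x hx (ca _), pb_vl hg u _ b _ (ca _) hb, Matrix.mulVec_mulVec,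
      ← f1a.lr_mul, ← k]
    rfl) b).symm

/-- the pull-back at a point only depends on the germ of the map -/
theorem pb_congr {f' : M → M'} (hf : Smo d d' f) (hf' : Smo d d' f') (h : f =ᶠ[𝓝 x] f')
    (a : SF d' M') : pb hf a - pb hf' a ∈ ZP x := fun e hx => by
  have h1 : f x = f' x := h.self_of_nhds
  rw [vl_sub, pb_vl hf _ e _ x hx (ca _), pb_vl hf' _ e (chartAt (Cm d') (f x)) x hx (h1 ▸ ca _),
    ← h1, k1b'.jc_congr (ψ := fun z => chartAt (Cm d') (f x) (f' (e.symm z))), sub_self]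
  filter_upwards [ev_src hx h] with z hz
  rw [hz]

end Vale.Agent.P275MC
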