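import Vale.Agent.P275MC.Int
import Vale.Agent.P281Z.Hg.Pb2

/-!
# P275, model of currents: partial pull-backs, extension by zero along open embeddings
-/

open scoped Manifold ContDiff Topology Matrix
open Filter MeasureTheory Set
open Vale.Agent.P272.K Vale.Agent.P272.K.C2 Vale.Agent.P272.K.INT Vale.Agent.P299.IX
  Vale.Agent.P299.IX.Fock Vale.Agent.P281Z.Hg Vale.Agent.P281Z.Hg.G1H Vale.Agent.P281Z.Hg.G2H
  Vale.Agent.P281Z.Hg.Pb1H

noncomputable section

namespace Vale.Agent.P275MC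

variable {d d' d'' : ℕ} {M M' M'' : Type} [TopologicalSpace M] [ChartedSpace (Cm d) M]
  [TopologicalSpace M'] [ChartedSpace (Cm d') M'] [TopologicalSpace M'']
  [ChartedSpace (Cm d'') M''] {f : M → M'} {g : M' → M''} {e e₂ : Chart d M} {c c₂ : Chart d' M'}
  {b : Chart d'' M''} {x : M}

variable (d d') in
/-- maps which are smooth at a point -/
structure SmA (f : M → M') (x : M) : Prop where
  cont : ContinuousAt f x
  sm : ∀ (e : Chart d M) (c : Chart d' M'), At e x → At c (f x) →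
    ContDiffAt ℝ ∞ (fun z => c (f (e.symm z))) (e x)

theorem smA_of (hf : Smo d d' f) (x : M) : SmA d d' f x :=
  ⟨hf.cont.continuousAt, fun e c => hf.sm e c x⟩

theorem smo_of (hf : ∀ x, SmA d d' f x) : Smo d d' f :=
  ⟨continuous_iff_continuousAt.2 fun x => (hf x).cont, fun e c x => (hf x).sm e c⟩

theorem SmA.congr {f' : M → M'} (hf : SmA d d' f x) (h : f' =ᶠ[𝓝 x] f) : SmA d d' f' x :=
  ⟨hf.cont.congr h.symm, fun e c he hc =>
    (hf.sm e c he (h.self_of_nhds ▸ hc)).congr_of_eventuallyEq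
      ((ev_src he h).mono fun _ hz => congrArg c hz)⟩

theorem nearA (hf : ContinuousAt f x) (hx : At e x) (hc : At c (f x)) :
    ∀ᶠ z in 𝓝 (e x), z ∈ e.target ∧ At e (e.symm z) ∧ At c (f (e.symm z)) := by
  filter_upwards [e.open_target.mem_nhds (e.map_source hx.2),
    ev_src hx (hf.eventually_mem (c.open_source.mem_nhds hc.2))] with z a a'
    using ⟨a, ⟨hx.1, e.map_target a⟩, hc.1, a'⟩

theorem SmA.comp (hg : SmA d' d'' g (f x)) (hf : SmA d d' f x) :
    SmA d d'' (fun y => g (f y)) x :=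
  ⟨hg.cont.comp hf.cont, fun e b a a' => by
    have h1 := hg.sm _ b (ca (f x)) a'
    have h2 : chartAt (Cm d') (f x) (f x) = chartAt (Cm d') (f x) (f (e.symm (e x))) := by
      rw [e.left_inv a.2]
    rw [h2] at h1
    refine (h1.comp (e x) (hf.sm e _ a (ca (f x)))).congr_of_eventuallyEq ?_
    filter_upwards [nearA hf.cont a (ca (d := d') (f x))] with z hz
    simp only [Function.comp_apply, (chartAt (Cm d') (f x)).left_inv hz.2.2.2]⟩

theorem jcA (hf : SmA d d' f x) (hg : SmA d' d'' g (f x)) (hx : At e x) (hc : At c (f x))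
    (hb : At b (g (f x))) : jc (fun z => b (g (f (e.symm z)))) (e x) =
      jc (fun z => c (f (e.symm z))) (e x) * jc (fun w => b (g (c.symm w))) (c (f x)) :=
  Pb2H.jc_chain k1b' (hf.sm e c hx hc) (hg.sm c b hc hb) (by rw [e.left_inv hx.2])
    ((nearA hf.cont hx hc).mono fun z hz => by rw [c.left_inv hz.2.2.2])

theorem pv_comp (hf : SmA d d' f x) (hg : SmA d' d'' g (f x)) (hx : At e x) (hc : At c (f x))
    (hb : At b (g (f x))) {a : SF d'' M''} {v : SF d' M'}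
    (hv : vl v c (c (f x)) = pv g a c b (f x)) :
    pv f v e c x = pv (fun y => g (f y)) a e b x := by
  rw [pv, hv, pv, pv, Matrix.mulVec_mulVec, ← f1a.lr_mul, ← jcA hf hg hx hc hb]

theorem pv_congr {f' : M → M'} (h : f =ᶠ[𝓝 x] f') (hx : At e x) (a : SF d' M') :
    pv f a e c x = pv f' a e c x := by
  rw [pv, pv, h.self_of_nhds, k1b'.jc_congr (ψ := fun z => c (f' (e.symm z)))
    ((ev_src hx h).mono fun _ hz => congrArg c hz)]

theorem pv_id (u : SF d M) (hx : At e x) (hx₂ : At e₂ x) :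
    pv (fun y => y) u e e₂ x = vl u e (e x) := ((vl_isF u).ch e e₂ x hx hx₂).symm

variable [IsManifold 𝓘(ℂ, Cm d) ω M] [IsManifold 𝓘(ℂ, Cm d') ω M']

omit [IsManifold 𝓘(ℂ, Cm d) ω M] in
theorem pv_rightA (hf : SmA d d' f x) (u : SF d' M') (hx : At e x) (hc : At c (f x))
    (hc₂ : At c₂ (f x)) : pv f u e c x = pv f u e c₂ x :=
  pv_comp (g := fun y => y) hf (smA_of smo_id _) hx hc hc₂ (pv_id u hc hc₂).symm

omit [IsManifold 𝓘(ℂ, Cm d') ω M'] in
theorem pv_leftA (hf : SmA d d' f x) (u : SF d' M') (hx : At e x) (hx₂ : At e₂ x)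
    (hc : At c (f x)) : pv f u e c x = lam (jt e e₂ x) *ᵥ pv f u e₂ c x := by
  have h := jcA (f := fun y => y) (g := f) (b := c) (smA_of smo_id x) hf hx hx₂ hc
  rw [pv, pv, Matrix.mulVec_mulVec]
  exact congrArg (· *ᵥ _) ((congrArg lr h).trans (f1a.lr_mul _ _))

/-- the pull-back by a map which is smooth on an open set, times a function -/
theorem ex_pbOn {O C : Set M} (hO : IsOpen O) (hf : ∀ x ∈ O, SmA d d' f x) (hC : IsClosed C)
    (hCO : C ⊆ O) {ρ : M → ℝ} (hρ : SmoothFn (n := d) ρ) (a : SF d' M')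
    (h0 : ∀ x ∈ O, x ∉ C → ρ x = 0 ∨ a ∈ ZP (f x)) : ∃ v ∈ Sp d C, ∀ e c x, x ∈ O → At e x →
      At c (f x) → vl v e (e x) = (ρ x : ℂ) • pv f a e c x := by
  classical
  have h1 : ∀ (e : Chart d M) y, y ∉ C →
      (if y ∈ O then (ρ y : ℂ) • pv f a e (chartAt (Cm d') (f y)) y else 0) = 0 := fun e y hy => by
    split_ifs with h
    · rcases h0 y h hy with h2 | h2
      · rw [h2, Complex.ofReal_zero, zero_smul]
      · rw [pv, h2 _ (ca _), Matrix.mulVec_zero, smul_zero]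
    · rfl
  obtain ⟨v, hv⟩ := mkf (fun e z => if e.symm z ∈ O then (ρ (e.symm z) : ℂ) •
      pv f a e (chartAt (Cm d') (f (e.symm z))) (e.symm z) else 0) (fun e x hx => by
      by_cases h : x ∈ O
      · refine ((Complex.ofRealCLM.contDiff.contDiffAt.comp _ (hρ e x hx)).smul
          (k1b'.pbk_smooth ((hf x h).sm e _ hx (ca (f x)))
          (vl_sm a hx (ca (f x))))).congr_of_eventuallyEq ?_
        filter_upwards [nearA (hf x h).cont hx (ca (d := d') (f x)),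
          ev_src hx (hO.mem_nhds h)] with z hz (hz' : e.symm z ∈ O)
        rw [if_pos hz', pv_rightA (hf _ hz') a hz.2.1 (ca _) hz.2.2, pv_symm a hz.1]
        rfl
      · exact contDiffAt_const.congr_of_eventuallyEq ((ev_src hx
          (hC.isOpen_compl.mem_nhds fun h2 => h (hCO h2))).mono fun z hz => h1 e _ hz))
    fun e e₂ x hx hx₂ => by
      rw [e.left_inv hx.2, e₂.left_inv hx₂.2]
      split_ifs with h
      · rw [Matrix.mulVec_smul, pv_leftA (hf x h) a hx hx₂ (ca _)]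
      · rw [Matrix.mulVec_zero]
  refine ⟨v, fun x hx e he => ?_, fun e c x h hx hc => ?_⟩
  · rw [hv e he.1 _ (e.map_source he.2), e.left_inv he.2, h1 e x hx]
  · rw [hv e hx.1 _ (e.map_source hx.2), e.left_inv hx.2, if_pos h,
      pv_rightA (hf x h) a hx (ca _) hc]

theorem pb_pv (hf : Smo d d' f) (a : SF d' M') (hx : At e x) (hc : At c (f x)) :
    vl (pb hf a) e (e x) = pv f a e c x := pb_vl hf a e c x hx hc

/-- forms extend from an embedded submanifold -/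
theorem pb_surj [T2Space M] [T2Space M'] (hf : Smo d d' f) (hi : Topology.IsInducing f)
    (hr : ∀ x, ∃ r : M' → M, (∀ᶠ y in 𝓝 (f x), SmA d' d r y) ∧ ∀ᶠ y in 𝓝 x, r (f y) = y)
    {U : Set M'} (hU : IsOpen U) {w : SF d M} (hw : w ∈ Ac d (f ⁻¹' U)) :
    ∃ v ∈ Ac d' U, pb hf v = w := by
  choose r h1 h2 using hr
  have h3 : ∀ x, ∃ O, IsOpen O ∧ f x ∈ O ∧ (∀ y ∈ O, SmA d' d (r x) y) ∧
      ∀ y, f y ∈ O → ∀ᶠ z in 𝓝 y, r x (f z) = z := fun x => by
    have h4 := (h2 x).eventually_nhds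
    rw [hi.nhds_eq_comap x, eventually_comap] at h4
    obtain ⟨O, k1, k2, k3⟩ := mem_nhds_iff.1 ((h1 x).and h4)
    exact ⟨O, k2, k3, fun y hy => (k1 hy).1, fun y hy => (k1 hy).2 y rfl⟩
  choose O k1 k2 k3 k4 using h3
  obtain ⟨K, l1, l2, l3⟩ := hw
  obtain ⟨P, hP⟩ := ex_PU (d := d') (V := fun x => O x ∩ U) (fun x => (k1 x).inter hU)
    (l1.image hf.cont) (by
      rintro _ ⟨x, hx, rfl⟩
      exact mem_iUnion.2 ⟨x, k2 x, l2 hx⟩)
  choose v m1 m2 using fun j => ex_pbOn (k1 (P.ix j)) (k3 _) (isClosed_tsupport (P.ρ j))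
    ((P.sp j).trans inter_subset_left) (P.sm j) w
    fun _ _ h => Or.inl (image_eq_zero_of_notMem_tsupport h)
  refine ⟨∑ j, v j, Submodule.sum_mem _ fun j _ =>
    ⟨_, P.cp j, (P.sp j).trans inter_subset_right, m1 j⟩, ext' fun e x he => ?_⟩
  have hc := ca (d := d') (f x)
  have m3 : ∀ j, vl (pb hf (v j)) e (e x) = (P.ρ j (f x) : ℂ) • vl w e (e x) := fun j => by
    by_cases h : f x ∈ O (P.ix j)
    · have h5 := k4 _ x h
      have h6 : At e (r (P.ix j) (f x)) := h5.self_of_nhds.symm ▸ he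
      rw [pb_vl hf _ e _ x he hc, m2 j _ e _ h hc h6, Matrix.mulVec_smul, pv, Matrix.mulVec_mulVec,
        ← f1a.lr_mul, ← jcA (smA_of hf x) (k3 _ _ h) he hc h6, ← pv_id w he he,
        ← pv_congr h5 he w, pv]
    · have h5 : f x ∉ tsupport (P.ρ j) := fun h5 => h (P.sp j h5).1
      rw [pb_ZP hf (m1 j _ h5) e he, image_eq_zero_of_notMem_tsupport h5, Complex.ofReal_zero,
        zero_smul]
  simp only [map_sum, vl_sum, m3, ← Finset.sum_smul, ← Complex.ofReal_sum]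
  by_cases hx : x ∈ K
  · rw [(hP _ ⟨x, hx, rfl⟩).self_of_nhds, Complex.ofReal_one, one_smul]
  · rw [l3 x hx e he, smul_zero]

end Vale.Agent.P275MC

namespace Vale.Agent.P275MC

variable {d : ℕ} {M M' : Type} [TopologicalSpace M] [ChartedSpace (Cm d) M]
  [TopologicalSpace M'] [ChartedSpace (Cm d) M'] {i : M → M'} {x : M} {w : SF d M} {v : SF d M'}
  {W : Set M} {V : Set M'} {k : ℤ}

variable (d) in
/-- smooth open embeddings -/
structure OE (i : M → M') : Prop where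
  smo : Smo d d i
  inj : Function.Injective i
  inv : ∀ x, ∃ g : M' → M, g (i x) = x ∧ SmA d d g (i x) ∧ ∀ᶠ y in 𝓝 (i x), i (g y) = y

namespace OE

theorem isOpenMap (h : OE d i) : IsOpenMap i := isOpenMap_iff_nhds_le.2 fun x U hU => by
  obtain ⟨g, h1, h2, h3⟩ := h.inv x
  have h4 : Tendsto g (𝓝 (i x)) (𝓝 x) := by simpa only [ContinuousAt, h1] using h2.cont
  filter_upwards [h3, h4.eventually (mem_map.1 hU)] with z k1 k2 using k1 ▸ k2

theorem emb (h : OE d i) : Topology.IsOpenEmbedding i :=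
  .of_continuous_injective_isOpenMap h.smo.cont h.inj h.isOpenMap

theorem smA_inv [Nonempty M] (h : OE d i) (x : M) : SmA d d (Function.invFun i) (i x) := by
  obtain ⟨g, -, h2, h3⟩ := h.inv x
  refine h2.congr (h3.mono fun y hy => ?_)
  rw [← hy, Function.leftInverse_invFun h.inj, hy]

theorem of_homeo (φ : M ≃ₜ M') (h : Smo d d φ) (h' : Smo d d φ.symm) : OE d φ :=
  ⟨h, φ.injective, fun x => ⟨φ.symm, φ.symm_apply_apply x, smA_of h' _,
    .of_forall φ.apply_symm_apply⟩⟩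

theorem cpt (h : OE d i) {K : Set M'} (hK : IsCompact K) (hr : K ⊆ range i) :
    IsCompact (i ⁻¹' K) := by
  rwa [h.emb.isInducing.isCompact_iff, image_preimage_eq_of_subset hr]

variable [IsManifold 𝓘(ℂ, Cm d) ω M] [IsManifold 𝓘(ℂ, Cm d) ω M']

theorem pb_ZP_iff (h : OE d i) : pb h.smo v ∈ ZP x ↔ v ∈ ZP (i x) := by
  refine ⟨fun h0 c hc => ?_, pb_ZP h.smo⟩
  obtain ⟨g, h1, h2, h3⟩ := h.inv x
  have he : At (chartAt (Cm d) x) (g (i x)) := h1.symm ▸ ca x
  have hc' : At c (i (g (i x))) := h1.symm ▸ hc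
  rw [← pv_id v hc hc, ← pv_congr h3 hc v, ← pv_comp h2 (smA_of h.smo _) hc he hc'
    (pb_pv h.smo v he hc'), pv, h1, h0 _ (ca x), Matrix.mulVec_zero]

theorem pb_Ac (h : OE d i) (hV : V ⊆ range i) (hv : v ∈ Ac d V) : pb h.smo v ∈ Ac d (i ⁻¹' V) :=
  P275MC.pb_Ac h.smo (fun _ hK hr => h.cpt hK (hr.trans hV)) hv

theorem pb_inj (h : OE d i) (hv : v ∈ Sp d (range i)) (h0 : pb h.smo v = 0) : v = 0 :=
  eq_zero_of_ZP fun y => by
    by_cases hy : y ∈ range i
    · obtain ⟨x, rfl⟩ := hy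
      exact h.pb_ZP_iff.1 (h0 ▸ (ZP x).zero_mem)
    · exact hv y hy

theorem ex_ext (h : OE d i) : ∃ T : SF d M →ₗ[ℂ] SF d M', ∀ v ∈ Sp d (range i),
    T (pb h.smo v) = v := by
  obtain ⟨T, hT⟩ := (pb h.smo ∘ₗ (Sp d (range i)).subtype).exists_leftInverse_of_injective
    (LinearMap.ker_eq_bot'.2 fun v hv => Subtype.ext (h.pb_inj v.2 hv))
  exact ⟨(Sp d (range i)).subtype ∘ₗ T, fun v hv =>
    congrArg Subtype.val (LinearMap.congr_fun hT ⟨v, hv⟩)⟩

/-- extension by zero -/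
def ext (h : OE d i) : SF d M →ₗ[ℂ] SF d M' := h.ex_ext.choose

theorem ext_pb (h : OE d i) (hv : v ∈ Sp d (range i)) : h.ext (pb h.smo v) = v :=
  h.ex_ext.choose_spec v hv

theorem ext_eq (h : OE d i) (hv : v ∈ Sp d (range i)) (hw : pb h.smo v = w) : h.ext w = v :=
  hw ▸ h.ext_pb hv

variable [T2Space M']

theorem ex_Sp (h : OE d i) {K : Set M} (hK : IsCompact K) (hw : w ∈ Sp d K) :
    ∃ v ∈ Sp d (i '' K), pb h.smo v = w := by
  rcases isEmpty_or_nonempty M with hM | hM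
  · exact ⟨0, Submodule.zero_mem _, ext' fun _ x => hM.elim x⟩
  have h1 := Function.leftInverse_invFun h.inj
  obtain ⟨v, h2, h3⟩ := ex_pbOn (f := Function.invFun i) (ρ := fun _ => 1) h.emb.isOpen_range
    (by rintro _ ⟨x, rfl⟩; exact h.smA_inv x) (hK.image h.smo.cont).isClosed
    (image_subset_range i K) (fun _ _ _ => contDiffAt_const) w (by
      rintro _ ⟨x, rfl⟩ hx
      exact Or.inr ((h1 x).symm ▸ hw x fun h4 => hx ⟨x, h4, rfl⟩))
  refine ⟨v, h2, ext' fun e x he => ?_⟩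
  have he' : At e (Function.invFun i (i x)) := (h1 x).symm ▸ he
  rw [pb_pv h.smo v he (ca _), pv_comp (a := w) (smA_of h.smo x) (h.smA_inv x) he (ca _) he' (by
    rw [h3 _ e _ ⟨x, rfl⟩ (ca _) he', Complex.ofReal_one, one_smul]),
    pv_congr (.of_forall h1) he, pv_id w he he]

theorem ext_Sp (h : OE d i) {K : Set M} (hK : IsCompact K) (hw : w ∈ Sp d K) :
    h.ext w ∈ Sp d (i '' K) := by
  obtain ⟨v, h1, h2⟩ := h.ex_Sp hK hw
  rwa [h.ext_eq (Sp_mono (image_subset_range i K) h1) h2]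

theorem ext_Ac (h : OE d i) (hw : w ∈ Ac d W) : h.ext w ∈ Ac d (i '' W) :=
  let ⟨_, h1, h2, h3⟩ := hw
  ⟨_, h1.image h.smo.cont, image_mono h2, h.ext_Sp h1 h3⟩

theorem ext_rg (h : OE d i) (hw : w ∈ Ac d W) : h.ext w ∈ Sp d (range i) :=
  let ⟨K, h1, _, h3⟩ := hw
  Sp_mono (image_subset_range i K) (h.ext_Sp h1 h3)

theorem pb_ext (h : OE d i) (hw : w ∈ Ac d W) : pb h.smo (h.ext w) = w := by
  obtain ⟨K, k1, -, k3⟩ := hw
  obtain ⟨v, h1, h2⟩ := h.ex_Sp k1 k3
  rwa [h.ext_eq (Sp_mono (image_subset_range i K) h1) h2]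

theorem ext_dd (h : OE d i) (hw : w ∈ Ac d W) : h.ext (dd d M w) = dd d M' (h.ext w) := by
  obtain ⟨K, k1, k2, k3⟩ := dd_Ac (h.ext_Ac hw)
  exact h.ext_eq (Sp_mono (k2.trans (image_subset_range i W)) k3) (by rw [pb_dd, h.pb_ext hw])

theorem ext_pj (h : OE d i) (hw : w ∈ Ac d W) (k : ℤ) :
    h.ext (pj d M k w) = pj d M' k (h.ext w) :=
  h.ext_eq (op_Sp (opr_vl _) (h.ext_rg hw)) (by rw [pb_pj, h.pb_ext hw])

theorem ext_wd (h : OE d i) (hw : w ∈ Ac d W) (y : SF d M') :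
    h.ext (wd (pb h.smo y) w) = wd y (h.ext w) :=
  h.ext_eq (op_Sp (opr_vl _) (h.ext_rg hw)) (by rw [pb_wd, h.pb_ext hw])

theorem ext_Am (h : OE d i) (hw : w ∈ Am d k W) : h.ext w ∈ Am d k (i '' W) :=
  ⟨h.ext_Ac hw.1, mem_Dg_iff.2 (by rw [← h.ext_pj hw.1, pj_eq hw.2])⟩

/-- forms with compact support in `W` and in the image of `W` -/
def eqv (h : OE d i) (k : ℤ) (W : Set M) : Am d k W ≃ₗ[ℂ] Am d k (i '' W) :=
  LinearEquiv.ofLinearMap (h.ext.restrict fun _ hw => h.ext_Am hw)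
    ((pb h.smo).restrict fun _ hv => ⟨h.inj.preimage_image W ▸
      h.pb_Ac (image_subset_range i W) hv.1, pb_Dg _ hv.2⟩)
    (LinearMap.ext fun v => Subtype.ext (h.ext_pb (by
      obtain ⟨K, -, k2, k3⟩ := v.2.1
      exact Sp_mono (k2.trans (image_subset_range i W)) k3)))
    (LinearMap.ext fun w => Subtype.ext (h.pb_ext w.2.1))

theorem eqv_val (h : OE d i) (w : Am d k W) : (h.eqv k W w : SF d M') = h.ext w := rfl

theorem eqv_symm_val (h : OE d i) (v : Am d k (i '' W)) :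
    ((h.eqv k W).symm v : SF d M) = pb h.smo v := rfl

variable [T2Space M]

theorem Qc_ext (h : OE d i) (ho : Ori d i) (hw : w ∈ Ac d univ) (b : SF d M') :
    Qc d M' (h.ext w) b = Qc d M w (pb h.smo b) := by
  have h1 : (univ : Set M) =
      ⋃ x, (chartAt (Cm d) x).source ∩ i ⁻¹' (chartAt (Cm d) (i x)).source :=
    Subset.antisymm (fun x _ => mem_iUnion.2 ⟨x, (ca x).2, (ca (i x)).2⟩) (subset_univ _)
  rw [h1, Ac_iUnion fun x => (chartAt (Cm d) x).open_source.inter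
    ((chartAt (Cm d) (i x)).open_source.preimage h.smo.cont)] at hw
  refine Submodule.iSup_induction _ (motive := fun w => Qc d M' (h.ext w) b = Qc d M w _) hw
    (fun x w hw => ?_) (by simp) fun u v h2 h3 => by simp [h2, h3]
  have he := (ca (d := d) x).1
  have hc := (ca (d := d) (i x)).1
  have : Nonempty M := ⟨x⟩
  set e := chartAt (Cm d) x
  set c := chartAt (Cm d) (i x)
  let φ := h.emb.toOpenPartialHomeomorph i ≫ₕ c
  have hw' : h.ext w ∈ Ac d c.source := Ac_mono (by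
    rintro _ ⟨y, hy, rfl⟩
    exact hy.2) (h.ext_Ac hw)
  have hw2 := Ac_mono inter_subset_left hw
  obtain ⟨K, k1, k2, k3⟩ := id hw
  have h4 : ∀ y ∈ e.source, i y ∈ c.source → Bq (vl w e (e y)) (vl (pb h.smo b) e (e y)) =
      (|(fderiv ℝ (fun z => c (i (e.symm z))) (e y)).det| : ℝ) *
        Bq (vl (h.ext w) c (c (i y))) (vl b c (c (i y))) := fun y a1 a2 => by
    have l1 := Pb2H.det_pos k1b' h.smo ho ⟨he, a1⟩ ⟨hc, a2⟩
    have l2 := k1b'.jc_det ((h.smo.sm e c y ⟨he, a1⟩ ⟨hc, a2⟩).differentiableAt (by simp))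
    conv_lhs => rw [← h.pb_ext hw]
    rw [pb_vl h.smo _ e c y ⟨he, a1⟩ ⟨hc, a2⟩, pb_vl h.smo b e c y ⟨he, a1⟩ ⟨hc, a2⟩,
      abs_of_pos l1, ← l2]
    exact f1a.Bq_lam _ _ _ (l2 ▸ (Complex.ofReal_ne_zero.2 l1.ne').isUnit)
  have h5 : ∀ ψ : ℂ → ℝ, (∀ (r : ℝ) z, ψ (r * z) = r * ψ z) →
      ∫ z, ψ (Bq (vl w e z) (vl (pb h.smo b) e z)) =
        ∫ z, ψ (Bq (vl (h.ext w) c z) (vl b c z)) := fun ψ hψ => by
    have h0 : ψ 0 = 0 := by simpa using hψ 0 0
    have h6 := Pb2H.chg (e := e) (c := φ) (f := K.indicator 1)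
      (D := fun z => ψ (Bq (vl w e z) (vl (pb h.smo b) e z)))
      (D' := fun z => ψ (Bq (vl (h.ext w) c z) (vl b c z)))
      (fun y a1 a2 => ⟨(h.smo.sm e c y ⟨he, a1⟩ ⟨hc, a2.2⟩).differentiableAt (by simp), by
        rw [h4 y a1 a2.2, hψ]
        rfl⟩) (fun y hy => indicator_of_notMem (fun a => hy (k2 a).1) _)
      fun y hy => indicator_of_notMem (fun a => hy ⟨trivial, (k2 a).2⟩) _
    rw [← integral_indicator e.open_target.measurableSet,
      ← integral_indicator φ.open_target.measurableSet] at h6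
    refine (integral_congr_ae (.of_forall fun z => ?_)).trans
      (h6.trans (integral_congr_ae (.of_forall fun z => ?_)))
    · by_cases hz : z ∈ e '' K
      · obtain ⟨y, hy, rfl⟩ := hz
        simp [indicator_of_mem (e.map_source (k2 hy).1), e.left_inv (k2 hy).1, hy]
      · simp [indicator, Sp_chart he k3 hz, Bq_zero_l, h0]
    · by_cases hz : z ∈ c '' (i '' K)
      · obtain ⟨_, ⟨y, hy, rfl⟩, rfl⟩ := hz
        have a1 : y ∈ φ.source := ⟨trivial, (k2 hy).2⟩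
        have a2 : c (i y) = φ y := rfl
        rw [a2, indicator_of_mem (φ.map_source a1), φ.left_inv a1, indicator_of_mem hy,
          Pi.one_apply, one_mul]
      · simp [indicator, Sp_chart hc (h.ext_Sp k1 k3) hz, Bq_zero_l, h0]
  rw [Qc_chart hc hw', Qc_chart he hw2, ← integral_re_add_im (Bq_int hc hw' b),
    ← integral_re_add_im (Bq_int he hw2 _)]
  exact (congrArg₂ (fun s t : ℝ => (s : ℂ) + t * Complex.I) (h5 _ Complex.re_ofReal_mul)
    (h5 _ Complex.im_ofReal_mul)).symm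

theorem itc_ext (h : OE d i) (ho : Ori d i) (hw : w ∈ Ac d univ) :
    itc d M' (h.ext w) = itc d M w := by
  rw [itc, itc, LinearMap.flip_apply, LinearMap.flip_apply, h.Qc_ext ho hw, pb_one]

theorem Qc_pb (h : OE d i) (ho : Ori d i) (hv : v ∈ Ac d (range i)) (b : SF d M') :
    Qc d M (pb h.smo v) (pb h.smo b) = Qc d M' v b := by
  obtain ⟨K, k1, k2, k3⟩ := id hv
  rw [← h.Qc_ext ho (Ac_mono (subset_univ _) (h.pb_Ac subset_rfl hv)), h.ext_pb (Sp_mono k2 k3)]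

theorem itc_pb (h : OE d i) (ho : Ori d i) (hv : v ∈ Ac d (range i)) :
    itc d M (pb h.smo v) = itc d M' v := by
  rw [itc, itc, LinearMap.flip_apply, LinearMap.flip_apply, ← h.Qc_pb ho hv, pb_one]

end OE

end Vale.Agent.P275MC
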