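import Vale.Agent.P275MC.Cl
import Vale.Agent.P275KU.Fn
import Vale.Agent.P275S.HC

/-!
# P275, model of currents: the first Chern class is the class of the curvature
-/

open scoped Manifold ContDiff Topology Matrix
open CategoryTheory TopologicalSpace P275S Module Set Filter
open Vale.Agent.P272.K Vale.Agent.P299.IX Vale.Agent.P299.IX.Fock Vale.Agent.P281Z.Hg
  Vale.Agent.P281Z.Hg.G1H Vale.Agent.P281Z.Hg.G2H Vale.Agent.P281Z.Hg.Pb1H Vale.Agent.P275KU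
open Vale.Agent.P275AR (Nb)

set_option backward.isDefEq.respectTransparency false
set_option linter.unusedSectionVars false

noncomputable section

namespace Vale.Agent.P275MC

variable {d : ℕ} {M : Type} [TopologicalSpace M] [ChartedSpace (Cm d) M]
  [IsManifold 𝓘(ℂ, Cm d) ω M] {a b F : SF d M} {U V : Opens (TopCat.of M)} {m : ℤ} {f : M → ℂ}
  {x : M}

/-- the function defined by a form of degree zero -/
def vf : SF d M →ₗ[ℂ] M → ℂ where
  toFun b x := vl b (chartAt (Cm d) x) (chartAt (Cm d) x x) ∅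
  map_add' _ _ := rfl
  map_smul' _ _ := rfl

theorem vl_zero_deg (hb : b ∈ Dg d M 0) {e : Chart d M} (he : At e x) :
    vl b e (e x) = vf b x • Fock.ev ∅ := by
  have h : ∀ (e : Chart d M) z, vl b e z = vl b e z ∅ • Fock.ev ∅ := fun e z => funext fun I => by
    by_cases hI : I = ∅
    · simp [hI, Fock.ev]
    · rw [hb e z I (by simpa using hI)]
      simp [Fock.ev, hI]
  rw [(vl_isF b).ch e _ x he (ca x), h (chartAt (Cm d) x), Matrix.mulVec_smul, lam_ev_empty]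
  rfl

theorem smC_vf (hb : b ∈ Dg d M 0) : SmC d (vf b) := fun e x he =>
  (contDiffAt_pi.1 ((vl_isF b).sm e x he) ∅).congr_of_eventuallyEq (ev_at he
    (.of_forall fun y hy => by simp [e.left_inv hy.2, vl_zero_deg hb hy, Fock.ev]))

theorem fn_vf (hb : b ∈ Dg d M 0) : fn (smC_vf hb) = b :=
  ext' fun e x he => by rw [fn_vl _ he, vl_zero_deg hb he]

theorem vf_fn (hf : SmC d f) : vf (fn hf) = f := funext fun x => by
  change vl (fn hf) _ _ ∅ = _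
  simp [fn_vl hf (ca x), Fock.ev]

theorem vf_ZP (h : b ∈ ZP x) : vf b x = 0 := congrFun (h _ (ca x)) ∅

theorem smC_cont (hf : SmC d f) : Continuous f := continuous_iff_continuousAt.2 fun x => by
  have he := ca (d := d) x
  exact ((hf _ x he).continuousAt.comp ((chartAt (Cm d) x).continuousAt he.2)).congr
    (mem_of_superset ((chartAt (Cm d) x).open_source.mem_nhds he.2) fun y hy =>
      congrArg f ((chartAt (Cm d) x).left_inv hy))

theorem fn_Nb (hf : SmC d f) {g : M → ℂ} (hg : SmC d g) (h : f =ᶠ[𝓝 x] g) :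
    fn hf - fn hg ∈ Nb x := by
  rw [← fn_sub]
  exact h.mono fun y hy => fn_ZP _ (sub_eq_zero.2 hy)

variable [T2Space M]

/-- smooth local logarithms -/
theorem ex_log (hf : SmC d f) (h0 : f x ≠ 0) :
    ∃ l, SmC d l ∧ (fun y => Complex.exp (l y)) =ᶠ[𝓝 x] f := by
  obtain ⟨χ, c1, -, c3, c4, c5, c6⟩ := ex_bump (d := d) (x := x)
    (U := {y | ‖f y / f x - 1‖ < 1}) ((isOpen_lt
      (((smC_cont hf).div_const _).sub continuous_const).norm continuous_const).mem_nhds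
        (by simp [h0]))
  have h1 : ∀ y, 1 + (χ y : ℂ) * (f y * (f x)⁻¹ - 1) ∈ Complex.slitPlane := fun y => by
    refine Complex.mem_slitPlane_of_norm_lt_one ?_
    by_cases hy : y ∈ tsupport χ
    · rw [norm_mul, Complex.norm_real, Real.norm_of_nonneg (c4 y), ← div_eq_mul_inv]
      exact (mul_le_of_le_one_left (norm_nonneg _) (c5 y)).trans_lt (c3 hy)
    · simp [image_eq_zero_of_notMem_tsupport hy]
  refine ⟨fun y => Complex.log (f x) + Complex.log (1 + (χ y : ℂ) * (f y * (f x)⁻¹ - 1)),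
    (SmC.const _).add (((SmC.const 1).add ((SmC.of_real c1).mul
      ((hf.mul (SmC.const _)).sub (SmC.const 1)))).comp fun y =>
        ((analyticAt_clog (h1 y)).contDiffAt (n := ∞)).restrict_scalars ℝ), c6.mono fun y hy => ?_⟩
  simp only [Complex.exp_add, Complex.exp_log h0, Complex.exp_log (Complex.slitPlane_ne_zero (h1 y))]
  rw [hy]
  field_simp
  simp

/-- local forms glue to a section -/
theorem ex_sec (m : ℤ) (U : Opens (TopCat.of M)) (b : M → SF d M)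
    (h : ∀ x ∈ U, ∀ᶠ y in 𝓝 x, b y - b x ∈ Nb y) : ∃ s : sec ((DR d M).X m) U,
      ∀ x ∈ U, ∃ V, ∃ hV : V ≤ U, x ∈ V ∧ res _ hV s = fm m V (b x) := by
  let W : U → Opens (TopCat.of M) := fun x =>
    U ⊓ ⟨interior {y | b y - b x ∈ Nb y}, isOpen_interior⟩
  have h1 : ∀ x : U, x.1 ∈ W x := fun x => ⟨x.2, mem_interior_iff_mem_nhds.2 (h x x.2)⟩
  obtain ⟨s, hs⟩ := P275S.glue _ W U (fun _ => inf_le_left)
    (fun x hx => Opens.mem_iSup.2 ⟨⟨x, hx⟩, h1 _⟩) (fun x => fm m (W x) (b x)) fun x y => by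
      rw [res_fm, res_fm]
      refine fm_congr fun z hz => ?_
      have h2 := sub_mem (P275AR.Nb_ZP (interior_subset (s := {z | b z - b y ∈ Nb z}) hz.2.2))
        (P275AR.Nb_ZP (interior_subset (s := {z | b z - b x ∈ Nb z}) hz.1.2))
      rwa [sub_sub_sub_cancel_left] at h2
  exact ⟨s, fun x hx => ⟨_, _, h1 ⟨x, hx⟩, hs ⟨x, hx⟩⟩⟩

theorem ex_nb (h : a - b ∈ Nb x) (hx : x ∈ U) : ∃ V ≤ U, x ∈ V ∧ fm m V a = fm m V b :=
  let ⟨W, h1, h2, h3⟩ := mem_nhds_iff.1 h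
  ⟨U ⊓ ⟨W, h2⟩, inf_le_left, ⟨hx, h3⟩, fm_congr fun _ hy => h1 hy.2⟩

theorem ex_jC : ∃ j : (DR d M).X 0 ⟶ C0 (TopCat.of M), ∀ V, ∀ b ∈ Dg d M 0, ∀ x ∈ V,
    cv (app j V (fm 0 V b)) x = vf b x := by
  obtain ⟨j, hj⟩ := ex_lift (d := d) (m := 0) (G := C0 (TopCat.of M))
    { toFun := fun b => cmk (vf (pj d M 0 b)) (smC_cont (smC_vf (pj_mem 0 b))).continuousOn
      map_add' := fun a b => cv_ext fun x hx => by
        rw [cv_add, cv_cmk _ _ hx, cv_cmk _ _ hx, cv_cmk _ _ hx, map_add, map_add, Pi.add_apply]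
      map_smul' := fun c b => cv_ext fun x hx => by
        rw [RingHom.id_apply, cv_smul, cv_cmk _ _ hx, cv_cmk _ _ hx, map_smul, map_smul]
        rfl } fun V b hb h => cv_ext fun x hx => by
      rw [cv_res _ _ hx, cv_zero]
      exact (cv_cmk (U := ⊤) _ (smC_cont (smC_vf (pj_mem 0 b))).continuousOn trivial).trans
        (by rw [pj_eq hb, vf_ZP (h x hx)])
  refine ⟨j, fun V b hb x hx => ?_⟩
  rw [app_fm, hj b hb, cv_res _ _ hx]
  exact (cv_cmk (U := ⊤) _ (smC_cont (smC_vf (pj_mem 0 b))).continuousOn trivial).trans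
    (by rw [pj_eq hb])

variable (d M) in
/-- smooth functions are continuous -/
def jC : (DR d M).X 0 ⟶ C0 (TopCat.of M) := ex_jC.choose

theorem cv_jC (hb : b ∈ Dg d M 0) (hx : x ∈ V) : cv (app (jC d M) V (fm 0 V b)) x = vf b x :=
  ex_jC.choose_spec V b hb x hx

theorem fn_jC : Fn (jC d M) (dr1 d M) :=
  ⟨fun U => (injective_iff_map_eq_zero _).2 fun s hs => loc_zero _ s fun x hx => by
    obtain ⟨V, hV, h1, b, h2, h3⟩ := ex_fm s hx
    refine ⟨V, hV, h1, h3.trans ((fm_eq_zero h2).2 fun y hy => ?_)⟩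
    rw [← fn_vf h2]
    refine fn_ZP _ ?_
    rw [← cv_jC h2 hy, ← h3, app_res, hs, map_zero, cv_zero], cv_ext fun x hx => by
    rw [dr1, cv_jC one_Dg hx, cv_cOne hx]
    change vl _ _ _ ∅ = _
    simp [one_vl _ x (ca x), Fock.ev]⟩

theorem ρI_one : app ((ρI d M).f 0) ⊤ (dr1 d M) = eI ℂ (TopCat.of M) := by
  have h := ιDR_ρI (d := d) (M := M)
  rw [ιDR, hom_clsC, gcl_comp_hom, ← gcl_eI, gcl_eq_iff _ _ _ _ (-1) rfl] at h
  obtain ⟨t, ht⟩ := h
  rw [(rs_I ℂ _).neg _ (by omega) _ t, map_zero] at ht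
  exact sub_eq_zero.1 ht.symm

theorem cl_eq_hc {n : ℤ} (w : Zf d M) : cl n w =
    hc (app ((ρI d M).f n) ⊤ (fm n ⊤ w.1)) (hom_app_cocycle _ (d_Zf n w) _) :=
  unit_cancel (injC_I ℂ _) (by rw [unit_cl, unit_hc, gcl_comp_hom])

theorem ex_isLog {g : M → ℂ} (hf : SmC d f) (h : f =ᶠ[𝓝 x] g) (h0 : g x ≠ 0) (hx : x ∈ U) :
    ∃ (l : M → ℂ) (hl : SmC d l), (fun y => Complex.exp (l y)) =ᶠ[𝓝 x] f ∧ ∃ V ≤ U, x ∈ V ∧
      IsLog (jC d M) g (fm 0 V (fn hl)) := by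
  obtain ⟨l, hl, e⟩ := ex_log hf (h.self_of_nhds ▸ h0)
  obtain ⟨W, h1, h2, h3⟩ := mem_nhds_iff.1 (e.trans h)
  exact ⟨l, hl, e, U ⊓ ⟨W, h2⟩, inf_le_left, ⟨hx, h3⟩, fun y hy => by
    rw [cv_jC (fn_Dg hl) hy, vf_fn]
    exact h1 hy.2⟩

theorem dlog_Nb (hf : SmC d f) {l : M → ℂ} (hl : SmC d l)
    (e : (fun y => Complex.exp (l y)) =ᶠ[𝓝 x] f) (h : wd (fn hf) a - dd d M (fn hf) ∈ Nb x) :
    a - dd d M (fn hl) ∈ Nb x := by
  have h1 : SmC d fun y => Complex.exp (l y) :=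
    hl.comp fun _ => (Complex.contDiff_exp (𝕜 := ℝ)).contDiffAt
  have h2 := P275AR.Nb_ev (fn_Nb h1 hf e)
  have h3 := dd_fn_hol hl h1 h1 fun y => Complex.hasDerivAt_exp _
  filter_upwards [h, h2, e] with y k1 k2 k3 c hc
  have k4 := dd_ZP k2 c hc
  have k5 := k1 c hc
  rw [map_sub, h3, vl_sub, wd_fn_vl _ _ hc, sub_eq_zero] at k4
  rw [vl_sub, wd_fn_vl _ _ hc, ← k4, ← k3, ← smul_sub] at k5
  exact (smul_eq_zero.1 k5).resolve_left (Complex.exp_ne_zero _)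

/-- **the first Chern class is the class of the curvature** -/
theorem c1_eq_cl (L : P275CC.LB M) (h0 : dd d M F = 0) (b : L.ι → M → SF d M)
    (h1 : ∀ i, ∀ x ∈ L.U i, ∀ᶠ y in 𝓝 x, b i y - b i x ∈ Nb y)
    (h2 : ∀ i, ∀ x ∈ L.U i, dd d M (b i x) - F ∈ Nb x)
    (h3 : ∀ i j x, x ∈ L.U i → x ∈ L.U j → ∃ (f : M → ℂ) (hf : SmC d f), f =ᶠ[𝓝 x] L.g i j ∧
      wd (fn hf) (b i x - b j x) - dd d M (fn hf) ∈ Nb x) :
    c1 (X := TopCat.of M) L = cl 2 ⟨F, h0⟩ := by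
  choose s hs using fun i => ex_sec 1 (covU (X := TopCat.of M) L.toCov i) (b i) (h1 i)
  rw [cl_eq_hc, c1, hc_eq_iff _ _ _ _ 1 rfl]
  refine c1z_cmp (ρI d M) fn_jC (a := 𝟙 _) ρI_one (fun i j x hx => ?_) ⟨s, fun i j => ?_, fun i =>
    loc_ext _ _ _ fun x hx => ?_⟩
  · obtain ⟨f, hf, e, -⟩ := h3 i j x hx.1 hx.2
    obtain ⟨l, hl, -, V, k1, k2, k3⟩ := ex_isLog hf e (L.ne hx.1 hx.2) hx
    exact ⟨V, k1, k2, _, k3⟩
  · refine fn_jC.isW_of_loc (ψ := 𝟙 _ ≫ (DR d M).d 0 1) dr1_d fun x hx => ?_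
    obtain ⟨f, hf, e, k⟩ := h3 i j x hx.1 hx.2
    obtain ⟨V₁, a1, a2, a3⟩ := hs i x hx.1
    obtain ⟨V₂, b1, b2, b3⟩ := hs j x hx.2
    obtain ⟨l, hl, e', V, k1, k2, k3⟩ := ex_isLog (U := V₁ ⊓ V₂) hf e (L.ne hx.1 hx.2) ⟨a2, b2⟩
    obtain ⟨W, l1, l2, l3⟩ := ex_nb (m := 1) (dlog_Nb hf hl e' k) k2
    refine ⟨W, (l1.trans k1).trans (inf_le_inf a1 b1), l2, _, k3.res l1, ?_⟩
    rw [map_sub, res_res, res_res, ← res_res _ a1 ((l1.trans k1).trans inf_le_left), a3,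
      ← res_res _ b1 ((l1.trans k1).trans inf_le_right), b3, res_fm, res_fm, res_fm, ← map_sub, l3,
      Category.id_comp, d_fm (zero_add 1)]
  · obtain ⟨V, a1, a2, a3⟩ := hs i x hx
    obtain ⟨W, l1, l2, l3⟩ := ex_nb (m := 2) (h2 i x hx) a2
    refine ⟨W, l1.trans a1, l2, ?_⟩
    rw [← app_res, ← res_res _ a1 l1, a3, res_fm, d_fm one_add_one_eq_two, l3, res_fm,
      res_fm]

end Vale.Agent.P275MC
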