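import Vale.Agent.P275MC.Gy
import Vale.Agent.P275MC.C1
import Vale.Agent.P275S.Taut

/-!
# P275, model of currents: Gysin maps in the graded homotopy category
-/

open scoped Manifold ContDiff Topology
open CategoryTheory TopologicalSpace P275S Module CochainComplex.HomComplex Set Filter
open Vale.Agent.P272.K Vale.Agent.P281Z Vale.Agent.P281Z.Hg Vale.Agent.P281Z.Hg.G1H
  Vale.Agent.P281Z.Hg.G2H Vale.Agent.P281Z.Hg.Pb1H Vale.Agent.P275KU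
open Vale.Agent.P275AR (Hc dc Act Nb)
open Vale.Agent.P275FM (Coh Ch)

set_option backward.isDefEq.respectTransparency false
set_option linter.unusedSectionVars false

noncomputable section

namespace Vale.Agent.P275MC

variable {d d' : ℕ} {M N : Type} [TopologicalSpace M] [ChartedSpace (Cm d) M]
  [IsManifold 𝓘(ℂ, Cm d) ω M] [T2Space M] [TopologicalSpace N] [ChartedSpace (Cm d') N]
  [IsManifold 𝓘(ℂ, Cm d') ω N] [T2Space N] {a b u v w : SF d M} {l m n p q : ℤ} {f : M → N}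

theorem act_univ (hf : Smo d d' f) (hp : IsProperMap f) : Act (univ : Set N) univ (pb hf) :=
  Act.pb hf (fun _ hK _ => hp.isCompact_preimage hK) (subset_univ _)

theorem pb_eq' {g : M → N} (hf : Smo d d' f) (hg : Smo d d' g) (h : ∀ x, f x = g x)
    (a : SF d' N) : pb hf a = pb hg a := by
  obtain rfl : f = g := funext h
  rfl

variable (d) in
theorem smC_lc (φ : LocallyConstant M ℂ) : SmC d φ := fun e x he =>
  (contDiffAt_const (c := φ x)).congr_of_eventuallyEq (ev_at he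
    ((φ.isLocallyConstant.eventually_eq x).mono fun y hy h => by
      simp only [e.left_inv h.2]
      exact hy))

theorem fn_lc_Nb (φ : LocallyConstant M ℂ) (x : M) : fn (smC_lc d φ) - φ x • one d M ∈ Nb x :=
  fn_const (d := d) (M := M) (φ x) ▸ fn_Nb _ _ (φ.isLocallyConstant.eventually_eq x)

theorem dd_lc (φ : LocallyConstant M ℂ) : dd d M (fn (smC_lc d φ)) = 0 :=
  eq_zero_of_ZP fun x => by
    have h := dd_ZP (fn_lc_Nb (d := d) φ x)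
    rwa [map_sub, map_smul, dd_one, smul_zero, sub_zero] at h

/-- the class of a locally constant function -/
theorem cl_lc (φ : LocallyConstant M ℂ) :
    cl 0 ⟨fn (smC_lc d φ), dd_lc φ⟩ = lc (X := TopCat.of M) φ := by
  obtain ⟨c, hc, e, h⟩ := lcK_gcl (X := TopCat.of M) φ (dr1 d M) dr1_d
  refine unit_cancel (injC_I ℂ _) ?_
  rw [unit_cl, unit_lc, ← ιDR_ρI (d := d), ιDR, hom_clsC, ← Category.assoc, e]
  refine gcl_cg (eq_of_loc_const (X := TopCat.of M) φ h fun x => ?_).symm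
  obtain ⟨V, -, h1, h2⟩ := ex_nb (m := 0) (U := ⊤) (fn_lc_Nb (d := d) φ x) trivial
  exact ⟨V, h1, h2.trans (map_smul _ _ _)⟩

theorem cpt_push {k : Type} [Field k] {X Y : TopCat.{0}} [T2Space Y] (g : X ⟶ Y) {F : Sh k X}
    {s : sec F ⊤} (hs : s ∈ cpt F ⊤) : s ∈ cpt ((push k g).obj F) ⊤ := by
  obtain ⟨C, h1, -, h3⟩ := hs
  have h4 := h1.image g.hom.continuous
  refine ⟨_, h4, subset_univ _, fun y hy => by_contra fun h => ?_⟩
  refine hy.2 ⟨_, h4.isClosed.isOpen_compl⟩ le_top h (loc_zero F _ fun x hx => ?_)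
  obtain ⟨V, _, h5, h6⟩ := (not_mem_supp (U := ⊤) (s := s) (x := x) trivial).1
    fun h7 => hx ⟨x, h3 h7, rfl⟩
  exact ⟨_ ⊓ V, inf_le_left, ⟨hx, h5⟩, (res_res F _ _ s).trans
    ((res_res F le_top inf_le_right s).symm.trans (by rw [h6, map_zero]))⟩

variable [SecondCountableTopology M] [SecondCountableTopology N]

theorem ex_gyK (hf : Smo d d' f) (hp : IsProperMap f) :
    ∃ g ∈ KG.deg ℂ (K ℂ (tm hf)) (IK ℂ (TopCat.of N)) ((d' + d' : ℕ) - (d + d : ℕ)),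
      KG.hom ℂ ((pushC ℂ (tm hf)).map (σI d M)) ≫ g = (((d' - d : ℤ).negOnePow : ℂ)) •
        KG.hom ℂ ((amC d M).pushIso (tm hf) _).hom ≫
          KG.mk ℂ (pfCur hf fun _ => hp.isCompact_preimage) ≫ KG.hom ℂ (σI d' N) :=
  have := nice (d := d) (M := M)
  have := qis_push (tm hf) flqC_Cur.softC (softC_I ℂ _) (σI d M)
  KG.exists_lift _ (injC_I ℂ _) (Submodule.smul_mem _ _ (KG.comp_mem_deg (zero_add _)
    (KG.hom_mem_deg _) (KG.comp_mem_deg (add_zero _) (KG.mk_mem_deg _) (KG.hom_mem_deg _))))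

/-- the trace morphism `Rf_* ℂ ⟶ ℂ` of a proper map -/
def gyK (hf : Smo d d' f) (hp : IsProperMap f) : K ℂ (tm hf) ⟶ K ℂ (𝟙 (TopCat.of N)) :=
  (ex_gyK hf hp).choose

theorem gyK_mem (hf : Smo d d' f) (hp : IsProperMap f) :
    gyK hf hp ∈ KG.deg ℂ _ _ (2 * d' - 2 * d) := by
  rw [show (2 * d' - 2 * d : ℤ) = (d' + d' : ℕ) - (d + d : ℕ) by omega]
  exact (ex_gyK hf hp).choose_spec.1

theorem σI_gyK (hf : Smo d d' f) (hp : IsProperMap f) :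
    KG.hom ℂ ((pushC ℂ (tm hf)).map (σI d M)) ≫ gyK hf hp = (((d' - d : ℤ).negOnePow : ℂ)) •
      KG.hom ℂ ((amC d M).pushIso (tm hf) _).hom ≫
        KG.mk ℂ (pfCur hf fun _ => hp.isCompact_preimage) ≫ KG.hom ℂ (σI d' N) :=
  (ex_gyK hf hp).choose_spec.2

theorem unit_act {X Y : TopCat.{0}} {h : X ⟶ Y} (φ : K ℂ h ⟶ K ℂ (𝟙 Y)) (α : H ℂ X) :
    unit ℂ Y ≫ act φ α = cU ℂ h ≫ (pushK ℂ h).map (unit ℂ X ≫ α) ≫ φ := by
  rw [← Category.assoc, ← evI_apply, ← evI_apply, ← evK_eq, ← evK_act, evK_id]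

theorem act_eq {X Y : TopCat.{0}} {h : X ⟶ Y} (φ : K ℂ h ⟶ K ℂ (𝟙 Y)) (α : H ℂ X) :
    act φ α = pullI ℂ h ≫ mul h α ≫ φ := unit_cancel (injC_I ℂ _) (by
  rw [unit_act, ← Category.assoc (unit ℂ Y), unit_pullI, uK, Functor.map_comp, mul_def]
  simp only [Category.assoc])

theorem act_gyK (hf : Smo d d' f) (hp : IsProperMap f) (h : Act (univ : Set N) univ (pb hf))
    (α : H ℂ (TopCat.of M)) : act (gyK hf hp) α = gys h α := by
  induction α using KG.ind_deg with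
  | h0 => simp only [map_zero]
  | hadd x y hx hy => simp only [map_add, hx, hy]
  | hmk m α hα =>
    obtain ⟨T, hT, e⟩ := ex_cur (d := d) hα
    refine H_ext (d := d') fun x => ?_
    obtain ⟨z, hz, rfl⟩ := Coh.ind x
    have h1 := unit_act (gyK hf hp) α
    rw [e, Functor.map_comp, Category.assoc, ← Category.assoc (cU ℂ _), cU_gcl, KG.map_hom,
      σI_gyK, Linear.comp_smul, ← Category.assoc, gcl_comp_hom,
      ← Category.assoc, gcl_comp_mk rfl, ← Linear.smul_comp, ← gcl_smul] at h1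
    have h2 := sg_add m (d' - d)
    rw [show m + 2 * (d' - d) = m + (((d' + d' : ℕ) : ℤ) - (d + d : ℕ)) by omega] at h2
    rw [pd_gys, Act.map_mk, pd_eq, pd_eq, pdL_cur _ _ h1, pdL_cur _ _ e, h2, mul_comm _ (sg m),
      mul_assoc]
    refine congrArg (sg m * ·) ((mul_assoc _ _ _).symm.trans ?_)
    rw [neg_sq, one_mul]
    refine congrArg (cv' T) (Subtype.ext ((pb_pj hf _ _).trans ?_))
    rw [show ((d' + d' : ℕ) : ℤ) - (m + (((d' + d' : ℕ) : ℤ) - (d + d : ℕ))) = (d + d : ℕ) - m by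
      omega]

theorem ex_itI : ∃ L : cpt ((I ℂ (TopCat.of M)).X (d + d : ℕ)) ⊤ →ₗ[ℂ] ℂ,
    (∀ u (hu : u ∈ Am d (d + d : ℕ) univ), L ⟨app ((ρI d M).f _) ⊤ (fm _ ⊤ u),
      app_mem_cpt _ ((fm_mem_cpt hu.2).2 hu.1)⟩ = itc d M u) ∧
    ∀ t : cpt ((I ℂ (TopCat.of M)).X ((d + d : ℕ) - 1)) ⊤,
      L ⟨app ((I ℂ _).d _ _) ⊤ t.1, app_mem_cpt _ t.2⟩ = 0 := by
  have := nice (d := d) (M := M)
  have := qis_gamc softC_DR (softC_I ℂ _) (ρI d M) ⊤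
  obtain ⟨L, hL⟩ := ex_fac (LinearMap.coprod ((Gamc ℂ ⊤).map ((ρI d M).f (d + d : ℕ))).hom
    ((Gamc ℂ ⊤).map ((I ℂ (TopCat.of M)).d ((d + d : ℕ) - 1) (d + d : ℕ))).hom)
    (LinearMap.coprod (itc d M ∘ₗ uf _ ∘ₗ Submodule.subtype _) 0) fun ⟨s, t⟩ h => by
      obtain ⟨r, hr⟩ := (mod_mono_hm_iff ((mapC (Gamc ℂ ⊤)).map (ρI d M)) (d + d : ℕ)).1
        inferInstance s (Subtype.ext (by
          change app ((DR d M).d _ _) ⊤ s.1 = 0
          rw [(isZero_DR (Or.inr (by omega))).eq_of_tgt ((DR d M).d _ _) 0, app_zero])) (-t)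
        ((map_neg _ t).trans (neg_eq_of_add_eq_zero_left h))
      subst hr
      exact (add_zero _).trans ((congrArg (itc d M) (uf_d (sub_add_cancel _ 1) r.1)).trans
        (itc_dd (uf_Ac r)))
  refine ⟨L, fun u hu => ?_, fun t => ?_⟩
  · have h := hL (⟨_, (fm_mem_cpt hu.2).2 hu.1⟩, 0)
    rw [LinearMap.coprod_apply, LinearMap.coprod_apply, map_zero, map_zero, add_zero,
      add_zero] at h
    exact h.trans (congrArg (itc d M) (uf_fm hu.2))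
  · have h := hL (0, t)
    rw [LinearMap.coprod_apply, LinearMap.coprod_apply, map_zero, map_zero, zero_add,
      zero_add] at h
    exact h

/-- the class of a closed section with compact support -/
def ck {X : TopCat.{0}} {F : P275S.Cx ℂ X} {n : ℤ} (s : sec (F.X n) ⊤) (hs : s ∈ cpt (F.X n) ⊤)
    (h0 : app (F.d n (n + 1)) ⊤ s = 0) : HT ((KG.map ℂ (Gamc ℂ ⊤)).obj (KG.of F)) :=
  HT.mk (M := (mapC (Gamc ℂ ⊤)).obj F) (n := n) ⟨s, hs⟩ (Subtype.ext h0)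

theorem ck_mk {X : TopCat.{0}} {F G : P275S.Cx ℂ X} {n a m : ℤ} (h : n + a = m)
    (s : sec (F.X n) ⊤) (hs) (h0) (z : Cocycle F G a) :
    ck s hs h0 ≫ (KG.map ℂ (Gamc ℂ ⊤)).map (KG.mk ℂ z) =
      ck (app (z.1.v n m h) ⊤ s) (app_mem_cpt _ hs) (cocycle_app h s h0 z) := by
  rw [KG.map_mk]
  exact HT.mk_comp_mk h _ _ _

theorem ck_hom {X : TopCat.{0}} {F G : P275S.Cx ℂ X} {n : ℤ} (s : sec (F.X n) ⊤) (hs) (h0)
    (φ : F ⟶ G) : ck s hs h0 ≫ (KG.map ℂ (Gamc ℂ ⊤)).map (KG.hom ℂ φ) =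
      ck (app (φ.f n) ⊤ s) (app_mem_cpt _ hs) (hom_app_cocycle s h0 φ) := by
  rw [KG.map_hom]
  exact HT.mk_comp_hom _ _ _

theorem ck_eq {X : TopCat.{0}} {F : P275S.Cx ℂ X} {n : ℤ} {s t : sec (F.X n) ⊤} {hs ht h0 h1}
    (h : ck s hs h0 = ck t ht h1) : ∃ r ∈ cpt (F.X (n - 1)) ⊤, app (F.d (n - 1) n) ⊤ r = s - t :=
  let ⟨r, hr⟩ := (HT.mk_eq_iff (M := (mapC (Gamc ℂ ⊤)).obj F) _ _ _ _ (n - 1)
    (sub_add_cancel n 1)).1 h
  ⟨r.1, r.2, congrArg Subtype.val hr⟩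

theorem ex_lam {e : ℤ} (he : (d + d : ℕ) + e = (d' + d' : ℕ)) {g : TopCat.of M ⟶ TopCat.of N}
    (z : Cocycle ((pushC ℂ g).obj (DR d M)) (I ℂ (TopCat.of N)) e)
    (L : cpt ((I ℂ (TopCat.of N)).X (d' + d' : ℕ)) ⊤ →ₗ[ℂ] ℂ)
    (hL : ∀ t : cpt ((I ℂ (TopCat.of N)).X ((d' + d' : ℕ) - 1)) ⊤,
      L ⟨app ((I ℂ _).d _ _) ⊤ t.1, app_mem_cpt _ t.2⟩ = 0) :
    ∃ lam ∈ Hd ℂ (TopCat.of M) 0, ∀ v (hv : v ∈ Am d (d + d : ℕ) univ),
      pd d M lam (Coh.mk ⟨v, hv.1⟩ (Subtype.ext (top_Zf hv.2))) = L ⟨app (z.1.v _ _ he) ⊤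
        (fm _ ⊤ v), app_mem_cpt _ (cpt_push g ((fm_mem_cpt hv.2).2 hv.1))⟩ := by
  have h1 : ∀ (k : ℤ) (v : Ac d (univ : Set M)), fm k ⊤ v.1 ∈ cpt ((DR d M).X k) ⊤ := fun k v =>
    fm_pj v.1 ▸ (fm_mem_cpt (pj_mem k _)).2 (pj_Ac k v.2)
  let Φ : Ac d (univ : Set M) →ₗ[ℂ] ℂ := L ∘ₗ LinearMap.codRestrict _
    (app (z.1.v _ _ he) ⊤ ∘ₗ fm _ ⊤ ∘ₗ Submodule.subtype _)
    fun v => app_mem_cpt _ (cpt_push g (h1 _ v))
  have h2 : ∀ y, Φ (dc d univ y) = 0 := fun y => by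
    have k1 := Cochain.congr_v (z.δ_eq_zero (e + 1)) ((d + d : ℕ) - 1) (d' + d' : ℕ) (by omega)
    rw [δ_v e (e + 1) rfl z.1 _ _ (by omega) ((d' + d' : ℕ) - 1) (d + d : ℕ) rfl
      (sub_add_cancel _ 1)] at k1
    have k2 := congrArg (fun φ : ((pushC ℂ g).obj (DR d M)).X _ ⟶ (I ℂ (TopCat.of N)).X _ =>
      app φ ⊤ (fm ((d + d : ℕ) - 1) ⊤ y.1)) k1
    have k3 := hL ⟨_, app_mem_cpt (z.1.v ((d + d : ℕ) - 1) _ (by omega)) (cpt_push g (h1 _ y))⟩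
    have k4 : app (z.1.v _ _ he) ⊤ (fm _ ⊤ (dd d M y.1)) = -((e + 1).negOnePow •
        app ((I ℂ _).d _ _) ⊤ (app (z.1.v ((d + d : ℕ) - 1) ((d' + d' : ℕ) - 1) (by omega)) ⊤
          (fm _ ⊤ y.1))) := by
      rw [← d_fm (sub_add_cancel _ 1), eq_neg_iff_add_eq_zero, ← smul_eq_zero_iff_eq
        (e + 1).negOnePow, smul_add, smul_smul, Int.units_mul_self, one_smul]
      exact (add_comm _ _).trans k2
    have k5 := congrArg (fun c => -((e + 1).negOnePow • c)) k3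
    simp only [← map_zsmul_unit L, ← map_neg L, smul_zero, neg_zero] at k5
    exact (congrArg L (Subtype.ext k4)).trans k5
  let ψ : Dual ℂ (Hc d (univ : Set M)) := Submodule.liftQ _ (Φ ∘ₗ Submodule.subtype _)
    fun _ ⟨y, hy⟩ => (congrArg Φ hy.symm).trans (h2 y)
  obtain ⟨lam, hl⟩ := (pd d M).surjective ψ
  refine ⟨lam, (mem_Hd_iff (d := d) (zero_add _)).2 fun x => ?_, fun v hv => by rw [hl]; rfl⟩
  obtain ⟨v, hv, rfl⟩ := Coh.ind x
  rw [hl]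
  exact congrArg L (Subtype.ext (congrArg (app (z.1.v _ _ he) ⊤) (fm_pj v.1)))

theorem lam_key {e k : ℤ} (he : (d + d : ℕ) + e = (d' + d' : ℕ)) (hf : Smo d d' f)
    (z : Cocycle ((pushC ℂ (tm hf)).obj (DR d M)) (I ℂ (TopCat.of N)) e) {w' y : SF d' N}
    (hw : w ∈ Dg d M m) (h0 : dd d M w = 0) (hw' : w' ∈ Dg d' N n) (h0' : dd d' N w' = 0)
    (b1 : y ∈ Am d' k univ) (b2 : dd d' N y = 0) (e1 : k + m = (d + d : ℕ))
    (e2 : k + n = (d' + d' : ℕ)) (c1 : KG.mk ℂ (wdDR hw' h0') ≫ KG.hom ℂ (ρI d' N) =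
      KG.hom ℂ (pbDR hf) ≫ KG.mk ℂ (KG.zmap (push ℂ (tm hf)) (wdDR hw h0)) ≫ KG.mk ℂ z) :
    ∃ r ∈ cpt ((I ℂ (TopCat.of N)).X ((d' + d' : ℕ) - 1)) ⊤, app ((I ℂ _).d _ (d' + d' : ℕ)) ⊤ r =
      app ((ρI d' N).f _) ⊤ (fm _ ⊤ (wd w' y)) -
        app (z.1.v _ _ he) ⊤ (fm _ ⊤ (wd w (pb hf y))) := by
  have c2 := congrArg (fun t => ck (fm _ ⊤ y) ((fm_mem_cpt b1.2).2 b1.1) (d_Zf _ ⟨y, b2⟩) ≫
    (KG.map ℂ (Gamc ℂ ⊤)).map t) c1
  simp only [Functor.map_comp, ← Category.assoc] at c2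
  rw [ck_mk e2, ck_hom, ck_hom, ck_mk e1, ck_mk he] at c2
  obtain ⟨r, hr, c3⟩ := ck_eq c2
  refine ⟨r, hr, c3.trans (congrArg₂ (· - ·) (congrArg _ (wdDR_fm hw' h0' _ b1.2))
    (congrArg (app (z.1.v _ _ he) ⊤) ?_))⟩
  exact (congrArg (app ((wdDR hw h0).1.v k _ e1) ⊤) (pbDR_fm hf ⊤ y)).trans
    (wdDR_fm hw h0 _ (pb_Dg hf b1.2))

/-- **every morphism `Rf_* ℂ ⟶ ℂ` of the right degree acts as the Gysin map, up to a locally
constant factor** -/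
theorem act_eq_gys {hf : Smo d d' f} (h : Act (univ : Set N) univ (pb hf))
    {φ : K ℂ (tm hf) ⟶ K ℂ (𝟙 (TopCat.of N))} (hφ : φ ∈ KG.deg ℂ _ _ (2 * d' - 2 * d)) :
    ∃ lam : LocallyConstant M ℂ, ∀ β, act φ β = gys h (lc (X := TopCat.of M) lam * β) := by
  obtain ⟨z, hz⟩ := KG.comp_mem_deg (zero_add _)
    (KG.hom_mem_deg (k := ℂ) ((pushC ℂ (tm hf)).map (ρI d M))) hφ
  obtain ⟨L, l1, l2⟩ := ex_itI (d := d') (M := N)
  obtain ⟨lam, k1, k2⟩ := ex_lam (by omega) z L l2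
  obtain ⟨lam, rfl⟩ := exists_lc k1
  refine ⟨lam, H_ind (d := d) (by simp only [map_zero, mul_zero])
    (fun v w h1 h2 => by simp only [map_add, mul_add, h1, h2]) fun m w hw h0 => ?_⟩
  have a1 := act_mem rfl hφ (cl_mem (m : ℤ) ⟨w, h0⟩)
  have a2 := gys_mem h (mul_mem_Hd (zero_add _) k1 (cl_mem (m : ℤ) ⟨w, h0⟩))
    (n := m + (2 * d' - 2 * d)) (by omega)
  refine H_ext (d := d') fun x => ?_
  rw [← (mem_Hd_iff (n := (d + d : ℕ) - m) (by omega)).1 a1,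
    ← (mem_Hd_iff (n := (d + d : ℕ) - m) (by omega)).1 a2]
  obtain ⟨u, hu, rfl⟩ := Coh.ind x
  obtain ⟨w', hw', h0', e⟩ := cl_surj (d := d') a1
  obtain ⟨y, b1, b2, hy⟩ : ∃ y, ∃ (b1 : y ∈ Am d' ((d + d : ℕ) - m) univ) (b2 : dd d' N y = 0),
      prH d' univ ((d + d : ℕ) - m) (Coh.mk u hu) = Coh.mk ⟨y, b1.1⟩ (Subtype.ext b2) :=
    ⟨_, pj_Am _ u.2, dd_pj (congrArg Subtype.val hu) _, rfl⟩
  rw [hy, pd_gys, pd_mul, hm_cl hw, ← e, pd_cl hw']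
  have b3 : wd w (pb hf y) ∈ Am d (d + d : ℕ) univ := by
    simpa only [add_sub_cancel] using wd_Am hw ⟨h.mem y b1.1, pb_Dg hf b1.2⟩
  have b4 : wd w' y ∈ Am d' (d' + d' : ℕ) univ := by
    have := wd_Am hw' b1
    rwa [show m + (2 * d' - 2 * d : ℤ) + ((d + d : ℕ) - m) = (d' + d' : ℕ) by omega] at this
  have c1 : KG.mk ℂ (wdDR hw' h0') ≫ KG.hom ℂ (ρI d' N) = KG.hom ℂ (pbDR hf) ≫
      (pushK ℂ (tm hf)).map (KG.mk ℂ (wdDR hw h0)) ≫ KG.mk ℂ z := by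
    rw [wdDR_ρI, e, act_eq, ← Category.assoc, ρI_pullI, Category.assoc, mul_def,
      ← Category.assoc ((pushK ℂ _).map _), ← Functor.map_comp, ← wdDR_ρI hw h0, Functor.map_comp,
      Category.assoc, KG.map_hom]
    exact congrArg (fun t => KG.hom ℂ (pbDR hf) ≫
      (pushK ℂ (tm hf)).map (KG.mk ℂ (wdDR hw h0)) ≫ t) hz.symm
  rw [KG.map_mk] at c1
  obtain ⟨r, hr, c3⟩ := lam_key (by omega) hf z hw h0 hw' h0' b1 b2 (by omega) (by omega) c1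
  refine Eq.trans ?_ (k2 _ b3).symm
  rw [← l1 _ b4, ← sub_eq_zero, ← map_sub, ← l2 ⟨r, hr⟩]
  exact congrArg L (Subtype.ext c3.symm)

/-- the self-intersection formula -/
theorem pb_gys {hf : Smo d d' f} (he : Topology.IsClosedEmbedding f)
    (h : Act (univ : Set N) univ (pb hf)) (β : H ℂ (TopCat.of M)) :
    P275S.pb (tm hf) (gys h β) = P275S.pb (tm hf) (gys h 1) * β := by
  have := P275RS.full_push (k := ℂ) (i := tm hf) he.isInducing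
  have := P275RS.faithful_push (k := ℂ) (i := tm hf) he.isInducing
  obtain ⟨a, ha⟩ : ∃ a : H ℂ (TopCat.of M), (pushK ℂ (tm hf)).map a = _ :=
    (pushK ℂ (tm hf)).map_surjective (gyK hf he.isProperMap ≫ pull ℂ (tm hf) (𝟙 _))
  have h1 : ∀ β, P275S.pb (tm hf) (gys h β) = a * β := fun β => by
    rw [← act_gyK hf he.isProperMap, ← act_pull (tm hf) (𝟙 _), ← act_comp, ← ha]
    exact act_mul (tm hf) a β
  rw [h1, h1, mul_one]

/-- base change to an open part -/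
theorem gys_opn {U U' : Type} [TopologicalSpace U] [ChartedSpace (Cm d') U]
    [IsManifold 𝓘(ℂ, Cm d') ω U] [T2Space U] [SecondCountableTopology U] [TopologicalSpace U']
    [ChartedSpace (Cm d) U'] [IsManifold 𝓘(ℂ, Cm d) ω U'] [T2Space U'] [SecondCountableTopology U']
    {j : U → N} {j' : U' → M} {f' : U' → U} (oj : OE d' j) (ho : Ori d' j) (oj' : OE d j')
    (ho' : Ori d j') {hf : Smo d d' f} {hf' : Smo d d' f'} (h : Act (univ : Set N) univ (pb hf))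
    (h' : Act (univ : Set U) univ (pb hf')) (e : ∀ x, f (j' x) = j (f' x))
    (rg : f ⁻¹' range j ⊆ range j') (α : H ℂ (TopCat.of M)) :
    P275S.pb (tm oj.smo) (gys h α) = gys h' (P275S.pb (tm oj'.smo) α) :=
  H_ext (d := d') fun x => by
    obtain ⟨z, hz, rfl⟩ := Coh.ind x
    rw [pd_ext oj ho, pd_gys, pd_gys, pd_ext oj' ho']
    refine congrArg _ (Coh.mk_congr (Subtype.ext (oj'.ext_eq
      (Sp_mono rg (pb_Sp hf (oj.ext_rg z.2))) ?_).symm) _)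
    rw [← pb_comp oj'.smo hf, pb_eq' _ (smo_comp hf' oj.smo) e, pb_comp hf' oj.smo, oj.pb_ext z.2]
    rfl

theorem dual_ex {A B C : Type} [AddCommGroup A] [Module ℂ A] [AddCommGroup B] [Module ℂ B]
    [AddCommGroup C] [Module ℂ C] {s : A →ₗ[ℂ] B} {t : B →ₗ[ℂ] C}
    (h : ∀ x, t x = 0 ↔ ∃ y, x = s y) (φ : Dual ℂ B) :
    s.dualMap φ = 0 ↔ ∃ ψ, φ = t.dualMap ψ := by
  refine ⟨fun e => ?_, ?_⟩
  · obtain ⟨ψ, hψ⟩ := ex_fac t φ fun x hx => by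
      obtain ⟨y, rfl⟩ := (h x).1 hx
      exact LinearMap.congr_fun e y
    exact ⟨ψ, LinearMap.ext fun x => (hψ x).symm⟩
  · rintro ⟨ψ, rfl⟩
    exact LinearMap.ext fun y => (congrArg ψ ((h _).2 ⟨y, rfl⟩)).trans (map_zero ψ)

variable (d d') in
/-- the transpose of an operator on cohomology with compact supports -/
def tq (S : Hc d' (univ : Set N) →ₗ[ℂ] Hc d (univ : Set M)) :
    H ℂ (TopCat.of M) →ₗ[ℂ] H ℂ (TopCat.of N) :=
  (pd d' N).symm.toLinearMap ∘ₗ S.dualMap ∘ₗ (pd d M).toLinearMap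

theorem pd_tq (S : Hc d' (univ : Set N) →ₗ[ℂ] Hc d (univ : Set M)) (α : H ℂ (TopCat.of M))
    (x : Hc d' univ) : pd d' N (tq d d' S α) x = pd d M α (S x) :=
  LinearMap.congr_fun ((pd d' N).apply_symm_apply _) x

theorem tq_eq {S : Hc d' (univ : Set N) →ₗ[ℂ] Hc d (univ : Set M)}
    {T : H ℂ (TopCat.of M) →ₗ[ℂ] H ℂ (TopCat.of N)}
    (h : ∀ α x, pd d' N (T α) x = pd d M α (S x)) : tq d d' S = T :=
  LinearMap.ext fun α => H_ext (d := d') fun x => (pd_tq S α x).trans (h α x).symm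

theorem tq_gys {hf : Smo d d' f} (h : Act (univ : Set N) univ (pb hf)) :
    tq d d' h.map = gys h := rfl

theorem tq_hm (β : H ℂ (TopCat.of M)) : tq d d (hm d univ β) = LinearMap.mulRight ℂ β :=
  tq_eq fun α x => pd_mul α β x

theorem tq_ex {d'' : ℕ} {P : Type} [TopologicalSpace P] [ChartedSpace (Cm d'') P]
    [IsManifold 𝓘(ℂ, Cm d'') ω P] [T2Space P] [SecondCountableTopology P]
    {s : Hc d' (univ : Set N) →ₗ[ℂ] Hc d (univ : Set M)}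
    {t : Hc d (univ : Set M) →ₗ[ℂ] Hc d'' (univ : Set P)} (h : ∀ x, t x = 0 ↔ ∃ y, x = s y)
    (α : H ℂ (TopCat.of M)) : tq d d' s α = 0 ↔ ∃ β, α = tq d'' d t β := by
  refine ((pd d' N).symm.map_eq_zero_iff.trans (dual_ex h _)).trans
    ((pd d'' P).surjective.exists.trans (exists_congr fun β => ?_))
  exact (pd d M).eq_symm_apply.symm

theorem tq_comp {d'' : ℕ} {P : Type} [TopologicalSpace P] [ChartedSpace (Cm d'') P]
    [IsManifold 𝓘(ℂ, Cm d'') ω P] [T2Space P] [SecondCountableTopology P]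
    (s : Hc d' (univ : Set N) →ₗ[ℂ] Hc d (univ : Set M))
    (t : Hc d (univ : Set M) →ₗ[ℂ] Hc d'' (univ : Set P)) :
    tq d'' d' (t ∘ₗ s) = tq d d' s ∘ₗ tq d'' d t :=
  tq_eq fun α x => by rw [LinearMap.comp_apply, LinearMap.comp_apply, pd_tq, pd_tq]

end Vale.Agent.P275MC
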