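import Vale.Agent.P275MC.Pd

/-!
# P275, model of currents: functoriality of the duality, Gysin maps, top forms
-/

open scoped Manifold ContDiff Topology ComplexOrder
open CategoryTheory TopologicalSpace P275S Module CochainComplex.HomComplex Set Filter MeasureTheory
open Vale.Agent.P272.K Vale.Agent.P281Z Vale.Agent.P281Z.Hg Vale.Agent.P281Z.Hg.G1H
  Vale.Agent.P281Z.Hg.G2H Vale.Agent.P281Z.Hg.Pb1H
open Vale.Agent.P275AR (Hc dc Act Nb)
open Vale.Agent.P275FM (Coh Ch)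

set_option backward.isDefEq.respectTransparency false
set_option linter.unusedSectionVars false

noncomputable section

namespace Vale.Agent.P275MC

variable {d d' d'' : ℕ} {M N L : Type} [TopologicalSpace M] [ChartedSpace (Cm d) M]
  [IsManifold 𝓘(ℂ, Cm d) ω M] [T2Space M] [TopologicalSpace N] [ChartedSpace (Cm d') N]
  [IsManifold 𝓘(ℂ, Cm d') ω N] [T2Space N] [TopologicalSpace L] [ChartedSpace (Cm d'') L]
  [IsManifold 𝓘(ℂ, Cm d'') ω L] [T2Space L] {a b u v w : SF d M} {V W : Set M} {V' : Set N}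
  {l m n p q : ℤ} {f : M → N} {g : N → L}

theorem emb_val (O : Opens M) : Emb d d (Subtype.val : O → M) O :=
  ⟨contMDiff_subtype_val, Subtype.val_injective, fun x =>
    .of_chart (contMDiff_subtype_val x) (ca x) (ca _) (imm_id (n := d) x _ _ (ca x) (ca x)),
    Subtype.range_coe⟩

theorem oe_val (O : Opens M) : OE d (Subtype.val : O → M) := oe_of_emb (emb_val O)

theorem ori_val (O : Opens M) : Ori d (Subtype.val : O → M) := ori_of_emb (emb_val O)

theorem itc_chart_nonneg {e : Chart d M} (he : e ∈ atlas (Cm d) M) (hu : u ∈ Ac d e.source)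
    (h : ∀ x, At e x → 0 ≤ vl u e (e x) Finset.univ) : ∃ g : Cm d → ℝ, Continuous g ∧
      HasCompactSupport g ∧ 0 ≤ g ∧ (∀ z, vl u e z Finset.univ = g z) ∧
        itc d M u = (∫ z, g z : ℝ) := by
  have h1 : ∀ z, 0 ≤ vl u e z Finset.univ := fun z => by
    by_cases hz : z ∈ e.target
    · exact e.right_inv hz ▸ h _ (at_tg he hz)
    · rw [(vl_isF u).off e z fun h2 => hz h2.2, Pi.zero_apply]
  have h2 : ∀ z, vl u e z Finset.univ = ((vl u e z Finset.univ).re : ℝ) := fun z =>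
    Complex.ext rfl (Complex.nonneg_iff.1 (h1 z)).2.symm
  obtain ⟨K, k1, k2, k3⟩ := id hu
  have h3 := cd_chart (g := vl u e) k1 k2 (fun y hy => (vl_isF u).sm e y ⟨he, k2 hy⟩)
    fun z hz => Sp_chart he k3 hz
  refine ⟨fun z => (vl u e z Finset.univ).re,
    Complex.continuous_re.comp ((continuous_apply _).comp h3.1.continuous),
    h3.2.comp_left (g := fun t : Vale.Agent.P281Z.Hg.Fo d => (t Finset.univ).re) rfl,
    fun z => (Complex.nonneg_iff.1 (h1 z)).1, h2, ?_⟩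
  rw [itc_chart he hu, ← integral_complex_ofReal]
  exact congrArg _ (funext h2)

theorem itc_nonneg (hu : u ∈ Ac d univ) (h : ∀ e x, At e x → 0 ≤ vl u e (e x) Finset.univ) :
    0 ≤ itc d M u := by
  obtain ⟨P, hP⟩ := ex_PU1 (d := d) (u := u) (V := fun x : M => (chartAt (Cm d) x).source)
    (fun x => (chartAt (Cm d) x).open_source) (by rwa [iUnion_source_chartAt])
  rw [← hP, map_sum]
  refine Finset.sum_nonneg fun j _ => ?_
  obtain ⟨g, -, -, h1, -, h2⟩ := itc_chart_nonneg (chart_mem_atlas _ _) (P.mem j u) fun x hx => by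
    rw [mu_vl _ _ hx]
    exact mul_nonneg (Complex.zero_le_real.2 (P.nn j x)) (h _ x hx)
  rw [h2]
  exact Complex.zero_le_real.2 (integral_nonneg h1)

/-- a nonnegative top form which is not zero has a positive integral -/
theorem itc_pos (hu : u ∈ Ac d univ) (h : ∀ e x, At e x → 0 ≤ vl u e (e x) Finset.univ)
    {e : Chart d M} {x : M} (he : At e x) (h0 : vl u e (e x) Finset.univ ≠ 0) :
    0 < itc d M u := by
  obtain ⟨χ, c1, c2, c3, c4, c5, c6⟩ := ex_bump (d := d) (e.open_source.mem_nhds he.2)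
  have h1 := itc_nonneg (sub_mem hu (mu_Ac c1 hu)) fun e' y hy => by
    rw [vl_sub, mu_vl _ _ hy, Pi.sub_apply, Pi.smul_apply, smul_eq_mul, ← one_sub_mul,
      ← Complex.ofReal_one, ← Complex.ofReal_sub]
    exact mul_nonneg (Complex.zero_le_real.2 (sub_nonneg.2 (c5 y))) (h _ y hy)
  obtain ⟨g, g1, g2, g3, g4, g5⟩ := itc_chart_nonneg he.1 (mu_mem_Ac c1 c2 c3 u) fun y hy => by
    rw [mu_vl _ _ hy]
    exact mul_nonneg (Complex.zero_le_real.2 (c4 y)) (h _ y hy)
  have h2 := g1.integral_pos_of_hasCompactSupport_nonneg_nonzero (μ := volume) g2 g3 (x := e x)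
    fun h3 => h0 (by
      have h4 := g4 (e x)
      rwa [h3, mu_vl _ _ he, c6.self_of_nhds, Complex.ofReal_one, one_smul,
        Complex.ofReal_zero] at h4)
  rw [map_sub, g5, sub_nonneg] at h1
  exact (Complex.zero_lt_real.2 h2).trans_le h1

theorem prH_pb {hf : Smo d d' f} (h : Act V' V (pb hf)) (k : ℤ) (x : Hc d' V') :
    prH d V k (h.map x) = h.map (prH d' V' k x) := by
  obtain ⟨z, hz, rfl⟩ := Coh.ind x
  exact Coh.mk_congr (Subtype.ext (pb_pj hf k z.1).symm) _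

theorem prH_prH (k j : ℤ) (x : Hc d V) :
    prH d V k (prH d V j x) = if k = j then prH d V j x else 0 := by
  obtain ⟨z, hz, rfl⟩ := Coh.ind x
  split_ifs with h
  · exact Coh.mk_congr (Subtype.ext (pj_eq (h ▸ pj_mem j z.1))) _
  · exact (Coh.mk_congr (Subtype.ext (pj_ne (pj_mem j z.1) h)) _).trans (Coh.mk_zero (map_zero _))

theorem prH_sum (x : Hc d V) : ∑ n ∈ Finset.range (d + d + 1), prH d V (n : ℕ) x = x := by
  obtain ⟨z, hz, rfl⟩ := Coh.ind x
  have e : z = ∑ n ∈ Finset.range (d + d + 1), (⟨pj d M (n : ℕ) z.1, pj_Ac _ z.2⟩ : Ac d V) :=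
    Subtype.ext (by rw [Submodule.coe_sum, pj_sum])
  simp only [prH_mk]
  rw [← Coh.mk_sum _ _ (e ▸ hz)]
  exact (Coh.mk_congr e _).symm

theorem itH_prH (x : Hc d V) : itH d V (prH d V (d + d : ℕ) x) = itH d V x := by
  obtain ⟨z, hz, rfl⟩ := Coh.ind x
  exact itc_pj (Ac_mono (subset_univ _) z.2)

theorem pr_toH (k : ℤ) (x : Hc d V) : KG.pr k (toH d V x) = toH d V (prH d V k x) := by
  obtain ⟨z, hz, rfl⟩ := Coh.ind x
  rw [toH_mk, pr_clT, prH_mk, toH_mk, clT_Dg (pj_mem k _)]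
  exact cl_congr (pj_eq (pj_mem k _)).symm

variable [SecondCountableTopology M] [SecondCountableTopology N] [SecondCountableTopology L]

theorem hm_pb {hf : Smo d d' f} (h : Act V' V (pb hf)) (α : H ℂ (TopCat.of N)) (x : Hc d' V') :
    h.map (hm d' V' α x) = hm d V (P275S.pb (tm hf) α) (h.map x) := by
  obtain ⟨w, rfl⟩ := clT_surj (d := d') α
  obtain ⟨z, hz, rfl⟩ := Coh.ind x
  rw [← clT_pb, hm_clT, hm_clT]
  exact Coh.mk_congr (Subtype.ext (pb_wd hf _ _)) _

theorem hm_incl (h : V ⊆ W) (α : H ℂ (TopCat.of M)) (x : Hc d V) :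
    (Act.incl h).map (hm d V α x) = hm d W α ((Act.incl h).map x) := by
  obtain ⟨w, rfl⟩ := clT_surj (d := d) α
  obtain ⟨z, hz, rfl⟩ := Coh.ind x
  rw [hm_clT, hm_clT]
  rfl

theorem pdL_incl (h : V ⊆ W) (α : H ℂ (TopCat.of M)) (x : Hc d V) :
    pdL d W α ((Act.incl h).map x) = pdL d V α x := by
  rw [pdL_apply, ← hm_incl h, pdL_apply]
  obtain ⟨z, hz, e⟩ := Coh.ind (hm d V α x)
  rw [e]
  rfl

theorem prH_hm (h : m + n = l) {α : H ℂ (TopCat.of M)} (hα : α ∈ Hd ℂ (TopCat.of M) m)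
    (x : Hc d V) : prH d V l (hm d V α x) = hm d V α (prH d V n x) := by
  obtain ⟨w, hw, h0, rfl⟩ := cl_surj (d := d) hα
  rw [hm_cl hw]
  induction x using Hc_ind with
  | h0 => simp only [map_zero]
  | ha x y h1 h2 => simp only [map_add, h1, h2]
  | h k z hz h1 =>
    refine Coh.mk_congr (Subtype.ext ?_) _
    change pj d M l (wd w z) = wd w (pj d M n z)
    by_cases e : n = k
    · subst e h
      rw [pj_eq hz.2, pj_eq (wd_Dg hw hz.2)]
    · rw [pj_ne hz.2 e, pj_ne (wd_Dg hw hz.2) (by omega), map_zero]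

theorem pd_toH (x y : Hc d (univ : Set M)) {k j : ℤ} (hx : prH d univ k x = x)
    (hy : prH d univ j y = y) (hc : ∀ a ∈ Dg d M k, ∀ b ∈ Dg d M j, wd a b = wd b a) :
    pd d M (toH d univ x) y = pd d M (toH d univ y) x := by
  obtain ⟨s, hs, rfl⟩ := Coh.ind x
  obtain ⟨t, ht, rfl⟩ := Coh.ind y
  rw [← hx, ← hy, prH_mk, prH_mk, toH_mk, toH_mk, pd_clT, pd_clT]
  exact congrArg _ (hc _ (pj_mem _ _) _ (pj_mem _ _))

theorem mem_Hd_iff {α : H ℂ (TopCat.of M)} (h : m + n = (d + d : ℕ)) :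
    α ∈ Hd ℂ (TopCat.of M) m ↔ ∀ x, pd d M α (prH d univ n x) = pd d M α x := by
  refine KG.mem_deg_iff_pr.trans ((pd d M).injective.eq_iff.symm.trans ?_)
  simp only [LinearMap.ext_iff, pd_pr h]

theorem eq_zero_of_big {α : H ℂ (TopCat.of M)} (h : α ∈ Hd ℂ (TopCat.of M) m)
    (hm : m < 0 ∨ (d + d : ℕ) < m) : α = 0 := by
  obtain ⟨w, hw, h0, rfl⟩ := cl_surj (d := d) h
  rw [← clT_Dg hw]
  exact clT_zero _ (hm.elim (fun h => (Dg_neg h).le hw) fun h => (Dg_big h).le hw)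

section ext

variable {N : Type} [TopologicalSpace N] [ChartedSpace (Cm d) N] [IsManifold 𝓘(ℂ, Cm d) ω N]
  [T2Space N] [SecondCountableTopology N] {j : M → N} {W : Set N}

theorem hm_ext (h : OE d j) (k : j '' V ⊆ W) (α : H ℂ (TopCat.of N)) (x : Hc d V) :
    (Act.ext h k).map (hm d V (P275S.pb (tm h.smo) α) x) = hm d W α ((Act.ext h k).map x) := by
  obtain ⟨w, rfl⟩ := clT_surj (d := d) α
  obtain ⟨z, hz, rfl⟩ := Coh.ind x
  rw [← clT_pb, hm_clT, hm_clT]
  exact Coh.mk_congr (Subtype.ext (h.ext_wd z.2 _)) _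

theorem itH_ext (h : OE d j) (ho : Ori d j) (k : j '' V ⊆ W) (x : Hc d V) :
    itH d W ((Act.ext h k).map x) = itH d V x := by
  obtain ⟨z, hz, rfl⟩ := Coh.ind x
  exact h.itc_ext ho (Ac_mono (subset_univ _) z.2)

theorem pdL_ext (h : OE d j) (ho : Ori d j) (k : j '' V ⊆ W) (α : H ℂ (TopCat.of N))
    (x : Hc d V) : pdL d V (P275S.pb (tm h.smo) α) x = pdL d W α ((Act.ext h k).map x) := by
  rw [pdL_apply, pdL_apply, ← hm_ext h k, itH_ext h ho k]

/-- restriction to an open set is adjoint to the extension by zero -/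
theorem pd_ext (h : OE d j) (ho : Ori d j) (α : H ℂ (TopCat.of N)) (x : Hc d (univ : Set M)) :
    pd d M (P275S.pb (tm h.smo) α) x = pd d N α ((Act.ext h (subset_univ _)).map x) :=
  pdL_ext h ho (subset_univ _) α x

theorem pb_eq_zero_iff (h : OE d j) (ho : Ori d j) (α : H ℂ (TopCat.of N)) :
    P275S.pb (tm h.smo) α = 0 ↔ pdL d (range j) α = 0 := by
  rw [← (pd d M).map_eq_zero_iff, pd_eq]
  refine ⟨fun e => LinearMap.ext fun y => ?_, fun e => LinearMap.ext fun x => ?_⟩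
  · obtain ⟨x, rfl⟩ := (Act.ext_bij h image_univ).2 y
    rw [← pdL_ext h ho image_univ.subset, e]
    rfl
  · rw [pdL_ext h ho image_univ.subset, e]
    rfl

end ext

include d in
/-- a class which vanishes on all relatively compact open sets is zero -/
theorem eq_zero_of_loc {α : H ℂ (TopCat.of M)} (h : ∀ U : Set M, IsOpen U → IsCompact (closure U) →
    P275S.pb (X' := TopCat.of U) (TopCat.ofHom ⟨Subtype.val, continuous_subtype_val⟩) α = 0) :
    α = 0 := by
  refine (pd d M).map_eq_zero_iff.1 (LinearMap.ext fun x => ?_)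
  obtain ⟨⟨z, K, k1, k2, k3⟩, hz, rfl⟩ := Coh.ind x
  have := ChartedSpace.locallyCompactSpace (Cm d) M
  obtain ⟨U, u1, u2, u3⟩ := exists_isOpen_superset_and_isCompact_closure k1
  have h1 := (pb_eq_zero_iff (d := d) (oe_val ⟨U, u1⟩) (ori_val _) α).1 (h U u1 u3)
  have h2 := pdL_incl (subset_univ (range (Subtype.val : (⟨U, u1⟩ : Opens M) → M))) α
    (Coh.mk ⟨z, K, k1, Subtype.range_coe.symm ▸ u2, k3⟩
      (Subtype.ext (show dd d M z = 0 from congrArg Subtype.val hz)))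
  rw [h1] at h2
  exact h2

/-- the Gysin map of a proper map -/
def gys {hf : Smo d d' f} (h : Act (univ : Set N) univ (pb hf)) :
    H ℂ (TopCat.of M) →ₗ[ℂ] H ℂ (TopCat.of N) :=
  (pd d' N).symm.toLinearMap ∘ₗ h.map.dualMap ∘ₗ (pd d M).toLinearMap

theorem pd_gys {hf : Smo d d' f} (h : Act (univ : Set N) univ (pb hf)) (α : H ℂ (TopCat.of M))
    (x : Hc d' univ) : pd d' N (gys h α) x = pd d M α (h.map x) :=
  LinearMap.congr_fun ((pd d' N).apply_symm_apply _) x

theorem H_ext {α β : H ℂ (TopCat.of M)} (h : ∀ x, pd d M α x = pd d M β x) : α = β :=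
  (pd d M).injective (LinearMap.ext h)

/-- the projection formula -/
theorem gys_mul {hf : Smo d d' f} (h : Act (univ : Set N) univ (pb hf)) (α : H ℂ (TopCat.of M))
    (β : H ℂ (TopCat.of N)) : gys h (α * P275S.pb (tm hf) β) = gys h α * β :=
  H_ext (d := d') fun x => by rw [pd_gys, pd_mul, pd_mul, pd_gys, hm_pb]

theorem gys_comp {hf : Smo d d' f} {hg : Smo d' d'' g} {hgf : Smo d d'' fun x => g (f x)}
    (h : Act (univ : Set N) univ (pb hf)) (h' : Act (univ : Set L) univ (pb hg))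
    (h'' : Act (univ : Set L) univ (pb hgf)) (α : H ℂ (TopCat.of M)) :
    gys h'' α = gys h' (gys h α) := H_ext (d := d'') fun x => by
  rw [pd_gys, pd_gys, pd_gys, ← Act.map_comp, h''.map_congr (h.comp h') fun u _ => ?_]
  exact pb_comp hf hg u

theorem gys_id {f : M → M} {hf : Smo d d f} (h : Act (univ : Set M) univ (pb hf))
    (e : ∀ x, f x = x) (α : H ℂ (TopCat.of M)) : gys h α = α := H_ext (d := d) fun x => by
  obtain rfl : f = fun x => x := funext e
  rw [pd_gys, h.map_id fun u _ => pb_id u]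

theorem gys_mem {hf : Smo d d' f} (h : Act (univ : Set N) univ (pb hf)) {α : H ℂ (TopCat.of M)}
    (hα : α ∈ Hd ℂ (TopCat.of M) m) (e : m + 2 * d' = n + 2 * d) :
    gys h α ∈ Hd ℂ (TopCat.of N) n :=
  (mem_Hd_iff (d := d') (add_sub_cancel n _)).2 fun x => by
    rw [pd_gys, pd_gys, ← prH_pb, (mem_Hd_iff (by omega)).1 hα]

section tp

variable [FiniteDimensional ℂ (Hc d' (univ : Set N))]

variable (d d') in
/-- the transpose of an operator on cohomology -/
def tp : (H ℂ (TopCat.of N) →ₗ[ℂ] H ℂ (TopCat.of M)) →ₗ[ℂ]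
    Hc d (univ : Set M) →ₗ[ℂ] Hc d' (univ : Set N) where
  toFun T := (evalEquiv ℂ _).symm.toLinearMap ∘ₗ
    ((pd d M).toLinearMap ∘ₗ T ∘ₗ (pd d' N).symm.toLinearMap).dualMap ∘ₗ Dual.eval ℂ _
  map_add' S T := by
    ext x
    simp only [LinearMap.comp_apply, LinearMap.add_apply, LinearEquiv.coe_coe, ← map_add]
    congr 1
    ext
    simp
  map_smul' c T := by
    ext x
    simp only [LinearMap.comp_apply, LinearMap.smul_apply, LinearEquiv.coe_coe, ← map_smul,
      RingHom.id_apply]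
    congr 1
    ext
    simp

theorem pd_tp (T : H ℂ (TopCat.of N) →ₗ[ℂ] H ℂ (TopCat.of M)) (β : H ℂ (TopCat.of N))
    (x : Hc d (univ : Set M)) : pd d' N β (tp d d' T x) = pd d M (T β) x :=
  (apply_evalEquiv_symm_apply ℂ _ _ _).trans (by simp)

theorem tp_eq {T : H ℂ (TopCat.of N) →ₗ[ℂ] H ℂ (TopCat.of M)}
    {S : Hc d (univ : Set M) →ₗ[ℂ] Hc d' (univ : Set N)}
    (h : ∀ β x, pd d M (T β) x = pd d' N β (S x)) : tp d d' T = S :=
  LinearMap.ext fun x => Hc_ext fun β => (pd_tp T β x).trans (h β x)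

theorem tp_comp [FiniteDimensional ℂ (Hc d'' (univ : Set L))]
    (T : H ℂ (TopCat.of N) →ₗ[ℂ] H ℂ (TopCat.of M))
    (S : H ℂ (TopCat.of L) →ₗ[ℂ] H ℂ (TopCat.of N)) :
    tp d d'' (T ∘ₗ S) = tp d' d'' S ∘ₗ tp d d' T :=
  tp_eq fun β x => by rw [LinearMap.comp_apply, LinearMap.comp_apply, pd_tp, pd_tp]

theorem tp_id : tp d' d' (LinearMap.id : H ℂ (TopCat.of N) →ₗ[ℂ] _) = LinearMap.id :=
  tp_eq fun _ _ => rfl

theorem tp_mul (β : H ℂ (TopCat.of N)) : tp d' d' (LinearMap.mulRight ℂ β) = hm d' univ β :=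
  tp_eq fun α x => pd_mul α β x

theorem tp_gys {f : N → M} {hf : Smo d' d f} (h : Act (univ : Set M) univ (pb hf)) :
    tp d d' (gys h) = h.map := tp_eq (pd_gys h)

/-- the direct image with compact supports by a continuous map -/
def shr (d d' : ℕ) [ChartedSpace (Cm d) M] [IsManifold 𝓘(ℂ, Cm d) ω M] [ChartedSpace (Cm d') N]
    [IsManifold 𝓘(ℂ, Cm d') ω N] [FiniteDimensional ℂ (Hc d' (univ : Set N))]
    (f : TopCat.of M ⟶ TopCat.of N) : Hc d (univ : Set M) →ₗ[ℂ] Hc d' (univ : Set N) :=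
  tp d d' (P275S.pb f).toLinearMap

theorem pd_shr (f : TopCat.of M ⟶ TopCat.of N) (β : H ℂ (TopCat.of N))
    (x : Hc d (univ : Set M)) : pd d' N β (shr d d' f x) = pd d M (P275S.pb f β) x := pd_tp _ β x

theorem shr_hm (f : TopCat.of M ⟶ TopCat.of N) (β : H ℂ (TopCat.of N))
    (x : Hc d (univ : Set M)) :
    shr d d' f (hm d univ (P275S.pb f β) x) = hm d' univ β (shr d d' f x) :=
  Hc_ext fun α => by rw [pd_shr, ← pd_mul, ← pd_mul, pd_shr, map_mul (P275S.pb f)]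

theorem shr_pb {hf : Smo d d' f} (h : Act (univ : Set N) univ (pb hf)) (α : H ℂ (TopCat.of M))
    (x : Hc d' (univ : Set N)) (e : ∀ β, Commute α (P275S.pb (tm hf) β))
    (e' : ∀ β, Commute (gys h α) β) :
    shr d d' (tm hf) (hm d univ α (h.map x)) = hm d' univ (gys h α) x :=
  Hc_ext fun β => by rw [pd_shr, ← pd_mul, ← pd_mul, ← pd_gys, ← (e β).eq, gys_mul, (e' β).eq]

theorem itH_shr (f : TopCat.of M ⟶ TopCat.of N) (x : Hc d (univ : Set M)) :
    itH d' univ (shr d d' f x) = itH d univ x := by rw [← pd_one, pd_shr, map_one, pd_one]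

theorem toH_shr {hf : Smo d d' f} (h : Act (univ : Set N) univ (pb hf)) (x : Hc d (univ : Set M))
    (y : Hc d' (univ : Set N)) :
    pd d' N (toH d' univ y) (shr d d' (tm hf) x) = pd d M (toH d univ (h.map y)) x := by
  rw [pd_shr, toH_pb]

end tp

theorem shr_ext {N : Type} [TopologicalSpace N] [ChartedSpace (Cm d) N]
    [IsManifold 𝓘(ℂ, Cm d) ω N] [T2Space N] [SecondCountableTopology N]
    [FiniteDimensional ℂ (Hc d (univ : Set N))] {j : M → N} (h : OE d j) (ho : Ori d j) :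
    shr d d (tm h.smo) = (Act.ext h (subset_univ _)).map := tp_eq (pd_ext h ho)

theorem top_Zf (hu : u ∈ Dg d M (d + d : ℕ)) : dd d M u = 0 := (Dg_big (by omega)).le (dd_Dg hu)

theorem cl_top_eq [PreconnectedSpace M] (hu : u ∈ Am d (d + d : ℕ) (univ : Set M))
    (hv : v ∈ Am d (d + d : ℕ) (univ : Set M)) (h : itc d M u = itc d M v) :
    cl (d + d : ℕ) ⟨u, top_Zf hu.2⟩ = cl (d + d : ℕ) ⟨v, top_Zf hv.2⟩ := by
  obtain ⟨t, -, e⟩ := top_exact (sub_mem hu hv) (by rw [map_sub, h, sub_self])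
  rw [← sub_eq_zero, ← map_sub, ← cl_dd t]
  exact congrArg _ (Subtype.ext e.symm)

theorem top_Hc [PreconnectedSpace M] {x : Hc d (univ : Set M)}
    (hx : prH d univ (d + d : ℕ) x = x) (h : itH d univ x = 0) : x = 0 := by
  obtain ⟨z, hz, rfl⟩ := Coh.ind x
  obtain ⟨t, ht, e⟩ := top_exact (pj_Am _ z.2) ((itc_pj z.2).trans h)
  rw [← hx]
  exact Coh.mk_eq_zero.2 ⟨⟨t, ht.1⟩, Subtype.ext e.symm⟩

/-- a linear form on the top degree is a multiple of the integral -/
theorem top_dual [PreconnectedSpace M] (φ : Dual ℂ (Hc d (univ : Set M)))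
    (h : ∀ x, φ (prH d univ (d + d : ℕ) x) = φ x) : ∃ c : ℂ, φ = c • itH d univ := by
  obtain ⟨α, rfl⟩ := (pd d M).surjective φ
  obtain ⟨w, hw, h0, rfl⟩ := cl_surj (d := d) ((mem_Hd_iff (zero_add _)).2 h)
  obtain ⟨c, rfl⟩ := zero_const hw h0
  refine ⟨c, LinearMap.ext fun x => ?_⟩
  obtain ⟨z, hz, rfl⟩ := Coh.ind x
  rw [pd_cl hw, wd_smul, one_wd, map_smul]
  rfl

variable [CompactSpace M]

theorem toH_bij : Function.Bijective (toH d (univ : Set M)) := by
  refine ⟨(injective_iff_map_eq_zero _).2 fun x h => ?_, fun α => ?_⟩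
  · obtain ⟨z, hz, rfl⟩ := Coh.ind x
    obtain ⟨v, e⟩ := (clT_eq_zero_iff _).1 h
    exact Coh.mk_eq_zero.2 ⟨⟨v, by rw [Ac_univ]; trivial⟩, Subtype.ext e.symm⟩
  · obtain ⟨w, rfl⟩ := clT_surj (d := d) α
    exact ⟨Coh.mk ⟨w.1, by rw [Ac_univ]; trivial⟩ (Subtype.ext w.2), rfl⟩

variable (d M) in
/-- integration of cohomology classes on a compact manifold -/
def itK : H ℂ (TopCat.of M) →ₗ[ℂ] ℂ :=
  itH d univ ∘ₗ (LinearEquiv.ofBijective _ toH_bij).symm.toLinearMap

theorem itK_toH (x : Hc d (univ : Set M)) : itK d M (toH d univ x) = itH d univ x :=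
  congrArg (itH d univ) ((LinearEquiv.ofBijective _ toH_bij).symm_apply_apply x)

theorem itK_clT (w : Zf d M) : itK d M (clT w) = itc d M w.1 :=
  itK_toH (Coh.mk ⟨w.1, by rw [Ac_univ]; trivial⟩ (Subtype.ext w.2))

theorem itK_cl (hw : w ∈ Dg d M n) (h0 : dd d M w = 0) : itK d M (cl n ⟨w, h0⟩) = itc d M w := by
  rw [← clT_Dg hw, itK_clT]

theorem cl_ne_zero (hw : w ∈ Dg d M n) (h0 : dd d M w = 0) (h : itc d M w ≠ 0) :
    cl n ⟨w, h0⟩ ≠ 0 := fun e => h (by rw [← itK_cl hw h0, e, map_zero])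

theorem itK_inj [PreconnectedSpace M] {α : H ℂ (TopCat.of M)}
    (hα : α ∈ Hd ℂ (TopCat.of M) (d + d : ℕ)) (h : itK d M α = 0) : α = 0 := by
  obtain ⟨w, hw, h0, rfl⟩ := cl_surj (d := d) hα
  obtain ⟨t, -, rfl⟩ := top_exact ⟨by rw [Ac_univ]; trivial, hw⟩ ((itK_cl hw h0).symm.trans h)
  exact cl_dd t

theorem pd_eq_itK (α : H ℂ (TopCat.of M)) (x : Hc d (univ : Set M)) :
    pd d M α x = itK d M (α * toH d univ x) := by rw [← toH_hm, itK_toH, pd_eq, pdL_apply]

end Vale.Agent.P275MC
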