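import Vale.Agent.P275MC.Gk
import Vale.Agent.P275MH.Tri

/-!
# P275, model of currents: the Gysin exact triangle of a pair of manifolds
-/

open scoped Manifold ContDiff Topology
open CategoryTheory TopologicalSpace P275S Module Set
open Vale.Agent.P272.K Vale.Agent.P281Z.Hg Vale.Agent.P275MH
open Vale.Agent.P275AR (Hc dc Act)
open Vale.Agent.P275FM (Coh)

set_option backward.isDefEq.respectTransparency false
set_option linter.unusedSectionVars false

noncomputable section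

namespace Vale.Agent.P275MC

variable {m k : ℕ} {M Z V : Type} [TopologicalSpace M] [ChartedSpace (Cm m) M] [T2Space M]
  [IsManifold 𝓘(ℂ, Cm m) ω M] [TopologicalSpace Z] [ChartedSpace (Cm k) Z] [T2Space Z]
  [IsManifold 𝓘(ℂ, Cm k) ω Z] [TopologicalSpace V] [ChartedSpace (Cm m) V] [T2Space V]
  [IsManifold 𝓘(ℂ, Cm m) ω V] {i : Z → M} {j : V → M} {n p : ℤ}
  (hi : Smo k m i) (he : Topology.IsClosedEmbedding i) (oj : OE m j) (rg : range j = (range i)ᶜ)

theorem bdV_mk {z : SF m M} (hz : z ∈ Ac m univ) {w : Ac k (univ : Set Z)} {hw}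
    {y : Ac m (univ : Set V)} {hy} (e1 : pb hi z = w) (e2 : dd m M z = oj.ext y) :
    bdV hi he oj rg (Coh.mk w hw) = Coh.mk y hy := by
  obtain ⟨w, h1⟩ := w
  subst e1
  exact bdV_spec hi he oj rg hz y.2 e2 (h2 := congrArg Subtype.val hw) (h3 := congrArg Subtype.val hy)

theorem prH_bdV (n : ℤ) (x : Hc k (univ : Set Z)) :
    prH m univ (n + 1) (bdV hi he oj rg x) = bdV hi he oj rg (prH k univ n x) := by
  obtain ⟨z, hz, w, hw, y, hy, e1, e2, rfl, e3⟩ := bdV_bd hi he oj rg x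
  rw [e3, prH_mk, prH_mk]
  exact (bdV_mk hi he oj rg (pj_Ac n hz) ((pb_pj hi n z).trans (congrArg _ e1))
    (by rw [← pj_dd, e2, oj.ext_pj y.2])).symm

variable [SecondCountableTopology M] [SecondCountableTopology Z] [SecondCountableTopology V]

theorem bdV_hm {β : H ℂ (TopCat.of M)} (hβ : β ∈ Hd ℂ (TopCat.of M) n) (x : Hc k (univ : Set Z)) :
    bdV hi he oj rg (hm k univ (P275S.pb (tm hi) β) x) =
      (n.negOnePow : ℂ) • hm m univ (P275S.pb (tm oj.smo) β) (bdV hi he oj rg x) := by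
  obtain ⟨u, hu, h0, rfl⟩ := cl_surj (d := m) hβ
  obtain ⟨z, hz, w, hw, y, hy, e1, e2, rfl, e3⟩ := bdV_bd hi he oj rg x
  rw [e3, ← cl_pb, ← cl_pb, hm_cl (pb_Dg hi hu), hm_cl (pb_Dg oj.smo hu), wH_mk, wH_mk]
  refine (bdV_mk hi he oj rg (wd_Ac u hz) ((pb_wd hi u z).trans (congrArg _ e1)) ?_).trans
    (Coh.mk_smul _ _ ((map_smul _ _ _).trans (smul_eq_zero_of_right _ ((ch_wd _ _).cyc y hy))))
  rw [dd_wd' hu h0, e2, Submodule.coe_smul, map_smul, ← oj.ext_wd y.2, Int.cast_smul_eq_zsmul,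
    ← Units.smul_def]
  rfl

/-- the residue map of the pair -/
def rsd : H ℂ (TopCat.of V) →ₗ[ℂ] H ℂ (TopCat.of Z) := tq m k (bdV hi he oj rg)

theorem pd_rsd (α : H ℂ (TopCat.of V)) (x : Hc k (univ : Set Z)) :
    pd k Z (rsd hi he oj rg α) x = pd m V α (bdV hi he oj rg x) := pd_tq _ α x

theorem rsd_mem {α : H ℂ (TopCat.of V)} (hα : α ∈ Hd ℂ (TopCat.of V) n)
    (e : n + 1 + 2 * k = p + 2 * m) : rsd hi he oj rg α ∈ Hd ℂ (TopCat.of Z) p :=
  (mem_Hd_iff (d := k) (add_sub_cancel p _)).2 fun x => by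
    rw [pd_rsd, pd_rsd, ← prH_bdV, (mem_Hd_iff (by omega)).1 hα]

/-- the residue map is a module map up to sign -/
theorem rsd_mul (α : H ℂ (TopCat.of V)) {β : H ℂ (TopCat.of M)} (hβ : β ∈ Hd ℂ (TopCat.of M) n) :
    rsd hi he oj rg α * P275S.pb (tm hi) β =
      (n.negOnePow : ℂ) • rsd hi he oj rg (α * P275S.pb (tm oj.smo) β) :=
  H_ext (d := k) fun x => by
    rw [pd_mul, pd_rsd, bdV_hm hi he oj rg hβ, map_smul, map_smul, LinearMap.smul_apply, pd_rsd,
      pd_mul]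

theorem tq_exV (ho : Ori m j) (α : H ℂ (TopCat.of M)) :
    tq m m (exV oj) α = P275S.pb (tm oj.smo) α :=
  H_ext (d := m) fun x => (pd_tq _ α x).trans (pd_ext oj ho α x).symm

variable (ho : Ori m j) (h : Act (univ : Set M) univ (pb hi))

include he rg ho in
/-- exactness at the cohomology of `M` -/
theorem gex_M (α : H ℂ (TopCat.of M)) : P275S.pb (tm oj.smo) α = 0 ↔ ∃ β, α = gys h β :=
  tq_exV oj ho α ▸ tq_ex (ex_M hi he oj rg) α

/-- exactness at the cohomology of `Z` -/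
theorem gex_Z (β : H ℂ (TopCat.of Z)) : gys h β = 0 ↔ ∃ γ, β = rsd hi he oj rg γ :=
  tq_ex (ex_Z hi he oj rg) β

include ho in
/-- exactness at the cohomology of `V` -/
theorem gex_V (γ : H ℂ (TopCat.of V)) :
    rsd hi he oj rg γ = 0 ↔ ∃ α, γ = P275S.pb (tm oj.smo) α :=
  (tq_ex (ex_V hi he oj rg) γ).trans (exists_congr fun α => by rw [tq_exV oj ho])

end Vale.Agent.P275MC
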