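import Vale.Agent.P275MC.Bas

/-!
# P275, model of currents: partitions of unity on compact sets and the cosheaf property
-/

open scoped Manifold ContDiff Topology Matrix
open Filter MeasureTheory Set
open Vale.Agent.P272.K Vale.Agent.P272.K.C2 Vale.Agent.P272.K.INT Vale.Agent.P299.IX
  Vale.Agent.P299.IX.Fock Vale.Agent.P281Z.Hg Vale.Agent.P281Z.Hg.G1H Vale.Agent.P281Z.Hg.G2H
  Vale.Agent.P281Z.Hg.Pb1H

noncomputable section

namespace Vale.Agent.P275MC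

variable {d : ℕ} {M : Type} [TopologicalSpace M] [ChartedSpace (Cm d) M] {ι : Type*}
  {V : ι → Set M} {u : SF d M} {K U : Set M} {k : ℤ}

theorem smoothFn_cont {ρ : M → ℝ} (hρ : SmoothFn (n := d) ρ) : Continuous ρ :=
  continuous_iff_continuousAt.2 fun x => by
    have h := ca (d := d) x
    refine ((hρ _ x h).continuousAt.comp ((chartAt (Cm d) x).continuousAt h.2)).congr ?_
    filter_upwards [(chartAt (Cm d) x).open_source.mem_nhds h.2] with y hy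
    simp only [Function.comp_apply, (chartAt (Cm d) x).left_inv hy]

variable (d) in
/-- finite families of smooth functions with compact supports subordinate to `V` -/
structure PU (V : ι → Set M) where
  κ : Type
  [fin : Fintype κ]
  ix : κ → ι
  ρ : κ → M → ℝ
  sm : ∀ j, SmoothFn (n := d) (ρ j)
  cp : ∀ j, HasCompactSupport (ρ j)
  sp : ∀ j, tsupport (ρ j) ⊆ V (ix j)
  nn : ∀ j x, 0 ≤ ρ j x
  le : ∀ x, ∑ j, ρ j x ≤ 1

attribute [instance] PU.fin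

theorem PU.mem (P : PU d V) (j : P.κ) (u : SF d M) : mu (P.sm j) u ∈ Ac d (V (P.ix j)) :=
  mu_mem_Ac (P.sm j) (P.cp j) (P.sp j) u

theorem PU.sum (P : PU d V) (h : ∀ x ∈ K, ∑ j, P.ρ j x = 1) (hu : u ∈ Sp d K) :
    ∑ j, mu (P.sm j) u = u := ext' fun e x he => by
  simp only [vl_sum, mu_vl _ _ he, ← Finset.sum_smul, ← Complex.ofReal_sum]
  by_cases hx : x ∈ K
  · rw [h x hx, Complex.ofReal_one, one_smul]
  · rw [hu x hx e he, smul_zero]

variable [T2Space M] [IsManifold 𝓘(ℂ, Cm d) ω M]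

/-- bump functions -/
theorem ex_bump {x : M} (hU : U ∈ 𝓝 x) : ∃ χ : M → ℝ, SmoothFn (n := d) χ ∧
    HasCompactSupport χ ∧ tsupport χ ⊆ U ∧ (∀ y, 0 ≤ χ y) ∧ (∀ y, χ y ≤ 1) ∧
      ∀ᶠ y in 𝓝 x, χ y = 1 := by
  have := isManifold_real d M
  obtain ⟨f, -, hf⟩ := (SmoothBumpFunction.nhds_basis_tsupport (I := 𝓘(ℝ, Cm d)) x).mem_iff.1 hU
  exact ⟨f, smoothFn_of_contMDiff f.contMDiff, f.hasCompactSupport, hf, fun _ => f.nonneg,
    fun _ => f.le_one, f.eventuallyEq_one⟩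

/-- partitions of unity near a compact set -/
theorem ex_PU (hV : ∀ i, IsOpen (V i)) (hK : IsCompact K) (h : K ⊆ ⋃ i, V i) :
    ∃ P : PU d V, ∀ x ∈ K, ∀ᶠ y in 𝓝 x, ∑ j, P.ρ j y = 1 := by
  refine hK.induction_on (p := fun S => ∃ P : PU d V, ∀ x ∈ S, ∀ᶠ y in 𝓝 x, ∑ j, P.ρ j y = 1)
    ⟨⟨Empty, nofun, nofun, nofun, nofun, nofun, nofun, fun _ => by simp⟩, nofun⟩
    (fun S T hST ⟨P, hP⟩ => ⟨P, fun x hx => hP x (hST hx)⟩) ?_ fun x hx => ?_
  · rintro S T ⟨P, hP⟩ ⟨Q, hQ⟩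
    have h1 : ∀ y, ∑ j : P.κ ⊕ Q.κ, Sum.elim P.ρ (fun j y => (1 - ∑ i, P.ρ i y) * Q.ρ j y) j y =
        1 - (1 - ∑ i, P.ρ i y) * (1 - ∑ i, Q.ρ i y) := fun y => by
      simp only [Fintype.sum_sum_type, Sum.elim_inl, Sum.elim_inr, ← Finset.mul_sum]
      ring
    refine ⟨⟨P.κ ⊕ Q.κ, Sum.elim P.ix Q.ix,
      Sum.elim P.ρ fun j y => (1 - ∑ i, P.ρ i y) * Q.ρ j y, ?_, ?_, ?_, ?_, fun y => ?_⟩, ?_⟩
    · rintro (j | j)
      · exact P.sm j
      · exact fun e x hx => (contDiffAt_const.sub (ContDiffAt.sum fun i _ => P.sm i e x hx)).mul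
          (Q.sm j e x hx)
    · rintro (j | j)
      · exact P.cp j
      · exact (Q.cp j).mul_left
    · rintro (j | j)
      · exact P.sp j
      · exact tsupport_mul_subset_right'.trans (Q.sp j)
    · rintro (j | j) y
      · exact P.nn j y
      · exact mul_nonneg (sub_nonneg.2 (P.le y)) (Q.nn j y)
    · rw [h1]
      exact sub_le_self _ (mul_nonneg (sub_nonneg.2 (P.le y)) (sub_nonneg.2 (Q.le y)))
    · rintro x (hx | hx)
      · filter_upwards [hP x hx] with y hy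
        rw [h1, hy, sub_self, zero_mul, sub_zero]
      · filter_upwards [hQ x hx] with y hy
        rw [h1, hy, sub_self, mul_zero, sub_zero]
  · obtain ⟨i, hi⟩ := mem_iUnion.1 (h hx)
    obtain ⟨χ, h1, h2, h3, h4, h5, h6⟩ := ex_bump (d := d) ((hV i).mem_nhds hi)
    refine ⟨{y | ∀ᶠ z in 𝓝 y, χ z = 1}, mem_nhdsWithin_of_mem_nhds h6.eventually_nhds,
      ⟨Unit, fun _ => i, fun _ => χ, fun _ => h1, fun _ => h2, fun _ => h3, fun _ => h4,
        fun y => by simpa using h5 y⟩, fun y hy => ?_⟩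
    simpa using hy

/-- cut-off functions -/
theorem ex_cut (hU : IsOpen U) (hK : IsCompact K) (h : K ⊆ U) : ∃ χ : M → ℝ, SmoothFn (n := d) χ ∧
    HasCompactSupport χ ∧ tsupport χ ⊆ U ∧ (∀ y, 0 ≤ χ y) ∧ (∀ y, χ y ≤ 1) ∧
      ∀ x ∈ K, ∀ᶠ y in 𝓝 x, χ y = 1 := by
  obtain ⟨P, hP⟩ := ex_PU (d := d) (V := fun _ : Unit => U) (fun _ => hU) hK
    (by rwa [iUnion_const])
  have h1 : IsCompact (⋃ j, tsupport (P.ρ j)) := isCompact_iUnion P.cp
  have h2 : tsupport (fun y => ∑ j, P.ρ j y) ⊆ ⋃ j, tsupport (P.ρ j) :=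
    closure_minimal (fun y hy => by
      by_contra h3
      exact hy (Finset.sum_eq_zero fun j _ =>
        image_eq_zero_of_notMem_tsupport fun h4 => h3 (mem_iUnion.2 ⟨j, h4⟩))) h1.isClosed
  exact ⟨fun y => ∑ j, P.ρ j y, fun e x hx => ContDiffAt.sum fun i _ => P.sm i e x hx,
    h1.of_isClosed_subset (isClosed_tsupport _) h2, h2.trans (iUnion_subset P.sp),
    fun y => Finset.sum_nonneg fun j _ => P.nn j y, P.le, hP⟩

theorem ex_PU' (hV : ∀ i, IsOpen (V i)) (s : Finset (SF d M)) (h : ∀ u ∈ s, u ∈ Ac d (⋃ i, V i)) :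
    ∃ P : PU d V, ∀ u ∈ s, ∑ j, mu (P.sm j) u = u := by
  choose K h1 h2 h3 using h
  obtain ⟨P, hP⟩ := ex_PU (d := d) hV (isCompact_iUnion fun u : s => h1 u u.2)
    (iUnion_subset fun u => h2 u u.2)
  exact ⟨P, fun u hu => P.sum (fun x hx =>
    (hP x (mem_iUnion.2 ⟨⟨u, hu⟩, hx⟩)).self_of_nhds) (h3 u hu)⟩

theorem ex_PU1 (hV : ∀ i, IsOpen (V i)) (h : u ∈ Ac d (⋃ i, V i)) :
    ∃ P : PU d V, ∑ j, mu (P.sm j) u = u :=
  (ex_PU' hV {u} fun _ hv => Finset.mem_singleton.1 hv ▸ h).imp fun _ hP =>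
    hP u (Finset.mem_singleton_self u)

/-- the cosheaf property: surjectivity -/
theorem Ac_iUnion (hV : ∀ i, IsOpen (V i)) : Ac d (⋃ i, V i) = ⨆ i, Ac d (V i) := by
  refine le_antisymm (fun u hu => ?_) (iSup_le fun i => Ac_mono (subset_iUnion V i))
  obtain ⟨P, hP⟩ := ex_PU1 hV hu
  rw [← hP]
  exact Submodule.sum_mem _ fun j _ => Submodule.mem_iSup_of_mem _ (P.mem j u)

theorem Am_iUnion (hV : ∀ i, IsOpen (V i)) (k : ℤ) : Am d k (⋃ i, V i) = ⨆ i, Am d k (V i) := by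
  refine le_antisymm (fun u hu => ?_) (iSup_le fun i => Am_mono k (subset_iUnion V i))
  obtain ⟨P, hP⟩ := ex_PU1 hV hu.1
  rw [← hP]
  exact Submodule.sum_mem _ fun j _ => Submodule.mem_iSup_of_mem _ ⟨P.mem j u, mu_Dg _ hu.2⟩

theorem Ac_union {U' : Set M} (hU : IsOpen U) (hU' : IsOpen U') :
    Ac d (U ∪ U') = Ac d U ⊔ Ac d U' := by
  rw [union_eq_iUnion, Ac_iUnion (by rintro (_ | _) <;> assumption), iSup_bool_eq]
  rfl

theorem Am_union {U' : Set M} (hU : IsOpen U) (hU' : IsOpen U') (k : ℤ) :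
    Am d k (U ∪ U') = Am d k U ⊔ Am d k U' := by
  rw [union_eq_iUnion, Am_iUnion (by rintro (_ | _) <;> assumption), iSup_bool_eq]
  rfl

variable {W : Type*} [AddCommGroup W] [Module ℂ W]

/-- the cosheaf property: compatible linear maps glue -/
theorem glue0 (hV : ∀ i, IsOpen (V i)) (S : ι → SF d M →ₗ[ℂ] W)
    (h : ∀ i j u, u ∈ Ac d (V i) → u ∈ Ac d (V j) → S i u = S j u) :
    ∃ T : SF d M →ₗ[ℂ] W, ∀ i, ∀ u ∈ Ac d (V i), T u = S i u := by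
  classical
  let t : PU d V → SF d M →ₗ[ℂ] W := fun P => ∑ j, S (P.ix j) ∘ₗ mu (P.sm j)
  have ht : ∀ P u, t P u = ∑ j, S (P.ix j) (mu (P.sm j) u) := fun P u => by
    simp only [t, LinearMap.sum_apply, LinearMap.comp_apply]
  have h1 : ∀ (P Q : PU d V) u, ∑ j, mu (Q.sm j) u = u →
      t P u = ∑ i, ∑ j, S (Q.ix j) (mu (Q.sm j) (mu (P.sm i) u)) := fun P Q u hQ => by
    rw [ht]
    refine Finset.sum_congr rfl fun i _ => ?_
    conv_lhs => rw [← hQ, map_sum, map_sum]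
    refine Finset.sum_congr rfl fun j _ => ?_
    rw [← mu_comm]
    exact h _ _ _ (mu_Ac _ (P.mem i _)) (Q.mem j _)
  have h2 : ∀ (P Q : PU d V) u, ∑ j, mu (P.sm j) u = u → ∑ j, mu (Q.sm j) u = u →
      t P u = t Q u := fun P Q u hP hQ => by
    rw [h1 P Q u hQ, ht, Finset.sum_comm]
    refine Finset.sum_congr rfl fun j _ => ?_
    rw [← map_sum, ← map_sum, hP]
  choose P hP using fun u : Ac d (⋃ i, V i) => ex_PU1 hV u.2
  obtain ⟨T, hT⟩ := LinearMap.exists_extend (p := Ac d (⋃ i, V i))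
    (⟨⟨fun u => t (P u) u, fun u v => by
      obtain ⟨Q, hQ⟩ := ex_PU' hV {u.1, v.1, u.1 + v.1} (by
        simp only [Finset.mem_insert, Finset.mem_singleton]
        rintro _ (rfl | rfl | rfl)
        exacts [u.2, v.2, (u + v).2])
      rw [h2 _ Q _ (hP u) (hQ _ (by simp)), h2 _ Q _ (hP v) (hQ _ (by simp)),
        h2 _ Q _ (hP (u + v)) (hQ _ (by simp)), ← map_add]
      rfl⟩, fun c u => by
      have h3 : ∑ j, mu ((P u).sm j) (c • u.1) = c • u.1 := by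
        simp only [map_smul, ← Finset.smul_sum, hP u]
      exact (h2 _ (P u) _ (hP (c • u)) h3).trans (map_smul _ c u.1)⟩ : _ →ₗ[ℂ] W)
  refine ⟨T, fun i u hu => ?_⟩
  have hu' := Ac_mono (subset_iUnion V i) hu
  refine (LinearMap.congr_fun hT ⟨u, hu'⟩).trans ?_
  change t (P ⟨u, hu'⟩) u = _
  rw [ht, Finset.sum_congr rfl fun j _ => h _ i _ ((P ⟨u, hu'⟩).mem j u) (mu_Ac _ hu), ← map_sum,
    hP ⟨u, hu'⟩]

theorem glue_uniq (hV : ∀ i, IsOpen (V i)) {T T' : Am d k (⋃ i, V i) →ₗ[ℂ] W}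
    (h : ∀ i u (hu : u ∈ Am d k (V i)), T ⟨u, Am_mono k (subset_iUnion V i) hu⟩ =
      T' ⟨u, Am_mono k (subset_iUnion V i) hu⟩) : T = T' := by
  refine LinearMap.ext fun u => ?_
  obtain ⟨P, hP⟩ := ex_PU1 hV u.2.1
  have h1 : ∀ j, mu (P.sm j) u.1 ∈ Am d k (V (P.ix j)) := fun j => ⟨P.mem j _, mu_Dg _ u.2.2⟩
  have h2 : u = ∑ j, ⟨_, Am_mono k (subset_iUnion V _) (h1 j)⟩ :=
    Subtype.ext (by rw [Submodule.coe_sum]; exact hP.symm)
  rw [h2, map_sum, map_sum]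
  exact Finset.sum_congr rfl fun j _ => h _ _ (h1 j)

/-- the sheaf property of `V ↦ Hom (Am k V, W)` -/
theorem glue (hV : ∀ i, IsOpen (V i)) (s : ∀ i, Am d k (V i) →ₗ[ℂ] W)
    (h : ∀ i j u (hi : u ∈ Am d k (V i)) (hj : u ∈ Am d k (V j)), s i ⟨u, hi⟩ = s j ⟨u, hj⟩) :
    ∃! t : Am d k (⋃ i, V i) →ₗ[ℂ] W, ∀ i u (hu : u ∈ Am d k (V i)),
      t ⟨u, Am_mono k (subset_iUnion V i) hu⟩ = s i ⟨u, hu⟩ := by
  choose S hS using fun i => LinearMap.exists_extend (s i)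
  have h1 : ∀ i u (hu : u ∈ Am d k (V i)), S i u = s i ⟨u, hu⟩ := fun i u hu =>
    LinearMap.congr_fun (hS i) ⟨u, hu⟩
  obtain ⟨T, hT⟩ := glue0 hV (fun i => S i ∘ₗ pj d M k) fun i j u hi hj =>
    (h1 i _ (pj_Am k hi)).trans ((h i j _ _ (pj_Am k hj)).trans (h1 j _ _).symm)
  refine ⟨T ∘ₗ Submodule.subtype _, fun i u hu => (hT i u hu.1).trans ?_,
    fun t ht => glue_uniq hV fun i u hu => (ht i u hu).trans ((hT i u hu.1).trans ?_).symm⟩
  all_goals rw [LinearMap.comp_apply, pj_eq hu.2, h1 i u hu]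

end Vale.Agent.P275MC
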