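import Vale.Agent.P275MC.CoS
import Vale.Agent.P275MC.Ext
import Vale.Agent.P275PC.Chart

/-!
# P275, model of currents: the flabby resolution of the constant sheaf
-/

open scoped Manifold ContDiff Topology
open CategoryTheory TopologicalSpace P275S Module CochainComplex.HomComplex Set
open Vale.Agent.P272.K Vale.Agent.P281Z.Hg Vale.Agent.P275PC

noncomputable section

namespace Vale.Agent.P275MC

namespace CoC

variable {k : Type} [Field k] {X : TopCat.{0}} {T T' : Type} [AddCommGroup T] [Module k T]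
  [AddCommGroup T'] [Module k T']

/-- the transpose of a map which commutes with the differentials up to a sign -/
def coc (C : CoC k X T) (C' : CoC k X T') (N N' n : ℤ) (φ : T' →ₗ[k] T)
    (h : ∀ p q, p + n = q → ∀ U, ∀ u ∈ (C'.P (N' - q)).A U, φ u ∈ (C.P (N - p)).A U)
    (hd : ∀ i U, ∀ u ∈ (C'.P i).A U, φ (C'.D u) = n.negOnePow • C.D (φ u)) :
    Cocycle (C.cx N) (C'.cx N') n :=
  Cocycle.mk (Cochain.mk fun p q hpq => CoS.hom _ _ φ (h p q hpq)) (n + 1) rfl (by
    ext p q hpq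
    rw [δ_v n (n + 1) rfl _ p q hpq (q - 1) (p + 1) rfl rfl]
    refine hom_ext fun U s => CoS.sec_ext fun u hu => ?_
    have h1 := ev_d (C := C') (show q - 1 + 1 = q by omega)
      (app (CoS.hom _ _ φ (h p (q - 1) (by omega))) U s) u hu
    have h2 := ev_d (C := C) (show p + 1 = p + 1 from rfl) s (φ u) (h (p + 1) q (by omega) U u hu)
    have h3 : (C.P (N - p)).ev s ⟨φ (C'.D u), h p (q - 1) (by omega) U _
        (C'.map (by omega) U u hu)⟩ = n.negOnePow • (C.P (N - p)).ev s ⟨C.D (φ u),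
          C.map (by omega) U _ (h (p + 1) q (by omega) U u hu)⟩ := by
      rw [← map_zsmul_unit]
      exact congrArg _ (Subtype.ext (hd _ U u hu))
    refine (congrArg₂ (fun a b : k => a + (n + 1).negOnePow • b) (h1.trans h3) h2).trans ?_
    rw [Int.negOnePow_succ, Units.neg_smul, add_neg_cancel]
    rfl)

variable {C : CoC k X T} {C' : CoC k X T'} {N N' n p q : ℤ} {U : Opens X}

theorem ev_coc {φ : T' →ₗ[k] T} (h) (hd) (hpq : p + n = q) (s : sec ((C.cx N).X p) U) (u : T')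
    (hu : u ∈ (C'.P (N' - q)).A U) :
    (C'.P (N' - q)).ev (app ((coc C C' N N' n φ h hd).1.v p q hpq) U s) ⟨u, hu⟩ =
      (C.P (N - p)).ev s ⟨φ u, h p q hpq U u hu⟩ := rfl

end CoC

variable {d : ℕ} {M : Type} [TopologicalSpace M] [ChartedSpace (Cm d) M] [T2Space M]
  [IsManifold 𝓘(ℂ, Cm d) ω M]

variable (d M) in
/-- the cosheaf of forms with compact support -/
def acS : CoS ℂ (TopCat.of M) (SF d M) where
  A U := Ac d (U : Set M)
  mono h := Ac_mono h
  inf _ _ _ hu := Ac_inter hu.1 hu.2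
  sup V := by
    rw [Opens.coe_iSup]
    exact (Ac_iUnion fun i => (V i).2).le

variable (d M) in
/-- the cosheaf of forms of degree `k` with compact support -/
def amS (k : ℤ) : CoS ℂ (TopCat.of M) (SF d M) where
  A U := Am d k (U : Set M)
  mono h := Am_mono k h
  inf _ _ _ hu := ⟨Ac_inter hu.1.1 hu.2.1, hu.1.2⟩
  sup V := by
    rw [Opens.coe_iSup]
    exact (Am_iUnion (fun i => (V i).2) k).le

variable (d M) in
/-- the complex of forms with compact support -/
def amC : CoC ℂ (TopCat.of M) (SF d M) where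
  P := amS d M
  D := dd d M
  map h _ _ hu := h ▸ dd_Am hu
  sq _ _ u _ := dd_dd u

variable (d M) in
/-- the complex of (algebraic) currents -/
def Cur : P275S.Cx ℂ (TopCat.of M) := (amC d M).cx (d + d : ℕ)

variable {U V : Opens (TopCat.of M)} {i j m : ℤ}

/-- a current is a linear form -/
def cv' (s : sec ((Cur d M).X m) U) : Dual ℂ (Am d ((d + d : ℕ) - m) (U : Set M)) := s

theorem cur_ext {s t : sec ((Cur d M).X m) U} (h : ∀ u hu, cv' s ⟨u, hu⟩ = cv' t ⟨u, hu⟩) :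
    s = t := CoS.sec_ext h

theorem cv'_res (h : V ≤ U) (s : sec ((Cur d M).X m) U) (u : SF d M)
    (hu : u ∈ Am d ((d + d : ℕ) - m) (V : Set M)) :
    cv' (res _ h s) ⟨u, hu⟩ = cv' s ⟨u, Am_mono _ h hu⟩ := rfl

theorem cv'_d (h : i + 1 = j) (s : sec ((Cur d M).X i) U) (u : SF d M)
    (hu : u ∈ Am d ((d + d : ℕ) - j) (U : Set M)) :
    cv' (app ((Cur d M).d i j) U s) ⟨u, hu⟩ =
      cv' s ⟨dd d M u, (amC d M).map (by omega) U u hu⟩ := CoC.ev_d h s u hu

theorem flqC_Cur : FlqC (Cur d M) :=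
  (amC d M).flqC _ ⟨(d + d : ℕ), fun _ hi => eq_bot_iff.2 (inf_le_right.trans (Dg_big hi).le)⟩

theorem isZero_Cur (h : m < 0 ∨ (d + d : ℕ) < m) : Limits.IsZero ((Cur d M).X m) :=
  CoS.isZero (eq_bot_iff.2 (inf_le_right.trans
    (h.elim (fun _ => Dg_big (by omega)) fun _ => Dg_neg (by omega)).le))

/-- the current defined by a form -/
def curOf (m : ℤ) (U : Opens (TopCat.of M)) : SF d M →ₗ[ℂ] sec ((Cur d M).X m) U :=
  ((Qc d M).domRestrict (Am d ((d + d : ℕ) - m) (U : Set M))).flip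

theorem cv'_curOf (b u : SF d M) (hu : u ∈ Am d ((d + d : ℕ) - m) (U : Set M)) :
    cv' (curOf m U b) ⟨u, hu⟩ = Qc d M u b := rfl

theorem res_curOf (h : V ≤ U) (b : SF d M) : res _ h (curOf m U b) = curOf m V b := rfl

theorem d_curOf (h : i + 1 = j) (b : SF d M) :
    app ((Cur d M).d i j) U (curOf i U b) = -curOf j U (dd d M b) :=
  cur_ext fun u hu => (cv'_d h _ u hu).trans (Qc_dd (Ac_mono (subset_univ _) hu.1) b)

variable (d M) in
/-- the current of integration -/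
def cur1 : sec ((Cur d M).X 0) ⊤ := curOf 0 ⊤ (one d M)

theorem cv'_cur1 (u : SF d M) (hu) :
    cv' (res _ (le_top : U ≤ ⊤) (cur1 d M)) ⟨u, hu⟩ = itc d M u := rfl

theorem cur1_d : app ((Cur d M).d 0 (0 + 1)) ⊤ (cur1 d M) = 0 := by
  rw [cur1, d_curOf rfl, dd_one, map_zero, neg_zero]

theorem ex_good {x : M} (hx : x ∈ U) : ∃ V ≤ U, x ∈ V ∧
    (∀ k : ℤ, k ≠ (d + d : ℕ) → (amC d M).Ex k V) ∧ ∀ k, ∀ u ∈ Am d k (V : Set M), dd d M u = 0 →
      itc d M u = 0 → ∃ v ∈ Am d (k - 1) (V : Set M), dd d M v = u := by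
  obtain ⟨e, he, W, h1, h2, h3, h4, h5⟩ := exists_cv (d := d) U.2 hx
  exact ⟨⟨cv e W, cv_open e h1⟩, h5, h4, fun k hk u hu h0 => pcM_lt he h1 h2 h3 hk hu h0,
    fun k u hu h0 h6 => pcM_deg he h1 h2 h3 hu h0
      ((itc_chart he (Ac_mono inter_subset_left hu.1)).symm.trans h6)⟩

variable (d M) in
/-- the augmentation -/
def ιCur : cstAt ℂ (TopCat.of M) 0 ⟶ Cur d M := clsC (cur1 d M) cur1_d

/-- currents resolve the constant sheaf -/
instance qis_Cur : QuasiIso (ιCur d M) := by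
  refine qis_clsC (cur1 d M) cur1_d (fun x n hn => CoC.exAt (C := amC d M) fun U hx => ?_)
    ((isZero_Cur (Or.inl (by simp))).eq_of_src _ _) (fun U x hx h => ?_) fun U x hx s hs => ?_
  · obtain ⟨V, h1, h2, h3, -⟩ := ex_good (d := d) hx
    exact ⟨V, h1, h2, h3 _ (by omega)⟩
  · obtain ⟨u, hu, h1⟩ := ex_itc_one (d := d) (U.2.mem_nhds hx)
    have h2 := cv'_cur1 (U := U) u (by rwa [sub_zero])
    rw [h, h1] at h2
    exact zero_ne_one h2
  · obtain ⟨V, h1, h2, -, h3⟩ := ex_good (d := d) hx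
    obtain ⟨u, hu, h4⟩ := ex_itc_one (d := d) (V.2.mem_nhds h2)
    have hu' : u ∈ Am d ((d + d : ℕ) - 0) (V : Set M) := by rwa [sub_zero]
    refine ⟨V, h1, h2, cv' (res _ h1 s) ⟨u, hu'⟩, cur_ext fun w hw => ?_⟩
    have h5 : w - itc d M w • u ∈ Am d ((d + d : ℕ) - 0) (V : Set M) :=
      sub_mem hw (Submodule.smul_mem _ _ hu')
    obtain ⟨v, hv, h6⟩ := h3 _ _ h5 ((Dg_big (by omega)).le (dd_Dg h5.2))
      (by rw [map_sub, map_smul, h4, smul_eq_mul, mul_one, sub_self])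
    have h7 := cv'_d rfl (res _ h1 s) v (by rwa [← sub_sub])
    rw [app_res, hs, map_zero] at h7
    have h8 : (⟨w, hw⟩ : Am d _ _) = itc d M w • ⟨u, hu'⟩ + ⟨dd d M v, h6 ▸ h5⟩ :=
      Subtype.ext (by simp [h6])
    rw [h8, map_add, ← h7, map_smul, ← h8]
    exact (add_zero _).trans (mul_comm _ _)

/-- the wedge product with a closed form of degree `n` -/
def wdCur {w : SF d M} {n : ℤ} (hw : w ∈ Dg d M n) (h0 : dd d M w = 0) :
    Cocycle (Cur d M) (Cur d M) n :=
  CoC.coc _ _ _ _ n (wd w) (fun p q h U u hu => by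
    have h1 := wd_Am hw hu
    rwa [show n + ((d + d : ℕ) - q) = (d + d : ℕ) - p by omega] at h1) fun _ _ u _ => by
    change wd w (dd d M u) = _ • dd d M (wd w u)
    rw [dd_wd, h0, wd_zero, zero_add, pr_Dg hw, wd_smul, Int.cast_smul_eq_zsmul,
      ← Units.smul_def, smul_smul, Int.units_mul_self, one_smul]

variable {d' : ℕ} {M' : Type} [TopologicalSpace M'] [ChartedSpace (Cm d') M'] [T2Space M']
  [IsManifold 𝓘(ℂ, Cm d') ω M']

/-- a smooth map as a morphism of spaces -/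
def tm {f : M → M'} (hf : Smo d d' f) : TopCat.of M ⟶ TopCat.of M' := TopCat.ofHom ⟨f, hf.cont⟩

/-- the direct image of currents by a proper map -/
def pfCur {f : M → M'} (hf : Smo d d' f) (hp : ∀ K, IsCompact K → IsCompact (f ⁻¹' K)) :
    Cocycle (((amC d M).push (tm hf)).cx (d + d : ℕ)) (Cur d' M')
      ((d' + d' : ℕ) - (d + d : ℕ)) :=
  CoC.coc _ _ _ _ _ (pb hf) (fun p q h U u hu => by
    have h1 := pb_Am hf (fun K hK _ => hp K hK) hu
    rwa [show (d' + d' : ℕ) - q = (d + d : ℕ) - p by omega] at h1) fun _ _ u _ => by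
    rw [Int.negOnePow_even _ ⟨d' - d, by push_cast; ring⟩, one_smul]
    exact pb_dd hf u

variable {N : Type} [TopologicalSpace N] [ChartedSpace (Cm d) N] [T2Space N]
  [IsManifold 𝓘(ℂ, Cm d) ω N] {f : M → N}

/-- the restriction of currents to an open subset -/
def rsCur (h : OE d f) : Cur d N ⟶ (pushC ℂ (tm h.smo)).obj (Cur d M) :=
  CoC.hom (amC d N) ((amC d M).push (tm h.smo)) _ _ h.ext
    (fun _ _ _ hu => Am_mono _ (image_preimage_subset f _) (h.ext_Am hu))
    (fun _ _ _ hu => h.ext_dd hu.1) ≫ ((amC d M).pushIso _ _).inv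

theorem cv'_rsCur (h : OE d f) {W : Opens (TopCat.of N)} (s : sec ((Cur d N).X m) W) (u : SF d M)
    (hu : u ∈ Am d ((d + d : ℕ) - m) (f ⁻¹' W)) :
    cv' (U := (Opens.map (tm h.smo)).obj W) (app ((rsCur h).f m) W s) ⟨u, hu⟩ =
      cv' s ⟨h.ext u, Am_mono _ (image_preimage_subset f _) (h.ext_Am hu)⟩ := rfl

theorem rsCur_curOf (h : OE d f) (ho : Ori d f) (W : Opens (TopCat.of N)) (b : SF d N) :
    app ((rsCur h).f m) W (curOf m W b) =
      curOf m ((Opens.map (tm h.smo)).obj W) (pb h.smo b) :=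
  cur_ext (U := (Opens.map (tm h.smo)).obj W) fun _ hu =>
    h.Qc_ext ho (Ac_mono (subset_univ _) hu.1) b

theorem rsCur_one (h : OE d f) (ho : Ori d f) :
    app ((rsCur h).f 0) ⊤ (cur1 d N) = cur1 d M := by
  rw [cur1, rsCur_curOf h ho, pb_one]
  rfl

end Vale.Agent.P275MC
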