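import Vale.Agent.P275MC.Ext
import Vale.Agent.P281Z.Mf.Loc

/-!
# P275, model of currents: holomorphic maps
-/

open scoped Manifold ContDiff Topology Matrix
open Filter Set
open Vale.Agent.P272.K Vale.Agent.P272.K.INT Vale.Agent.P281Z Vale.Agent.P281Z.Hg
  Vale.Agent.P281Z.Hg.Pb1H

noncomputable section

namespace Vale.Agent.P275MC

variable {n p : ℕ} {X Y : Type} [TopologicalSpace X] [ChartedSpace (Cm n) X]
  [TopologicalSpace Y] [ChartedSpace (Cm p) Y] [IsManifold 𝓘(ℂ, Cm n) ω X]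
  [IsManifold 𝓘(ℂ, Cm p) ω Y] {f : X → Y} {x : X}

theorem smA_of_hol (h : HolA n p f x) : SmA n p f x :=
  ⟨h.cont, fun _ _ he he' => ((h.an he he').contDiffAt (n := ∞)).restrict_scalars ℝ⟩

theorem smo_of_hol (h : HolM n p f) : Smo n p f := smo_of fun x => smA_of_hol (h.at x)

/-- forms extend from a complex submanifold -/
theorem emb_surj [T2Space X] [T2Space Y] {S : Set Y} (h : Emb n p f S)
    (hi : Topology.IsInducing f) {U : Set Y} (hU : IsOpen U) {w : SF n X}
    (hw : w ∈ Ac n (f ⁻¹' U)) : ∃ v ∈ Ac p U, pb (smo_of_hol h.hol) v = w :=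
  pb_surj _ hi (fun x => by
    obtain ⟨g, -, h2, h3⟩ := (h.imm x).ret (h.hol.at x)
    exact ⟨g, h2.near.mono fun _ => smA_of_hol, h3⟩) hU hw

variable {Z : Type} [TopologicalSpace Z] [ChartedSpace (Cm n) Z] [IsManifold 𝓘(ℂ, Cm n) ω Z]
  {i : X → Z} {S : Set Z}

theorem oe_of_emb (h : Emb n n i S) : OE n i :=
  ⟨smo_of_hol h.hol, h.inj, fun x => by
    obtain ⟨g, h1, h2, -, -, h3⟩ := (h.imm x).inv (h.hol.at x)
    exact ⟨g, h1, smA_of_hol h2, h3⟩⟩

theorem ori_of_imm (h : HolM n n i) (hi : ∀ x, Imm n n i x) : Ori n i := fun x => by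
  have he := ca (d := n) x
  have hc := ca (d := n) (i x)
  have h1 := (h.at x).an he hc
  refine ⟨_, _, he, hc, lt_of_le_of_ne ?_ fun h2 => ?_⟩
  · rw [det_fderiv_real h1.differentiableAt]
    positivity
  · have h3 := (h1.differentiableAt.hasFDerivAt.restrictScalars ℝ).fderiv
    obtain ⟨v, h4, h5⟩ := Submodule.exists_mem_ne_zero_of_ne_bot
      (LinearMap.bot_lt_ker_of_det_eq_zero h2.symm).ne'
    rw [h3] at h4
    exact h5 (hi x _ _ he hc (h4.trans (map_zero _).symm))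

theorem ori_of_emb (h : Emb n n i S) : Ori n i := ori_of_imm h.hol h.imm

end Vale.Agent.P275MC
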