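import Vale.Agent.P275MC.DR
import Vale.Agent.P275S.Calc
import Vale.Agent.P275S.Cls
import Vale.Agent.P275S.Soft
import Vale.Agent.P275PA.Dfs

/-!
# P275, model of currents: the de Rham theorem and Poincare duality data
-/

open scoped Manifold ContDiff Topology
open CategoryTheory TopologicalSpace P275S Module CochainComplex.HomComplex Set
open Vale.Agent.P272.K Vale.Agent.P281Z.Hg

set_option backward.isDefEq.respectTransparency false

noncomputable section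

namespace Vale.Agent.P275MC

theorem hom_clsC {k : Type} [Field k] {X : TopCat.{0}} {F : P275S.Cx k X} (c : sec (F.X 0) ⊤)
    (hc : app (F.d 0 (0 + 1)) ⊤ c = 0) : KG.hom k (clsC c hc) = gcl c hc :=
  (Category.id_comp _).symm.trans ((congrArg (· ≫ KG.hom k (clsC c hc)) gcl_one0.symm).trans
    ((gcl_comp_hom _ _ _).trans (gcl_congr (ev_clsC c hc) _)))

theorem gcl_cg {k : Type} [Field k] {X : TopCat.{0}} {F : P275S.Cx k X} {n : ℤ}
    {c c' : sec (F.X n) ⊤} {hc hc'} {A : KG k (Sh k X)} {g : KG.of F ⟶ A} (h : c = c') :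
    gcl c hc ≫ g = gcl c' hc' ≫ g := by
  subst h
  rfl

variable {d : ℕ} {M : Type} [TopologicalSpace M] [ChartedSpace (Cm d) M]
  [IsManifold 𝓘(ℂ, Cm d) ω M] [T2Space M] {a b w : SF d M} {U V : Opens (TopCat.of M)}
  {l m n p q : ℤ}

theorem app_fm {G : Sh ℂ (TopCat.of M)} (φ : (DR d M).X m ⟶ G) (b : SF d M) :
    app φ U (fm m U b) = res G le_top (app φ ⊤ (fm m ⊤ b)) := app_res φ le_top (fm m ⊤ b)

theorem ex_wdX (w : SF d M) (p q : ℤ) : ∃ φ : (DR d M).X p ⟶ (DR d M).X q,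
    ∀ b ∈ Dg d M p, app φ ⊤ (fm p ⊤ b) = fm q ⊤ (wd w b) :=
  ex_lift (fm q ⊤ ∘ₗ wd w) fun V b _ h => (fm_congr (b := 0) (m := q) (U := V) fun x hx => by
    rw [sub_zero]
    exact op_ZP (opr_vl _) (h x hx)).trans (map_zero _)

/-- the wedge product with a form, on the sheaves -/
def wdX (w : SF d M) (p q : ℤ) : (DR d M).X p ⟶ (DR d M).X q := (ex_wdX w p q).choose

theorem wdX_fm (w : SF d M) (hb : b ∈ Dg d M p) :
    app (wdX w p q) U (fm p U b) = fm q U (wd w b) := by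
  rw [app_fm, wdX, (ex_wdX w p q).choose_spec b hb, res_fm]

omit [T2Space M] in
theorem dd_wd' (hw : w ∈ Dg d M n) (h0 : dd d M w = 0) (b : SF d M) :
    dd d M (wd w b) = n.negOnePow • wd w (dd d M b) := by
  rw [dd_wd, h0, wd_zero, zero_add, pr_Dg hw, wd_smul, Int.cast_smul_eq_zsmul, ← Units.smul_def]

/-- the wedge product with a closed form of degree `n` -/
def wdDR (hw : w ∈ Dg d M n) (h0 : dd d M w = 0) : Cocycle (DR d M) (DR d M) n :=
  Cocycle.mk (Cochain.mk fun p q _ => wdX w p q) (n + 1) rfl (by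
    ext p q hpq
    rw [δ_v n (n + 1) rfl _ p q hpq (q - 1) (p + 1) rfl rfl]
    refine dr_hom_ext fun b hb => ?_
    have h1 : app ((DR d M).d (q - 1) q) ⊤ (app (wdX w p (q - 1)) ⊤ (fm p ⊤ b)) =
        n.negOnePow • fm q ⊤ (wd w (dd d M b)) := by
      rw [wdX_fm w hb, d_fm (sub_add_cancel q 1), dd_wd' hw h0, map_zsmul_unit]
    have h2 : app (wdX w (p + 1) q) ⊤ (app ((DR d M).d p (p + 1)) ⊤ (fm p ⊤ b)) =
        fm q ⊤ (wd w (dd d M b)) := by
      rw [d_fm rfl, wdX_fm w (dd_Dg hb)]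
    refine (congrArg₂ (fun s t : sec ((DR d M).X q) ⊤ => s + (n + 1).negOnePow • t) h1 h2).trans ?_
    rw [Int.negOnePow_succ, Units.neg_smul, add_neg_cancel]
    rfl)

theorem wdDR_fm (hw : w ∈ Dg d M n) (h0 : dd d M w = 0) (h : p + n = q) (hb : b ∈ Dg d M p) :
    app ((wdDR hw h0).1.v p q h) U (fm p U b) = fm q U (wd w b) := wdX_fm w hb

theorem ιDC_one : app ((ιDC d M).f 0) ⊤ (dr1 d M) = cur1 d M := by
  rw [dr1, ιDC_fm, pj_eq one_Dg, Int.negOnePow_zero, Units.val_one, Int.cast_one, one_smul, cur1]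

theorem ιDR_ιDC : ιDR d M ≫ ιDC d M = ιCur d M :=
  ev_injective ((ev_comp _ _).trans ((congrArg _ (ev_clsC _ _)).trans
    (ιDC_one.trans (ev_clsC _ _).symm)))

instance qis_DC : QuasiIso (ιDC d M) :=
  have : QuasiIso (ιDR d M ≫ ιDC d M) := ιDR_ιDC (d := d) (M := M) ▸ qis_Cur
  quasiIso_of_comp_left (ιDR d M) _

variable (d M) in
/-- the comparison of currents with the injective resolution -/
def σI : Cur d M ⟶ I ℂ (TopCat.of M) :=
  (KG.exists_lift_hom (k := ℂ) (ιCur d M) (injC_I ℂ _) (ιI ℂ _)).choose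

theorem ιCur_σI : KG.hom ℂ (ιCur d M) ≫ KG.hom ℂ (σI d M) = unit ℂ (TopCat.of M) :=
  (KG.exists_lift_hom (k := ℂ) (ιCur d M) (injC_I ℂ _) (ιI ℂ _)).choose_spec

instance qis_σI : QuasiIso (σI d M) := by
  obtain ⟨h⟩ := (KG.hom_eq_iff ℂ (ιCur d M ≫ σI d M) (ιI ℂ _)).1
    ((KG.hom_comp ℂ _ _).trans ιCur_σI)
  have : QuasiIso (ιCur d M ≫ σI d M) := ⟨fun i => by
    rw [quasiIsoAt_iff_isIso_homologyMap, h.homologyMap_eq]
    infer_instance⟩
  exact quasiIso_of_comp_left (ιCur d M) _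

variable (d M) in
/-- the comparison of forms with the injective resolution -/
def ρI : DR d M ⟶ I ℂ (TopCat.of M) := ιDC d M ≫ σI d M

instance qis_ρI : QuasiIso (ρI d M) := by
  unfold ρI
  infer_instance

theorem ιDR_ρI : KG.hom ℂ (ιDR d M) ≫ KG.hom ℂ (ρI d M) = unit ℂ (TopCat.of M) := by
  rw [ρI, KG.hom_comp, ← Category.assoc, ← KG.hom_comp ℂ (ιDR d M), ιDR_ιDC, ιCur_σI]

variable (d M) in
/-- closed forms -/
def Zf : Submodule ℂ (SF d M) := LinearMap.ker (dd d M)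

theorem d_Zf (n : ℤ) (w : Zf d M) : app ((DR d M).d n (n + 1)) U (fm n U w.1) = 0 := by
  rw [d_fm rfl, show dd d M w.1 = 0 from w.2, map_zero]

/-- the class of a closed form in the hypercohomology of the de Rham complex -/
def gf (n : ℤ) : Zf d M →ₗ[ℂ] (kk ℂ (TopCat.of M) ⟶ KG.of (DR d M)) where
  toFun w := gcl (fm n ⊤ w.1) (d_Zf n w)
  map_add' _ _ := (gcl_congr (map_add _ _ _) _).trans (gcl_add _ _ _ _)
  map_smul' _ _ := (gcl_congr (map_smul _ _ _) _).trans (gcl_smul _ _ _)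

/-- the cohomology class of (the degree `n` part of) a closed form -/
def cl (n : ℤ) : Zf d M →ₗ[ℂ] H ℂ (TopCat.of M) :=
  (evK (𝟙 _)).symm.toLinearMap ∘ₗ Linear.rightComp ℂ _ (KG.hom ℂ (ρI d M)) ∘ₗ gf n

theorem unit_cl (n : ℤ) (w : Zf d M) :
    unit ℂ _ ≫ cl n w = gcl (fm n ⊤ w.1) (d_Zf n w) ≫ KG.hom ℂ (ρI d M) := by
  have h := (evK (k := ℂ) (𝟙 (TopCat.of M))).apply_symm_apply (gf n w ≫ KG.hom ℂ (ρI d M))
  rw [evK_apply, uK_id, mul_id] at h
  exact h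

theorem cl_mem (n : ℤ) (w : Zf d M) : cl n w ∈ Hd ℂ (TopCat.of M) n := by
  rw [← evK_mem_iff (𝟙 _), evK_apply, uK_id, mul_id, unit_cl]
  exact KG.comp_mem_deg (add_zero n) (gcl_mem _ _) (KG.hom_mem_deg _)

theorem cl_congr {v w : Zf d M} (h : pj d M n v.1 = pj d M n w.1) : cl n v = cl n w :=
  unit_cancel (injC_I ℂ _) (by
    rw [unit_cl, unit_cl, gcl_congr (show fm n ⊤ v.1 = fm n ⊤ w.1 by rw [← fm_pj, h, fm_pj])])

theorem cl_one : cl 0 ⟨one d M, dd_one⟩ = (1 : H ℂ (TopCat.of M)) :=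
  unit_cancel (injC_I ℂ _) ((unit_cl _ _).trans
    (((congrArg (· ≫ KG.hom ℂ (ρI d M)) (hom_clsC _ _).symm).trans ιDR_ρI).trans
      (Category.comp_id _).symm))

/-- the wedge product realises the multiplication by the class -/
theorem wdDR_ρI (hw : w ∈ Dg d M n) (h0 : dd d M w = 0) :
    KG.mk ℂ (wdDR hw h0) ≫ KG.hom ℂ (ρI d M) = KG.hom ℂ (ρI d M) ≫ cl n ⟨w, h0⟩ := by
  refine KG.cancel_qis (ιDR d M) (injC_I ℂ _) ?_
  rw [← Category.assoc, ← Category.assoc, ιDR_ρI, unit_cl, ιDR, hom_clsC,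
    gcl_comp_mk (zero_add n)]
  exact gcl_cg ((wdDR_fm hw h0 _ one_Dg).trans (by rw [wd_one]))

omit [T2Space M] in
theorem wd_Zf (ha : a ∈ Dg d M m) (h0 : dd d M a = 0) (h1 : dd d M b = 0) :
    dd d M (wd a b) = 0 := by
  rw [dd_wd' ha h0, h1, map_zero, smul_zero]

theorem cl_wd (h : m + n = l) (ha : a ∈ Dg d M m) (hb : b ∈ Dg d M n) (h0 : dd d M a = 0)
    (h1 : dd d M b = 0) : cl l ⟨wd a b, wd_Zf ha h0 h1⟩ = cl m ⟨a, h0⟩ * cl n ⟨b, h1⟩ := by
  refine unit_cancel (injC_I ℂ _) ?_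
  rw [End.mul_def, ← Category.assoc, unit_cl, unit_cl, Category.assoc, ← wdDR_ρI ha h0,
    ← Category.assoc, gcl_comp_mk (show n + m = l by omega)]
  exact gcl_cg (wdDR_fm ha h0 _ hb).symm

theorem cl_dd (v : SF d M) : cl n ⟨dd d M v, dd_dd v⟩ = 0 :=
  unit_cancel (injC_I ℂ _) (by
    rw [unit_cl, (gcl_eq_zero_iff _ _ (n - 1) (sub_add_cancel n 1)).2
      ⟨fm _ ⊤ v, d_fm (sub_add_cancel n 1) v⟩, Limits.zero_comp, Limits.comp_zero])

theorem wdCur_one {n : ℕ} (hw : w ∈ Dg d M n) (h0 : dd d M w = 0) :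
    app ((wdCur hw h0).1.v 0 n (zero_add _)) ⊤ (cur1 d M) =
      (-1 : ℂ) ^ (n + n.choose 2) • app ((ιDC d M).f n) ⊤ (fm n ⊤ w) := cur_ext fun u hu => by
  have h1 := Qc_Dg (Ac_mono (subset_univ _) hu.1) hw
  change itc d M (wd w u) = (-1 : ℂ) ^ (n + n.choose 2) *
    Qc d M u (((n : ℤ).negOnePow : ℂ) • pj d M n w)
  rw [pj_eq hw, map_smul, h1, Int.cast_negOnePow_natCast, smul_eq_mul, pow_add]
  rcases neg_one_pow_eq_or ℂ n with h2 | h2 <;> rcases neg_one_pow_eq_or ℂ (n.choose 2) with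
    h3 | h3 <;> simp [h2, h3]

/-- the transposed wedge product realises the multiplication by the class, up to a sign -/
theorem wdCur_σI {n : ℕ} (hw : w ∈ Dg d M n) (h0 : dd d M w = 0) :
    KG.mk ℂ (wdCur hw h0) ≫ KG.hom ℂ (σI d M) =
      KG.hom ℂ (σI d M) ≫ ((-1 : ℂ) ^ (n + n.choose 2) • cl n ⟨w, h0⟩) := by
  refine KG.cancel_qis (ιCur d M) (injC_I ℂ _) ?_
  rw [← Category.assoc, ← Category.assoc, ιCur_σI, Linear.comp_smul, unit_cl, ιCur, hom_clsC,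
    gcl_comp_mk (zero_add _), ρI, KG.hom_comp, ← Category.assoc, gcl_comp_hom _ _ (ιDC d M),
    ← Linear.smul_comp, ← gcl_smul]
  exact gcl_cg (wdCur_one hw h0)

section pull

variable {d' : ℕ} {N : Type} [TopologicalSpace N] [ChartedSpace (Cm d') N] [T2Space N]
  [IsManifold 𝓘(ℂ, Cm d') ω N] {f : M → N}

theorem ex_pbX (hf : Smo d d' f) (m : ℤ) :
    ∃ φ : (DR d' N).X m ⟶ ((pushC ℂ (tm hf)).obj (DR d M)).X m,
      ∀ b ∈ Dg d' N m, app φ ⊤ (fm m ⊤ b) = fm m ⊤ (pb hf b) :=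
  ex_lift (G := ((pushC ℂ (tm hf)).obj (DR d M)).X m) (fm (d := d) m ⊤ ∘ₗ pb hf) fun V b _ h =>
    (fm_congr (b := 0) (m := m) (U := (Opens.map (tm hf)).obj V) fun x hx => by
      rw [sub_zero]
      exact pb_ZP hf (h (f x) hx)).trans (map_zero _)

theorem pbX_top (hf : Smo d d' f) (b : SF d' N) :
    app (ex_pbX hf m).choose ⊤ (fm m ⊤ b) = fm m ⊤ (pb hf b) := by
  rw [← fm_pj, (ex_pbX hf m).choose_spec _ (pj_mem m b), pb_pj]
  exact fm_pj _

/-- the pull-back of forms -/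
def pbDR (hf : Smo d d' f) : DR d' N ⟶ (pushC ℂ (tm hf)).obj (DR d M) where
  f m := (ex_pbX hf m).choose
  comm' i j h := dr_hom_ext fun b _ => by
    rw [app_comp, app_comp, d_fm h, pbX_top, pbX_top, pb_dd]
    exact d_fm h _

theorem pbDR_fm (hf : Smo d d' f) (W : Opens (TopCat.of N)) (b : SF d' N) :
    app ((pbDR hf).f m) W (fm m W b) = fm m ((Opens.map (tm hf)).obj W) (pb hf b) :=
  (app_fm _ b).trans (congrArg _ (pbX_top hf b))

theorem ρI_pullI (hf : Smo d d' f) : KG.hom ℂ (ρI d' N) ≫ pullI ℂ (tm hf) =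
    KG.hom ℂ (pbDR hf) ≫ (pushK ℂ (tm hf)).map (KG.hom ℂ (ρI d M)) := by
  refine KG.cancel_qis (ιDR d' N) (injC_K (tm hf)) ?_
  rw [← Category.assoc, ← Category.assoc, ιDR_ρI, unit_pullI, uK, ← ιDR_ρI (d := d),
    Functor.map_comp, ← Category.assoc, ιDR, ιDR, hom_clsC, hom_clsC, cU_gcl, gcl_comp_hom]
  exact gcl_cg ((pbX_top hf _).trans (congrArg _ (pb_one hf))).symm

omit [T2Space M] [T2Space N] in
theorem pb_Zf (hf : Smo d d' f) (w : Zf d' N) : pb hf w.1 ∈ Zf d M := by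
  change dd d M _ = 0
  rw [← pb_dd, show dd d' N w.1 = 0 from w.2, map_zero]

/-- the class is natural -/
theorem cl_pb (hf : Smo d d' f) (n : ℤ) (w : Zf d' N) :
    cl n ⟨pb hf w.1, pb_Zf hf w⟩ = P275S.pb (tm hf) (cl n w) := (evK (tm hf)).injective (by
  rw [evK_pb, ← Category.assoc, unit_cl, Category.assoc, ρI_pullI, ← Category.assoc, gcl_comp_hom,
    evK_apply, uK, mul_def, Category.assoc, ← Functor.map_comp, unit_cl, Functor.map_comp,
    ← Category.assoc, cU_gcl]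
  exact gcl_cg (pbX_top hf _).symm)

end pull

theorem fm_bij (q : ℤ) : Function.Bijective (fm q ⊤ ∘ₗ (Dg d M q).subtype) :=
  ⟨(injective_iff_map_eq_zero _).2 fun b h => Subtype.ext (eq_zero_of_ZP fun x =>
    (fm_eq_zero b.2).1 h x trivial), fun s => by
    obtain ⟨b, hb, h⟩ := fm_surj s
    exact ⟨⟨b, hb⟩, h⟩⟩

/-- the form defined by a global section -/
def uf (q : ℤ) : sec ((DR d M).X q) ⊤ →ₗ[ℂ] SF d M :=
  (Dg d M q).subtype ∘ₗ (LinearEquiv.ofBijective _ (fm_bij q)).symm.toLinearMap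

theorem uf_mem (s : sec ((DR d M).X q) ⊤) : uf q s ∈ Dg d M q := Subtype.prop _

theorem fm_uf (s : sec ((DR d M).X q) ⊤) : fm q ⊤ (uf q s) = s :=
  (LinearEquiv.ofBijective _ (fm_bij q)).apply_symm_apply s

theorem uf_fm (hb : b ∈ Dg d M q) : uf q (fm q ⊤ b) = b :=
  congrArg Subtype.val ((LinearEquiv.ofBijective _ (fm_bij q)).symm_apply_apply ⟨b, hb⟩)

theorem uf_Ac (s : cpt ((DR d M).X q) U) : uf q s.1 ∈ Ac d (U : Set M) :=
  (fm_mem_cpt (uf_mem _)).1 ((fm_uf s.1).symm ▸ s.2)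

theorem uf_d (h : p + 1 = q) (s : sec ((DR d M).X p) ⊤) :
    uf q (app ((DR d M).d p q) ⊤ s) = dd d M (uf p s) := by
  conv_lhs => rw [← fm_uf s, d_fm h, uf_fm (h ▸ dd_Dg (uf_mem s))]

theorem uf_wd (hw : w ∈ Dg d M n) (h0 : dd d M w = 0) (h : p + n = q)
    (s : sec ((DR d M).X p) ⊤) : uf q (app ((wdDR hw h0).1.v p q h) ⊤ s) = wd w (uf p s) := by
  conv_lhs => rw [← fm_uf s, wdDR_fm hw h0 h (uf_mem s),
    uf_fm (by simpa only [← h, add_comm] using wd_Dg hw (uf_mem s))]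

/-- test forms -/
def tst (U : Opens (TopCat.of M)) (m q : ℤ) :
    cpt ((DR d M).X q) U →ₗ[ℂ] Am d ((d + d : ℕ) - m) (U : Set M) :=
  (pj d M _ ∘ₗ uf q ∘ₗ Submodule.subtype _).codRestrict _ fun s => pj_Am _ (uf_Ac s)

theorem tst_val (h : m + q = (d + d : ℕ)) (s : cpt ((DR d M).X q) U) :
    (tst U m q s).1 = uf q s.1 := pj_eq (by
  rw [show (d + d : ℕ) - m = q by omega]
  exact uf_mem _)

theorem tst_bij (h : m + q = (d + d : ℕ)) : Function.Bijective (tst (d := d) U m q) :=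
  ⟨fun s t e => Subtype.ext (by
    rw [← fm_uf s.1, ← tst_val h, e, tst_val h, fm_uf]), fun u => by
    have h1 : u.1 ∈ Dg d M q := by
      rw [show q = (d + d : ℕ) - m by omega]
      exact u.2.2
    exact ⟨⟨fm q ⊤ u.1, (fm_mem_cpt h1).2 u.2.1⟩, Subtype.ext ((tst_val h _).trans (uf_fm h1))⟩⟩

variable (d M) in
/-- currents are dual to forms with compact support -/
def dualC : P275PA.DualC (DR d M) (Cur d M) (2 * d) where
  pair U m q := (tst U m q).dualMap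
  bij U m q h := (LinearEquiv.ofBijective _ (tst_bij (by omega))).dualMap.bijective
  res _ _ _ _ _ _ _ _ := rfl
  d m m' q q' hm hq h := ⟨1, one_ne_zero, fun U T s => by
    rw [one_mul]
    refine (cv'_d hm T _ (tst U m' q s).2).trans (congrArg (cv' T) (Subtype.ext ?_))
    exact ((congrArg (dd d M) (tst_val (by omega) s)).trans (uf_d hq _).symm).trans
      (tst_val (by omega) ⟨_, app_mem_cpt _ s.2⟩).symm⟩

theorem dualC_adj (hw : w ∈ Dg d M n) (h0 : dd d M w = 0) {c : ℂ} (hc : c ≠ 0)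
    (hw' : c • w ∈ Dg d M n) (h0' : dd d M (c • w) = 0) :
    (dualC d M).Adj (wdDR hw h0) (wdCur hw' h0') := fun m m' q q' hm hq h U T s =>
  ⟨c, hc, by
    refine Eq.trans (congrArg (cv' T) (Subtype.ext ?_)) (map_smul (cv' T) c _)
    change wd (c • w) (tst U m' q s).1 = c • (tst U m q' _).1
    rw [tst_val (by omega), tst_val (by omega), wd_smul]
    exact congrArg _ (uf_wd hw h0 hq _).symm⟩

variable [SecondCountableTopology M]

omit [IsManifold 𝓘(ℂ, Cm d) ω M] in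
include d in
theorem nice : Nice (TopCat.of M) :=
  ⟨ChartedSpace.locallyCompactSpace (Cm d) M, ‹_›, ‹_›⟩

theorem qis_gam_ρI (U : Opens (TopCat.of M)) : QuasiIso ((mapC (Gam ℂ U)).map (ρI d M)) :=
  have := nice (d := d) (M := M)
  qis_gam softC_DR (softC_I ℂ _) _ U

/-- every class is the class of a closed form -/
theorem cl_surj {α : H ℂ (TopCat.of M)} (h : α ∈ Hd ℂ (TopCat.of M) n) :
    ∃ w ∈ Dg d M n, ∃ h0 : dd d M w = 0, cl n ⟨w, h0⟩ = α := by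
  have := qis_gam_ρI (d := d) (M := M) ⊤
  obtain ⟨c, hc, e⟩ := exists_gcl (KG.comp_mem_deg (zero_add n) unit_mem h)
  obtain ⟨u, hu, t, ht⟩ := gam_surj (ρI d M) c hc
  refine ⟨uf n u, uf_mem u, by rw [← uf_d rfl, hu, map_zero], unit_cancel (injC_I ℂ _) ?_⟩
  rw [unit_cl, ← e, gcl_comp_hom, eq_comm, gcl_eq_iff _ _ _ _ (n - 1) (sub_add_cancel n 1)]
  exact ⟨t, by rw [fm_uf, ← ht, add_sub_cancel_left]⟩

/-- the class vanishes iff the form is exact -/
theorem cl_eq_zero_iff (hw : w ∈ Dg d M n) (h0 : dd d M w = 0) :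
    cl n ⟨w, h0⟩ = 0 ↔ ∃ v ∈ Dg d M (n - 1), dd d M v = w := by
  refine ⟨fun h => ?_, fun ⟨v, _, e⟩ => by subst e; exact cl_dd v⟩
  have := qis_gam_ρI (d := d) (M := M) ⊤
  have h1 := unit_cl n ⟨w, h0⟩
  rw [h, Limits.comp_zero, gcl_comp_hom, eq_comm,
    gcl_eq_zero_iff _ _ (n - 1) (sub_add_cancel n 1)] at h1
  obtain ⟨t, ht⟩ := h1
  obtain ⟨s, hs⟩ := gam_inj (ρI d M) _ (d_Zf n ⟨w, h0⟩) t ht
  exact ⟨uf _ s, uf_mem s, by rw [← uf_d (sub_add_cancel n 1), hs, uf_fm hw]⟩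

variable (d M) in
/-- Poincare duality data on a complex manifold -/
theorem pdual : P275PA.PDual ℂ (TopCat.of M) (2 * d) := by
  refine ⟨DR d M, Cur d M, dualC d M, ρI d M, σI d M, softC_DR, flqC_Cur, qis_ρI, qis_σI,
    fun α hα => ?_⟩
  obtain ⟨w, hw, h0, rfl⟩ := cl_surj (d := d) hα
  have h1 : dd d M ((-1 : ℂ) • w) = 0 := by rw [map_smul, h0, smul_zero]
  refine ⟨wdDR hw h0, wdCur (Submodule.smul_mem _ (-1 : ℂ) hw) h1,
    dualC_adj hw h0 (by simp) _ _, wdDR_ρI hw h0,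
    (wdCur_σI (n := 2) (Submodule.smul_mem _ (-1 : ℂ) hw) h1).trans (congrArg _ ?_)⟩
  rw [show (⟨(-1 : ℂ) • w, h1⟩ : Zf d M) = (-1 : ℂ) • ⟨w, h0⟩ from rfl, map_smul, smul_smul]
  norm_num

end Vale.Agent.P275MC
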