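import Vale.Agent.P275S.Loc

/-!
# P275, model of currents: the dual of a cosheaf of subspaces is a flabby sheaf
-/

open CategoryTheory TopologicalSpace Opposite Limits P275S Module

noncomputable section

namespace Vale.Agent.P275MC

variable {k : Type} [Field k]

section lat
variable {T W : Type*} [AddCommGroup T] [Module k T] [AddCommGroup W] [Module k W]

theorem ex_fac {S : Type*} [AddCommGroup S] [Module k S] (p : S →ₗ[k] T) (q : S →ₗ[k] W)
    (h : ∀ s, p s = 0 → q s = 0) : ∃ L : T →ₗ[k] W, ∀ s, L (p s) = q s := by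
  obtain ⟨L, hL⟩ := LinearMap.exists_extend
    ((LinearMap.ker p).liftQ q h ∘ₗ p.quotKerEquivRange.symm.toLinearMap)
  exact ⟨L, fun s => (LinearMap.congr_fun hL ⟨p s, s, rfl⟩).trans
    (congrArg ((LinearMap.ker p).liftQ q h) (p.quotKerEquivRange_symm_apply_image s _))⟩

/-- linear maps glue along a distributive family of subspaces -/
theorem glue_lat {ι : Type*} (B : ι → Submodule k T)
    (hd : ∀ (J : Finset ι) i, (⨆ j ∈ J, B j) ⊓ B i ≤ ⨆ j ∈ J, B j ⊓ B i) (S : ι → T →ₗ[k] W)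
    (h : ∀ i j u, u ∈ B i → u ∈ B j → S i u = S j u) :
    ∃ L : T →ₗ[k] W, ∀ i, ∀ u ∈ B i, L u = S i u := by
  classical
  have key : ∀ (J : Finset ι) (u : ι → T), (∀ j, u j ∈ B j) → ∑ j ∈ J, u j = 0 →
      ∑ j ∈ J, S j (u j) = 0 := fun J => by
    induction J using Finset.induction_on with
    | empty => simp
    | insert i J hi ih =>
      intro u hu h0
      rw [Finset.sum_insert hi] at h0 ⊢
      have h1 : u i ∈ ⨆ j ∈ J, B j := by
        rw [eq_neg_of_add_eq_zero_left h0]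
        exact neg_mem (Submodule.sum_mem _ fun j hj =>
          Submodule.mem_iSup_of_mem j (Submodule.mem_iSup_of_mem hj (hu j)))
      obtain ⟨w, hw⟩ := (Submodule.mem_iSup_finset_iff_exists_sum _ _).1 (hd J i ⟨h1, hu i⟩)
      have h2 := ih (fun j => w j + u j) (fun j => add_mem (w j).2.1 (hu j))
        (by rw [Finset.sum_add_distrib, hw, h0])
      rw [← h2, ← hw, map_sum, ← Finset.sum_add_distrib]
      exact Finset.sum_congr rfl fun j _ => by rw [map_add, h i j _ (w j).2.2 (w j).2.1]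
  let N : Submodule k (ι →₀ T) := ⨅ i, (B i).comap (Finsupp.lapply i)
  obtain ⟨L, hL⟩ := ex_fac (Finsupp.lsum k (fun _ => LinearMap.id) ∘ₗ N.subtype)
    (Finsupp.lsum k S ∘ₗ N.subtype) fun s hs =>
      key s.1.support s.1 ((Submodule.mem_iInf _).1 s.2) hs
  refine ⟨L, fun i u hu => ?_⟩
  have h1 := hL ⟨Finsupp.single i u, (Submodule.mem_iInf _).2 fun j => by
    rw [Submodule.mem_comap, Finsupp.lapply_apply, Finsupp.single_apply]
    split_ifs with h2
    · exact h2 ▸ hu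
    · exact zero_mem _⟩
  simpa using h1

/-- exactness passes to the dual -/
theorem ex_dual {B : Submodule k T} (D : T →ₗ[k] W) {C : Submodule k W}
    (hD : ∀ u ∈ B, D u ∈ C) (s : Dual k B) (h : ∀ u : B, D u = 0 → s u = 0) :
    ∃ t : Dual k C, ∀ u : B, t ⟨D u, hD u u.2⟩ = s u :=
  ex_fac (D.restrict hD) s fun u hu => h u (congrArg Subtype.val hu)

end lat

variable {X Y : TopCat.{0}} {T T' T'' : Type} [AddCommGroup T] [Module k T] [AddCommGroup T']
  [Module k T'] [AddCommGroup T''] [Module k T'']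

variable (k X T) in
/-- cosheaves of subspaces of `T` -/
structure CoS where
  A : Opens X → Submodule k T
  mono : ∀ {U V}, V ≤ U → A V ≤ A U
  inf : ∀ U V, A U ⊓ A V ≤ A (U ⊓ V)
  sup : ∀ {ι : Type} (V : ι → Opens X), A (iSup V) ≤ ⨆ i, A (V i)

namespace CoS

theorem ind (P : CoS k X T) {U : Opens X} {p : T → Prop} (h0 : p 0)
    (ha : ∀ u v, p u → p v → p (u + v)) {Q : Opens X → Prop}
    (hQ : ∀ x ∈ U, ∃ V, x ∈ V ∧ Q V) (h : ∀ V, Q V → ∀ u ∈ P.A V, u ∈ P.A U → p u) {u : T}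
    (hu : u ∈ P.A U) : p u := by
  have h1 : U ≤ ⨆ V : {V // Q V}, V.1 ⊓ U := fun x hx =>
    let ⟨V, h2, h3⟩ := hQ x hx
    Opens.mem_iSup.2 ⟨⟨V, h3⟩, h2, hx⟩
  exact Submodule.iSup_induction _ (motive := p) (P.sup _ (P.mono h1 hu))
    (fun V u hu => h V V.2 u (P.mono inf_le_left hu) (P.mono inf_le_right hu)) h0 ha

theorem glue (P : CoS k X T) {W : Type*} [AddCommGroup W] [Module k W] {ι : Type}
    (V : ι → Opens X) (S : ι → T →ₗ[k] W)
    (h : ∀ i j, ∀ u ∈ P.A (V i ⊓ V j), S i u = S j u) :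
    ∃ L : T →ₗ[k] W, ∀ i, ∀ u ∈ P.A (V i), L u = S i u := by
  refine glue_lat (fun i => P.A (V i)) (fun J i u hu => ?_) S fun i j u hi hj =>
    h i j u (P.inf _ _ ⟨hi, hj⟩)
  have h1 : u ∈ P.A (⨆ j : J, V j) :=
    (iSup₂_le fun j hj => P.mono (le_iSup (fun j : J => V j) ⟨j, hj⟩) :
      (⨆ j ∈ J, P.A (V j)) ≤ _) hu.1
  have h2 := P.inf _ _ ⟨h1, hu.2⟩
  rw [iSup_inf_eq] at h2
  exact (iSup_le fun j : J => le_iSup₂_of_le j.1 j.2
    (le_inf (P.mono inf_le_left) (P.mono inf_le_right)) : _ ≤ ⨆ j ∈ J, P.A (V j) ⊓ P.A (V i))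
    (P.sup _ h2)

/-- the dual sheaf -/
def sh (P : CoS k X T) : Sh k X :=
  Data.sh
    { M := fun U => ModuleCat.of k (Dual k (P.A U))
      r := fun h => (Submodule.inclusion (P.mono h)).dualMap
      r_self := fun _ _ => rfl
      r_r := fun _ _ _ => rfl
      loc := fun U s hs => LinearMap.ext fun u => by
        refine P.ind (p := fun v => ∃ hv : v ∈ P.A U, (s : Dual k (P.A U)) ⟨v, hv⟩ = 0)
          (Q := fun V => ∃ hV : V ≤ U, (Submodule.inclusion (P.mono hV)).dualMap s = 0)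
          ⟨zero_mem _, map_zero _⟩ ?_ (fun x hx => ?_) ?_ u.2 |>.2
        · rintro v w ⟨hv, h1⟩ ⟨hw, h2⟩
          exact ⟨add_mem hv hw, (map_add (s : Dual k (P.A U)) ⟨v, hv⟩ ⟨w, hw⟩).trans
            (by rw [h1, h2, add_zero])⟩
        · obtain ⟨V, hV, h1, h2⟩ := hs x hx
          exact ⟨V, h1, hV, h2⟩
        · rintro V ⟨hV, h1⟩ v hv hv'
          exact ⟨hv', LinearMap.congr_fun h1 ⟨v, hv⟩⟩
      gl := fun V s hs => by
        choose S hS using fun i => LinearMap.exists_extend (s i : Dual k (P.A (V i)))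
        have h1 : ∀ i u (hu : u ∈ P.A (V i)), S i u = (s i : Dual k (P.A (V i))) ⟨u, hu⟩ :=
          fun i u hu => LinearMap.congr_fun (hS i) ⟨u, hu⟩
        obtain ⟨L, hL⟩ := P.glue V S fun i j u hu => by
          rw [h1 i u (P.mono inf_le_left hu), h1 j u (P.mono inf_le_right hu)]
          exact LinearMap.congr_fun (hs i j) ⟨u, hu⟩
        exact ⟨L ∘ₗ Submodule.subtype _, fun i => LinearMap.ext fun u =>
          (hL i u u.2).trans (h1 i u u.2)⟩ }

/-- sections of the dual sheaf are linear forms -/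
def ev (P : CoS k X T) {U : Opens X} (s : sec P.sh U) : Dual k (P.A U) := s

/-- linear forms are sections of the dual sheaf -/
def mk' (P : CoS k X T) {U : Opens X} (s : Dual k (P.A U)) : sec P.sh U := s

variable {P : CoS k X T} {P' : CoS k X T'} {P'' : CoS k X T''} {U V : Opens X}

@[simp] theorem ev_mk' (s : Dual k (P.A U)) : P.ev (P.mk' s) = s := rfl

@[simp] theorem ev_zero : P.ev (0 : sec P.sh U) = 0 := rfl

@[simp] theorem ev_add (s t : sec P.sh U) : P.ev (s + t) = P.ev s + P.ev t := rfl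

@[simp] theorem ev_sub (s t : sec P.sh U) : P.ev (s - t) = P.ev s - P.ev t := rfl

@[simp] theorem ev_neg (s : sec P.sh U) : P.ev (-s) = -P.ev s := rfl

@[simp] theorem ev_smul (c : k) (s : sec P.sh U) : P.ev (c • s) = c • P.ev s := rfl

theorem sec_ext {s t : sec P.sh U} (h : ∀ u hu, P.ev s ⟨u, hu⟩ = P.ev t ⟨u, hu⟩) : s = t :=
  LinearMap.ext fun u => h u.1 u.2

theorem ev_res (h : V ≤ U) (s : sec P.sh U) (u : T) (hu : u ∈ P.A V) :
    P.ev (res P.sh h s) ⟨u, hu⟩ = P.ev s ⟨u, P.mono h hu⟩ := rfl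

theorem flq (P : CoS k X T) : Flq P.sh := fun _ _ h =>
  LinearMap.dualMap_surjective_of_injective (Submodule.inclusion_injective (P.mono h))

theorem isZero (h : P.A ⊤ = ⊥) : IsZero P.sh := by
  rw [IsZero.iff_id_eq_zero]
  refine hom_ext fun U s => sec_ext fun u hu => ?_
  obtain rfl : u = 0 := (h ▸ P.mono le_top hu : u ∈ (⊥ : Submodule k T))
  exact (map_zero _).trans (map_zero _).symm

/-- the transpose of a linear map -/
def hom (P : CoS k X T) (P' : CoS k X T') (φ : T' →ₗ[k] T)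
    (h : ∀ U, ∀ u ∈ P'.A U, φ u ∈ P.A U) : P.sh ⟶ P'.sh :=
  mkHom (fun U => (φ.restrict (h U)).dualMap) fun _ _ _ _ => rfl

theorem ev_hom {φ : T' →ₗ[k] T} (h : ∀ U, ∀ u ∈ P'.A U, φ u ∈ P.A U) (s : sec P.sh U) (u : T')
    (hu : u ∈ P'.A U) : P'.ev (app (hom P P' φ h) U s) ⟨u, hu⟩ = P.ev s ⟨φ u, h U u hu⟩ := rfl

/-- the direct image -/
def push (P : CoS k X T) (f : X ⟶ Y) : CoS k Y T where
  A V := P.A ((Opens.map f).obj V)
  mono h := P.mono fun _ hx => h hx
  inf _ _ := P.inf _ _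
  sup V := (P.mono fun x hx => Opens.mem_iSup.2
    ((Opens.mem_iSup (x := f x) (s := V)).1 hx)).trans (P.sup fun i => (Opens.map f).obj (V i))

theorem push_sh (P : CoS k X T) (f : X ⟶ Y) : (P275S.push k f).obj P.sh = (P.push f).sh := rfl

/-- intersection with the fixed points of a projector -/
def fix (P : CoS k X T) (p : Module.End k T) (h : ∀ U, ∀ u ∈ P.A U, p u ∈ P.A U)
    (hp : ∀ u, p (p u) = p u) : CoS k X T where
  A U := P.A U ⊓ LinearMap.eqLocus p LinearMap.id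
  mono h := inf_le_inf_right _ (P.mono h)
  inf U V _ hu := ⟨P.inf U V ⟨hu.1.1, hu.2.1⟩, hu.1.2⟩
  sup V u hu := by
    rw [← show p u = u from hu.2]
    exact Submodule.iSup_induction _ (motive := fun u => p u ∈ _) (P.sup V hu.1)
      (fun i u hi => Submodule.mem_iSup_of_mem i ⟨h _ u hi, hp u⟩) (by simp)
      fun u v h1 h2 => by rw [map_add]; exact add_mem h1 h2

/-- finite products -/
def pi {ι : Type} [Finite ι] {S : ι → Type} [∀ i, AddCommGroup (S i)] [∀ i, Module k (S i)]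
    (P : ∀ i, CoS k X (S i)) : CoS k X (∀ i, S i) where
  A U := Submodule.pi Set.univ fun i => (P i).A U
  mono h _ hu i hi := (P i).mono h (hu i hi)
  inf U V _ hu i hi := (P i).inf U V ⟨hu.1 i hi, hu.2 i hi⟩
  sup V u hu := by
    classical
    have := Fintype.ofFinite ι
    rw [← Finset.univ_sum_single u]
    refine Submodule.sum_mem _ fun i _ => ?_
    refine Submodule.iSup_induction _ (motive := fun v => Pi.single i v ∈ _)
      ((P i).sup V (hu i trivial)) (fun j v hv => Submodule.mem_iSup_of_mem j fun l _ => ?_)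
      (by simp) fun u v h1 h2 => by rw [Pi.single_add]; exact add_mem h1 h2
    by_cases h : l = i
    · subst h
      rwa [Pi.single_eq_same]
    · rw [Pi.single_eq_of_ne h]
      exact zero_mem _

end CoS

variable (k X T) in
/-- complexes of cosheaves -/
structure CoC where
  P : ℤ → CoS k X T
  D : Module.End k T
  map : ∀ {i j}, i + 1 = j → ∀ U, ∀ u ∈ (P i).A U, D u ∈ (P j).A U
  sq : ∀ i U, ∀ u ∈ (P i).A U, D (D u) = 0

namespace CoC

/-- the dual complex: degree `m` is dual to degree `N - m` -/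
def cx (C : CoC k X T) (N : ℤ) : Cx k X where
  X m := (C.P (N - m)).sh
  d i j := if h : i + 1 = j then CoS.hom _ _ C.D (C.map (by omega)) else 0
  shape i j h := dif_neg h
  d_comp_d' i j l h h' := by
    rw [dif_pos (show i + 1 = j from h), dif_pos (show j + 1 = l from h')]
    refine hom_ext fun U s => CoS.sec_ext fun u hu => ?_
    rw [app_comp, CoS.ev_hom, CoS.ev_hom]
    exact (congrArg _ (Subtype.ext (C.sq _ U u hu))).trans (map_zero _)

variable {C : CoC k X T} {C' : CoC k X T'} {N N' i j : ℤ} {U : Opens X}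

theorem ev_d (h : i + 1 = j) (s : sec ((C.cx N).X i) U) (u : T) (hu : u ∈ (C.P (N - j)).A U) :
    (C.P (N - j)).ev (app ((C.cx N).d i j) U s) ⟨u, hu⟩ =
      (C.P (N - i)).ev s ⟨C.D u, C.map (by omega) U u hu⟩ := by
  rw [show (C.cx N).d i j = _ from dif_pos h]
  rfl

theorem d_eq_zero (h : i + 1 = j) {s : sec ((C.cx N).X i) U} :
    app ((C.cx N).d i j) U s = 0 ↔ ∀ u (hu : u ∈ (C.P (N - j)).A U),
      (C.P (N - i)).ev s ⟨C.D u, C.map (by omega) U u hu⟩ = 0 :=
  ⟨fun h0 u hu => by rw [← ev_d h s u hu, h0]; rfl,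
    fun h0 => CoS.sec_ext fun u hu => (ev_d h s u hu).trans (h0 u hu)⟩

theorem ex_d (h : i + 1 = j) {s : sec ((C.cx N).X j) U} :
    (∃ t, app ((C.cx N).d i j) U t = s) ↔ ∀ u (hu : u ∈ (C.P (N - j)).A U), C.D u = 0 →
      (C.P (N - j)).ev s ⟨u, hu⟩ = 0 := by
  refine ⟨?_, fun h0 => ?_⟩
  · rintro ⟨t, rfl⟩ u hu h0
    rw [ev_d h]
    exact (congrArg _ (Subtype.ext h0)).trans (map_zero _)
  · obtain ⟨t, ht⟩ := ex_dual C.D (C.map (show N - j + 1 = N - i by omega) U) _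
      fun u => h0 u.1 u.2
    exact ⟨(C.P _).mk' t, CoS.sec_ext fun u hu => (ev_d h _ u hu).trans (ht ⟨u, hu⟩)⟩

theorem flqC (C : CoC k X T) (N : ℤ) (h : ∃ b, ∀ i, b < i → (C.P i).A ⊤ = ⊥) : FlqC (C.cx N) := by
  obtain ⟨b, hb⟩ := h
  exact ⟨⟨N - b, (CochainComplex.isStrictlyGE_iff _ _).2 fun i hi =>
    CoS.isZero (hb _ (by omega))⟩, fun _ => CoS.flq _⟩

/-- the transpose of a chain map -/
def hom (C : CoC k X T) (C' : CoC k X T') (N N' : ℤ) (φ : T' →ₗ[k] T)
    (h : ∀ m U, ∀ u ∈ (C'.P (N' - m)).A U, φ u ∈ (C.P (N - m)).A U)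
    (hd : ∀ i U, ∀ u ∈ (C'.P i).A U, φ (C'.D u) = C.D (φ u)) : C.cx N ⟶ C'.cx N' where
  f m := CoS.hom _ _ φ (h m)
  comm' i j hij := hom_ext fun U s => CoS.sec_ext fun u hu =>
    (ev_d (C := C') hij (app (CoS.hom _ _ φ (h i)) U s) u hu).trans
      ((congrArg ((C.P (N - i)).ev s) (Subtype.ext (hd _ U u hu))).trans
        (ev_d hij s _ (h j U u hu)).symm)

theorem ev_hom {φ : T' →ₗ[k] T} (h) (hd) (s : sec ((C.cx N).X i) U) (u : T')
    (hu : u ∈ (C'.P (N' - i)).A U) :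
    (C'.P (N' - i)).ev (app ((hom C C' N N' φ h hd).f i) U s) ⟨u, hu⟩ =
      (C.P (N - i)).ev s ⟨φ u, h i U u hu⟩ := rfl

/-- the direct image -/
def push (C : CoC k X T) (f : X ⟶ Y) : CoC k Y T :=
  ⟨fun i => (C.P i).push f, C.D, fun h _ => C.map h _, fun i _ => C.sq i _⟩

/-- the direct image of the dual is the dual of the direct image -/
def pushIso (C : CoC k X T) (f : X ⟶ Y) (N : ℤ) : (pushC k f).obj (C.cx N) ≅ (C.push f).cx N :=
  HomologicalComplex.Hom.isoOfComponents (fun _ => Iso.refl _) fun _ _ h =>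
    hom_ext fun _ s => CoS.sec_ext fun u hu =>
      (ev_d (C := C.push f) h s u hu).trans (ev_d (C := C) h s u hu).symm

theorem app_pushIso (f : X ⟶ Y) (V : Opens Y) (s) :
    app ((C.pushIso f N).hom.f i) V s = s := rfl

theorem app_pushIso_inv (f : X ⟶ Y) (V : Opens Y) (s) :
    app ((C.pushIso f N).inv.f i) V s = s := rfl

/-- exactness over `U` in degree `i` -/
def Ex (C : CoC k X T) (i : ℤ) (U : Opens X) : Prop :=
  ∀ u ∈ (C.P i).A U, C.D u = 0 → ∃ v ∈ (C.P (i - 1)).A U, C.D v = u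

theorem Ex.dual (h : C.Ex (N - i) U) {s : sec ((C.cx N).X i) U}
    (hs : app ((C.cx N).d i (i + 1)) U s = 0) : ∃ t, app ((C.cx N).d (i - 1) i) U t = s :=
  (ex_d (by omega)).2 fun u hu h0 => by
    obtain ⟨v, hv, rfl⟩ := h u hu h0
    exact (d_eq_zero rfl).1 hs v (by rwa [← sub_sub])

theorem exAt {x : X} (h : ∀ U, x ∈ U → ∃ V ≤ U, x ∈ V ∧ C.Ex (N - i) V) : ExAt (C.cx N) i x :=
  fun U hx s hs => by
    obtain ⟨V, hV, h1, h2⟩ := h U hx
    exact ⟨V, hV, h1, h2.dual (by rw [app_res, hs, map_zero])⟩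

end CoC

/-- a criterion for resolutions of the constant sheaf -/
theorem qis_clsC {F : Cx k X} (c : sec (F.X 0) ⊤) (hc : app (F.d 0 (0 + 1)) ⊤ c = 0)
    (h1 : ∀ x n, n ≠ 0 → ExAt F n x) (h2 : F.d (0 - 1) 0 = 0)
    (h3 : ∀ U : Opens X, ∀ x ∈ U, res _ (le_top : U ≤ ⊤) c ≠ 0)
    (h4 : ∀ U : Opens X, ∀ x ∈ U, ∀ s : sec (F.X 0) U, app (F.d 0 (0 + 1)) U s = 0 →
      ∃ V, ∃ hV : V ≤ U, x ∈ V ∧ ∃ a : k, res _ hV s = a • res _ le_top c) :
    QuasiIso (clsC c hc) := by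
  obtain ⟨e, he⟩ : ∃ e : (cstAt k X 0).X 0 ≅ cst k X, (clsC c hc).f 0 = e.hom ≫ secHom c :=
    ⟨_, HomologicalComplex.mkHomFromSingle_f _ _⟩
  have hz : ∀ n, n ≠ 0 → IsZero ((cstAt k X 0).X n) := fun n hn =>
    HomologicalComplex.isZero_single_obj_X _ _ _ _ hn
  generalize clsC c hc = f at he
  generalize cstAt k X 0 = G at e hz f he
  have h5 : ∀ V : Opens X, app (secHom c) V (cstOne k V) = res _ le_top c := fun V => by
    rw [← res_cstOne (le_top : V ≤ ⊤), app_res, secHom_one]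
  refine (P275S.quasiIso_iff _).2 fun x n => ?_
  by_cases hn : n = 0
  · subst hn
    refine ⟨fun U hx s hs => ?_, fun U hx s _ t ht => ?_⟩
    · obtain ⟨V, hV, k1, a, k2⟩ := h4 U x hx s hs
      refine ⟨V, hV, k1, app e.inv V (a • cstOne k V), ?_, 0, ?_⟩
      · rw [(hz (0 + 1) (by simp)).eq_of_tgt (G.d 0 (0 + 1)) 0, app_zero]
      · rw [map_zero, add_zero, he, ← app_comp, Iso.inv_hom_id_assoc, map_smul, h5, k2]
    · obtain ⟨V, hV, k1, a, k2⟩ := exists_cst_eq (app e.hom U s) hx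
      rw [h2, app_zero, he, app_comp] at ht
      have k3 := congrArg (res _ hV) ht
      rw [map_zero, ← app_res, k2, map_smul, h5] at k3
      have k4 : a = 0 := (smul_eq_zero.1 k3.symm).resolve_right (h3 V x k1)
      refine ⟨V, hV, k1, 0, ?_⟩
      rw [k4, zero_smul, ← app_res] at k2
      rw [map_zero, ← app_id _ V (res _ hV s), ← e.hom_inv_id, app_comp, k2, map_zero]
  · refine ⟨fun U hx s hs => ?_, fun U hx s hs _ _ => exAt_of_isZero (hz n hn) x U hx s hs⟩
    obtain ⟨V, hV, k1, t, k2⟩ := h1 x n hn U hx s hs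
    exact ⟨V, hV, k1, 0, map_zero _, t, by rw [map_zero, zero_add, k2]⟩

end Vale.Agent.P275MC
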