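import Vale.Agent.P275MC.Cur
import Vale.Agent.P275AR.One

/-!
# P275, model of currents: the de Rham complex as a soft subcomplex of the complex of currents
-/

open scoped Manifold ContDiff Topology Matrix
open CategoryTheory TopologicalSpace P275S Module CochainComplex.HomComplex Set Filter MeasureTheory
open Vale.Agent.P272.K Vale.Agent.P272.K.INT Vale.Agent.P299.IX Vale.Agent.P299.IX.Fock
  Vale.Agent.P281Z.Hg Vale.Agent.P281Z.Hg.G1H Vale.Agent.P281Z.Hg.G2H Vale.Agent.P281Z.Hg.Pb1H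
open Vale.Agent.P275AR (Nb poincare)

noncomputable section

namespace Vale.Agent.P275MC

theorem Bq_sum {n : ℕ} (u v : Fk n) :
    Bq u v = ∑ I : FI n, (∏ i ∈ I, (-1 : ℂ) ^ i.val) * (u Iᶜ * v I) := by
  simp only [Bq, dotProduct, Matrix.mulVec, F1aH.hst_apply, Finset.mul_sum]
  rw [Finset.sum_comm]
  refine Finset.sum_congr rfl fun I _ => ?_
  rw [Finset.sum_eq_single Iᶜ (fun K _ h => by rw [if_neg h, zero_mul, mul_zero]) (by simp),
    if_pos rfl]
  ring

variable {d : ℕ} {M : Type} [TopologicalSpace M] [ChartedSpace (Cm d) M]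
  [IsManifold 𝓘(ℂ, Cm d) ω M] {a b : SF d M}

omit [IsManifold 𝓘(ℂ, Cm d) ω M] in
/-- forms which agree on the overlaps glue -/
theorem glue_forms (V : M → Set M) (hV : ∀ x, IsOpen (V x)) (hx : ∀ x, x ∈ V x) (b : M → SF d M)
    (h : ∀ x y z, z ∈ V x → z ∈ V y → b x - b y ∈ ZP z) :
    ∃ B : SF d M, ∀ x, ∀ z ∈ V x, B - b x ∈ ZP z := by
  have h1 : ∀ x y z e, z ∈ V x → z ∈ V y → At e z → vl (b x) e (e z) = vl (b y) e (e z) :=
    fun x y z e a1 a2 a3 => sub_eq_zero.1 (h x y z a1 a2 e a3)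
  obtain ⟨B, hB⟩ := mkf (fun e z => vl (b (e.symm z)) e z) (fun e x he =>
    ((vl_isF (b x)).sm e x he).congr_of_eventuallyEq (ev_at he (by
      filter_upwards [(hV x).mem_nhds (hx x)] with y hy he'
      rw [e.left_inv he'.2, h1 y x y e (hx y) hy he']))) fun e e' x he he' => by
    rw [e.left_inv he.2, e'.left_inv he'.2]
    exact (vl_isF (b x)).ch e e' x he he'
  refine ⟨B, fun x z hz e he => ?_⟩
  rw [vl_sub, hB e he.1 _ (e.map_source he.2), e.left_inv he.2, h1 z x z e (hx z) hz he, sub_self]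

variable [T2Space M]

theorem Qc_pj {j k : ℤ} (h : j + k = (d + d : ℕ)) (ha : a ∈ Ac d univ) (b : SF d M) :
    Qc d M (pj d M j a) b = Qc d M a (pj d M k b) :=
  Qc_op (opr_vl _) (fun e x hx u => by
    rw [Bq_sum, Bq_sum]
    refine Finset.sum_congr rfl fun I _ => ?_
    have h1 := I.card_add_card_compl
    rw [Fintype.card_fin] at h1
    rw [dgl_mulVec, pj_vl _ _ hx]
    by_cases h2 : (I.card : ℤ) = k
    · rw [if_pos h2, if_pos (by omega), one_mul]
    · rw [if_neg h2, if_neg (by omega),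
        zero_mul, zero_mul, mul_zero, mul_zero, mul_zero]) ha

/-- the pairing is nondegenerate -/
theorem Qc_nondeg {V : Set M} (hV : IsOpen V) (h : ∀ a ∈ Ac d V, Qc d M a b = 0) {x : M}
    (hx : x ∈ V) : b ∈ ZP x := fun e he => funext fun I => by
  obtain ⟨χ, c1, c2, c3, c4, -, c5⟩ :=
    ex_bump (d := d) (inter_mem (e.open_source.mem_nhds he.2) (hV.mem_nhds hx))
  have c6 := c3.trans inter_subset_left
  have h0 : ∀ z ∈ e.target, z ∉ e '' tsupport χ → χ (e.symm z) = 0 := fun z hz h =>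
    image_eq_zero_of_notMem_tsupport fun h1 => h ⟨_, h1, e.right_inv hz⟩
  obtain ⟨v, h1, h2⟩ := loc k1b' e (tsupport χ)
    (fun z => ((χ (e.symm z) : ℂ) * star (vl b e z I)) • ev Iᶜ) he.1 c2 c6 (fun z hz => by
      have k1 := c1 e _ (at_tg he.1 hz)
      have k2 := (vl_isF b).sm e _ (at_tg he.1 hz)
      rw [e.right_inv hz] at k1 k2
      exact (((Complex.ofRealCLM.contDiff.contDiffAt.comp _ k1).mul
        (C2.contDiffAt_conj (contDiffAt_pi.1 k2 I))).smul contDiffAt_const).contDiffWithinAt)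
    fun z hz h => by rw [h0 z hz h, Complex.ofReal_zero, zero_mul, zero_smul]
  let g : Cm d → ℝ := e.target.indicator fun z => χ (e.symm z) * ‖vl b e z I‖ ^ 2
  have h3 : ∀ z, Bq (vl v e z) (vl b e z) = (∏ i ∈ I, (-1 : ℂ) ^ i.val) * (g z : ℝ) := fun z => by
    by_cases hz : z ∈ e.target
    · rw [h1 z hz, Bq_smul_l, Bq_sum, Finset.sum_eq_single I (fun K _ hK => by
        rw [ev, Pi.single_eq_of_ne (compl_injective.ne hK), zero_mul, mul_zero]) (by simp)]
      simp only [g, indicator_of_mem hz, ev, Pi.single_eq_same, Complex.ofReal_mul,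
        Complex.ofReal_pow, ← Complex.conj_mul', Complex.star_def]
      ring
    · simp [g, (vl_isF v).off e z fun h2 => hz h2.2, Bq_zero_l, indicator_of_notMem hz]
  have h4 := cd_chart (g := g) c2 c6 (fun y hy =>
    ((c1 e y ⟨he.1, c6 hy⟩).mul ((contDiffAt_pi.1 ((vl_isF b).sm e y ⟨he.1, c6 hy⟩) I).norm_sq
      ℂ)).congr_of_eventuallyEq (mem_of_superset
      (e.open_target.mem_nhds (e.map_source (c6 hy))) fun z hz => indicator_of_mem hz _))
    fun z hz => by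
      by_cases h : z ∈ e.target
      · simp only [g, indicator_of_mem h, h0 z h hz, zero_mul]
      · exact indicator_of_notMem h _
  by_contra h5
  have h6 := h4.1.continuous.integral_pos_of_hasCompactSupport_nonneg_nonzero (μ := volume) h4.2
    (fun z => indicator_nonneg (fun _ _ => mul_nonneg (c4 _) (sq_nonneg _)) z) (x := e x) (by
      simp only [g, indicator_of_mem (e.map_source he.2), e.left_inv he.2, c5.self_of_nhds, one_mul]
      exact pow_ne_zero _ (norm_ne_zero_iff.2 h5))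
  have h7 := h v ⟨_, c2, c3.trans inter_subset_right, h2⟩
  rw [Qc_chart he.1 ⟨_, c2, c6, h2⟩] at h7
  simp only [h3, integral_const_mul, integral_complex_ofReal, mul_eq_zero, Complex.ofReal_eq_zero,
    Finset.prod_eq_zero_iff, pow_eq_zero_iff', neg_eq_zero, one_ne_zero, false_and, and_false,
    exists_false, false_or] at h7
  exact h6.ne' h7

variable {U V : Opens (TopCat.of M)} {i j m : ℤ}

theorem curOf_eq_zero (hb : b ∈ Dg d M m) : curOf m U b = 0 ↔ ∀ x ∈ U, b ∈ ZP x :=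
  ⟨fun h _ hx => Qc_nondeg U.2 (fun a ha => by
    rw [← pj_eq hb, ← Qc_pj (sub_add_cancel _ m) (Ac_mono (subset_univ _) ha),
      ← cv'_curOf b _ (pj_Am _ ha), h]
    rfl) hx, fun h => cur_ext fun u ⟨⟨_, h1, h2, h3⟩, _⟩ => Qc_zero h1 h3 fun x hx => h x (h2 hx)⟩

variable (d M) in
/-- currents which are locally given by smooth forms -/
def drS (m : ℤ) : SubData ((Cur d M).X m) where
  P U :=
    { carrier := {s | ∀ x ∈ U, ∃ V, ∃ hV : V ≤ U, x ∈ V ∧ ∃ b ∈ Dg d M m, res _ hV s = curOf m V b}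
      zero_mem' := fun _ hx => ⟨U, le_rfl, hx, 0, zero_mem _, by rw [map_zero, map_zero]⟩
      add_mem' := fun {s t} hs ht x hx => by
        obtain ⟨V, hV, h1, b, h2, h3⟩ := hs x hx
        obtain ⟨W, hW, k1, c, k2, k3⟩ := ht x hx
        refine ⟨V ⊓ W, inf_le_left.trans hV, ⟨h1, k1⟩, b + c, add_mem h2 k2, ?_⟩
        rw [map_add, map_add, ← res_res _ hV inf_le_left, h3, ← res_res _ hW inf_le_right t, k3]
        rfl
      smul_mem' := fun c s hs x hx => by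
        obtain ⟨V, hV, h1, b, h2, h3⟩ := hs x hx
        exact ⟨V, hV, h1, c • b, Submodule.smul_mem _ c h2, by rw [map_smul, map_smul, h3]⟩ }
  res_mem := fun {U W} h s hs x hx => by
    obtain ⟨V, hV, h1, b, h2, h3⟩ := hs x (h hx)
    refine ⟨W ⊓ V, inf_le_left, ⟨hx, h1⟩, b, h2, ?_⟩
    rw [res_res, ← res_res _ hV inf_le_right, h3]
    rfl
  loc := fun U s hs x hx => by
    obtain ⟨V, hV, h1, h2⟩ := hs x hx
    obtain ⟨W, hW, k1, b, k2, k3⟩ := h2 x h1
    exact ⟨W, hW.trans hV, k1, b, k2, by rw [← k3, res_res]⟩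

theorem drS_d (i j : ℤ) (U : Opens (TopCat.of M)) (s : sec (drS d M i).sh U) :
    app ((drS d M i).ι ≫ (Cur d M).d i j) U s ∈ (drS d M j).P U := by
  by_cases h : i + 1 = j
  · intro x hx
    obtain ⟨V, hV, h1, b, h2, h3⟩ := (drS d M i).ι_mem U s x hx
    exact ⟨V, hV, h1, -dd d M b, neg_mem (h ▸ dd_Dg h2), by
      rw [app_comp, ← app_res, h3, d_curOf h, map_neg]⟩
  · rw [(Cur d M).shape i j h, Limits.comp_zero, app_zero]
    exact zero_mem _

variable (d M) in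
/-- the de Rham complex -/
def DR : P275S.Cx ℂ (TopCat.of M) where
  X m := (drS d M m).sh
  d i j := (drS d M j).lift _ (drS_d i j)
  shape i j h := hom_ext fun U s => (drS d M j).ι_injective U (by
    rw [← app_comp, SubData.lift_ι, (Cur d M).shape i j h, Limits.comp_zero]
    rfl)
  d_comp_d' i j l _ _ := hom_ext fun U s => (drS d M l).ι_injective U (by
    rw [← app_comp, Category.assoc, SubData.lift_ι, ← Category.assoc, SubData.lift_ι,
      Category.assoc, HomologicalComplex.d_comp_d, Limits.comp_zero]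
    rfl)

variable (d M) in
/-- forms are currents -/
def ιDC : DR d M ⟶ Cur d M where
  f m := (drS d M m).ι
  comm' _ _ _ := rfl

theorem ιDC_inj (s t : sec ((DR d M).X m) U)
    (h : app ((ιDC d M).f m) U s = app ((ιDC d M).f m) U t) : s = t := (drS d M m).ι_injective U h

/-- the section defined by (the degree `m` part of) a form -/
def fm (m : ℤ) (U : Opens (TopCat.of M)) : SF d M →ₗ[ℂ] sec ((DR d M).X m) U :=
  LinearMap.codRestrict ((drS d M m).P U) (curOf m U ∘ₗ ((m.negOnePow : ℂ) • pj d M m))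
    fun b _ hx => ⟨U, le_rfl, hx, _, Submodule.smul_mem _ (m.negOnePow : ℂ) (pj_mem m b), rfl⟩

theorem ιDC_fm (b : SF d M) :
    app ((ιDC d M).f m) U (fm m U b) = curOf m U ((m.negOnePow : ℂ) • pj d M m b) := rfl

theorem res_fm (h : V ≤ U) (b : SF d M) : res _ h (fm m U b) = fm m V b := rfl

theorem fm_pj (b : SF d M) : fm m U (pj d M m b) = fm m U b :=
  ιDC_inj _ _ (by rw [ιDC_fm, ιDC_fm, pj_eq (pj_mem m b)])

theorem neg_sq (m : ℤ) : (m.negOnePow : ℂ) * (m.negOnePow : ℂ) = 1 := by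
  rw [← Int.cast_mul, ← Units.val_mul, Int.units_mul_self, Units.val_one, Int.cast_one]

theorem fm_eq_zero (hb : b ∈ Dg d M m) : fm m U b = 0 ↔ ∀ x ∈ U, b ∈ ZP x := by
  refine ⟨fun h x hx => ?_, fun h => ιDC_inj _ _ ?_⟩
  · have h1 := ιDC_fm (m := m) (U := U) b
    rw [h, map_zero, pj_eq hb] at h1
    have h2 := (ZP x).smul_mem (m.negOnePow : ℂ)
      ((curOf_eq_zero (Submodule.smul_mem _ _ hb)).1 h1.symm x hx)
    rwa [smul_smul, neg_sq, one_smul] at h2
  · rw [ιDC_fm, pj_eq hb, map_zero]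
    exact (curOf_eq_zero (Submodule.smul_mem _ _ hb)).2 fun x hx => (ZP x).smul_mem _ (h x hx)

theorem fm_congr (h : ∀ x ∈ U, a - b ∈ ZP x) : fm m U a = fm m U b := by
  rw [← sub_eq_zero, ← map_sub, ← fm_pj, fm_eq_zero (pj_mem m _)]
  exact fun x hx => op_ZP (opr_vl _) (h x hx)

theorem d_fm (h : i + 1 = j) (b : SF d M) :
    app ((DR d M).d i j) U (fm i U b) = fm j U (dd d M b) := ιDC_inj _ _ (by
  subst h
  rw [ιDC_fm, pj_dd, Int.negOnePow_succ, Units.val_neg, Int.cast_neg, neg_smul, map_neg,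
    ← map_smul, ← d_curOf rfl]
  rfl)

theorem ex_fm (s : sec ((DR d M).X m) U) {x : M} (hx : x ∈ U) :
    ∃ V, ∃ hV : V ≤ U, x ∈ V ∧ ∃ b ∈ Dg d M m, res _ hV s = fm m V b := by
  obtain ⟨V, hV, h1, b, h2, h3⟩ := (drS d M m).ι_mem U s x hx
  refine ⟨V, hV, h1, (m.negOnePow : ℂ) • b, Submodule.smul_mem _ _ h2, ιDC_inj _ _ ?_⟩
  rw [ιDC_fm, map_smul (pj d M m), pj_eq h2, smul_smul, neg_sq, one_smul, ← h3]
  rfl

/-- global sections are forms -/
theorem fm_surj (s : sec ((DR d M).X m) ⊤) : ∃ b ∈ Dg d M m, fm m ⊤ b = s := by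
  choose V hV h1 b h2 h3 using fun x : M => ex_fm s (x := x) trivial
  obtain ⟨B, hB⟩ := glue_forms (fun x => V x) (fun x => (V x).2) h1 b fun x y z a1 a2 =>
    (fm_eq_zero (U := V x ⊓ V y) (sub_mem (h2 x) (h2 y))).1 (by
      rw [map_sub, ← res_fm inf_le_left, ← h3, ← res_fm inf_le_right (b y), ← h3, res_res, res_res,
        sub_self]) z ⟨a1, a2⟩
  exact ⟨_, pj_mem m B, loc_ext _ _ _ fun x _ => ⟨V x, hV x, h1 x, by
    rw [fm_pj, res_fm, h3, fm_congr (hB x)]⟩⟩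

/-- sections near a compact set are forms -/
theorem ex_fm_cpt (s : sec ((DR d M).X m) U) {K : Set M} (hK : IsCompact K) (hU : K ⊆ U) :
    ∃ b ∈ Am d m (U : Set M), ∃ V, ∃ hV : V ≤ U, K ⊆ V ∧ res _ hV s = fm m V b := by
  choose V hV h1 b h2 h3 using fun x : U => ex_fm s x.2
  obtain ⟨P, hP⟩ := ex_PU (d := d) (V := fun x : U => (V x : Set M)) (fun x => (V x).2) hK
    fun x hx => mem_iUnion.2 ⟨⟨x, hU hx⟩, h1 _⟩
  refine ⟨∑ j, mu (P.sm j) (b (P.ix j)), Submodule.sum_mem _ fun j _ =>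
    ⟨Ac_mono (hV _) (P.mem j _), mu_Dg _ (h2 _)⟩,
    U ⊓ ⟨interior {y | ∑ j, P.ρ j y = 1}, isOpen_interior⟩, inf_le_left,
    fun x hx => ⟨hU hx, mem_interior_iff_mem_nhds.2 (hP x hx)⟩, loc_ext _ _ _ fun x hx => ?_⟩
  obtain ⟨W, hW, k1, c, k2, k3⟩ := ex_fm (res _ inf_le_left s) hx
  refine ⟨W, hW, k1, ?_⟩
  rw [k3, res_fm]
  refine fm_congr fun y hy e he => ?_
  have k4 : ∀ j, (P.ρ j y : ℂ) • vl (b (P.ix j)) e (e y) = (P.ρ j y : ℂ) • vl c e (e y) :=
    fun j => by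
      by_cases h : y ∈ V (P.ix j)
      · have k5 := (fm_eq_zero (U := V (P.ix j) ⊓ W) (sub_mem (h2 _) k2)).1 (by
          rw [map_sub, ← res_fm inf_le_left, ← h3, ← res_fm inf_le_right c, ← k3, res_res,
            res_res, res_res, sub_self]) y ⟨h, hy⟩ e he
        rw [vl_sub, sub_eq_zero] at k5
        rw [k5]
      · rw [image_eq_zero_of_notMem_tsupport fun h4 => h (P.sp j h4), Complex.ofReal_zero,
          zero_smul, zero_smul]
  simp only [vl_sub, vl_sum, mu_vl _ _ he, k4, ← Finset.sum_smul, ← Complex.ofReal_sum]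
  rw [show ∑ j, P.ρ j y = 1 from interior_subset (s := {y | ∑ j, P.ρ j y = 1}) (hW hy).2,
    Complex.ofReal_one, one_smul, sub_self]

theorem isZero_DR (h : m < 0 ∨ (d + d : ℕ) < m) : Limits.IsZero ((DR d M).X m) := by
  rw [Limits.IsZero.iff_id_eq_zero]
  refine hom_ext fun U s => ιDC_inj _ _ ?_
  rw [(isZero_Cur h).eq_of_tgt ((ιDC d M).f m) 0]
  rfl

theorem softC_DR : SoftC (DR d M) :=
  ⟨⟨0, (CochainComplex.isStrictlyGE_iff _ _).2 fun _ hi => isZero_DR (Or.inl hi)⟩,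
    fun m K hK U hU s => by
      obtain ⟨b, -, V, hV, h1, h2⟩ := ex_fm_cpt s hK hU
      exact ⟨fm m ⊤ b, V, hV, h1, h2.symm⟩⟩

theorem supp_fm (hb : b ∈ Dg d M m) {x : M} : x ∉ supp (fm m ⊤ b) ↔ b ∈ Nb x := by
  rw [not_mem_supp (U := ⊤) trivial]
  refine ⟨fun ⟨V, _, h1, h2⟩ => mem_of_superset (V.2.mem_nhds h1) ((fm_eq_zero hb).1 h2),
    fun h => ?_⟩
  obtain ⟨V, h1, h2, h3⟩ := mem_nhds_iff.1 h
  exact ⟨⟨V, h2⟩, le_top, h3, (fm_eq_zero hb).2 h1⟩

theorem fm_mem_cpt (hb : b ∈ Dg d M m) : fm m ⊤ b ∈ cpt ((DR d M).X m) U ↔ b ∈ Ac d (U : Set M) :=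
  ⟨fun ⟨K, h1, h2, h3⟩ => ⟨K, h1, h2, fun _ hx =>
      P275AR.Nb_ZP ((supp_fm hb).1 fun h => hx (h3 h))⟩,
    fun ⟨K, h1, h2, h3⟩ => ⟨K, h1, h2, fun x hx => by
      by_contra h
      exact (supp_fm hb).2 (mem_of_superset (h1.isClosed.isOpen_compl.mem_nhds h) h3) hx⟩⟩

theorem dr_hom_ext {G : Sh ℂ (TopCat.of M)} {φ ψ : (DR d M).X m ⟶ G}
    (h : ∀ b ∈ Dg d M m, app φ ⊤ (fm m ⊤ b) = app ψ ⊤ (fm m ⊤ b)) : φ = ψ :=
  hom_ext fun U s => loc_ext G _ _ fun x hx => by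
    obtain ⟨V, hV, h1, b, h2, h3⟩ := ex_fm s hx
    exact ⟨V, hV, h1, by
      rw [← app_res, ← app_res, h3, ← res_fm (le_top : V ≤ ⊤), app_res, app_res, h b h2]⟩

/-- morphisms out of the sheaf of forms are given by local operators -/
theorem ex_lift {G : Sh ℂ (TopCat.of M)} (Φ : SF d M →ₗ[ℂ] sec G ⊤)
    (h : ∀ V : Opens (TopCat.of M), ∀ b ∈ Dg d M m, (∀ x ∈ V, b ∈ ZP x) →
      res G (le_top : V ≤ ⊤) (Φ b) = 0) :
    ∃ φ : (DR d M).X m ⟶ G, ∀ b ∈ Dg d M m, app φ ⊤ (fm m ⊤ b) = Φ b := by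
  have h0 : ∀ V : Opens (TopCat.of M), ∀ b ∈ Dg d M m, ∀ c ∈ Dg d M m, fm m V b = fm m V c →
      res G (le_top : V ≤ ⊤) (Φ b) = res G le_top (Φ c) := fun V b hb c hc e => by
    rw [← sub_eq_zero, ← map_sub, ← map_sub]
    exact h V _ (sub_mem hb hc) ((fm_eq_zero (sub_mem hb hc)).1 (by rw [map_sub, e, sub_self]))
  have h1 : ∀ U (s : sec ((DR d M).X m) U), ∃ t : sec G U, ∀ V (hV : V ≤ U), ∀ b ∈ Dg d M m,
      res _ hV s = fm m V b → res G hV t = res G le_top (Φ b) := fun U s => by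
    choose V hV k1 b k2 k3 using fun x : U => ex_fm s x.2
    obtain ⟨t, ht⟩ := P275S.glue G V U hV (fun x hx => Opens.mem_iSup.2 ⟨⟨x, hx⟩, k1 _⟩)
      (fun x => res G le_top (Φ (b x))) fun x y => by
        rw [res_res, res_res]
        refine h0 _ _ (k2 x) _ (k2 y) ?_
        rw [← res_fm inf_le_left, ← k3, ← res_fm inf_le_right (b y), ← k3, res_res, res_res]
    refine ⟨t, fun W hW c hc e => loc_ext G _ _ fun x hx =>
      ⟨W ⊓ V ⟨x, hW hx⟩, inf_le_left, ⟨hx, k1 _⟩, ?_⟩⟩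
    rw [res_res, ← res_res G (hV ⟨x, hW hx⟩) inf_le_right, ht, res_res, res_res]
    refine h0 _ _ (k2 _) _ hc ?_
    rw [← res_fm inf_le_right, ← k3, ← res_fm inf_le_left c, ← e, res_res, res_res]
  choose t ht using h1
  refine ⟨mkHom (fun U =>
    { toFun := t U
      map_add' := fun f g => loc_ext G _ _ fun x hx => ?_
      map_smul' := fun c f => loc_ext G _ _ fun x hx => ?_ }) fun U V hV f =>
      loc_ext G _ _ fun x hx => ?_, fun b hb => ?_⟩
  · obtain ⟨V, hV, k1, a, k2, k3⟩ := ex_fm f hx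
    obtain ⟨W, hW, l1, b, l2, l3⟩ := ex_fm (res _ hV g) k1
    have k4 : res _ (hW.trans hV) f = fm m W a := by rw [← res_res _ hV hW, k3, res_fm]
    rw [res_res] at l3
    refine ⟨W, hW.trans hV, l1, ?_⟩
    rw [map_add, ht _ f _ _ a k2 k4, ht _ g _ _ b l2 l3, ht _ (f + g) _ _ (a + b) (add_mem k2 l2)
      (by rw [map_add, k4, l3, map_add]), map_add, map_add]
  · obtain ⟨V, hV, k1, a, k2, k3⟩ := ex_fm f hx
    refine ⟨V, hV, k1, ?_⟩
    rw [RingHom.id_apply, map_smul, ht _ f _ _ a k2 k3, ht _ (c • f) _ _ (c • a)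
      (Submodule.smul_mem _ c k2) (by rw [map_smul, k3, map_smul]), map_smul, map_smul]
  · obtain ⟨W, hW, k1, a, k2, k3⟩ := ex_fm (res _ hV f) hx
    refine ⟨W, hW, k1, ?_⟩
    change res G hW (t V _) = res G hW (res G hV (t U f))
    rw [ht _ _ _ _ a k2 k3, res_res, ht _ f _ _ a k2 (by rw [← k3, res_res])]
  · exact (res_self G le_rfl _).symm.trans
      ((ht ⊤ _ ⊤ le_rfl b hb (res_self _ _ _)).trans (res_self _ _ _))

variable (d M) in
/-- the function `1` -/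
def dr1 : sec ((DR d M).X 0) ⊤ := fm 0 ⊤ (one d M)

theorem dr1_d : app ((DR d M).d 0 (0 + 1)) ⊤ (dr1 d M) = 0 := by
  rw [dr1, d_fm rfl, dd_one, map_zero]

variable (d M) in
/-- the augmentation -/
def ιDR : cstAt ℂ (TopCat.of M) 0 ⟶ DR d M := clsC (dr1 d M) dr1_d

theorem dr_poincare {x : M} (hx : x ∈ U) (s : sec ((DR d M).X m) U)
    (hs : app ((DR d M).d m (m + 1)) U s = 0) : ∃ V, ∃ hV : V ≤ U, x ∈ V ∧ ∃ (w : SF d M) (c : ℂ),
      res _ hV s = fm m V (dd d M w) + c • fm m V (one d M) := by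
  obtain ⟨V, hV, h1, b, h2, h3⟩ := ex_fm s hx
  have h4 := (fm_eq_zero (U := V) (dd_Dg h2)).1 (by rw [← d_fm rfl, ← h3, app_res, hs, map_zero])
  obtain ⟨w, c, h5⟩ := poincare (u := b) (x := x) (mem_of_superset (V.2.mem_nhds h1) h4)
  obtain ⟨W, k1, k2, k3⟩ := mem_nhds_iff.1 h5
  refine ⟨V ⊓ ⟨W, k2⟩, inf_le_left.trans hV, ⟨h1, k3⟩, w, c, ?_⟩
  rw [← res_res _ hV inf_le_left, h3, res_fm, ← map_smul, ← map_add]
  refine (fm_congr fun y hy => ?_).symm
  rw [add_sub_right_comm]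
  exact k1 hy.2

/-- forms resolve the constant sheaf -/
instance qis_DR : QuasiIso (ιDR d M) := by
  refine qis_clsC (dr1 d M) dr1_d (fun x n hn U hx s hs => ?_)
    ((isZero_DR (Or.inl (by simp))).eq_of_src _ _) (fun U x hx h => ?_) fun U x hx s hs => ?_
  · obtain ⟨V, hV, h1, w, c, h2⟩ := dr_poincare hx s hs
    refine ⟨V, hV, h1, fm _ V w, ?_⟩
    rw [d_fm (sub_add_cancel n 1), h2, ← fm_pj (one d M), pj_ne one_Dg hn, map_zero, smul_zero,
      add_zero]
  · have h1 := congrFun ((fm_eq_zero one_Dg).1 h x hx _ (ca x)) ∅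
    rw [one_vl _ x (ca x)] at h1
    simp [ev] at h1
  · obtain ⟨V, hV, h1, w, c, h2⟩ := dr_poincare hx s hs
    refine ⟨V, hV, h1, c, ?_⟩
    have h3 := pj_dd (-1) w
    rw [neg_add_cancel, (Dg_neg (by simp)).le (pj_mem (-1) w), map_zero] at h3
    rw [h2, ← fm_pj (dd d M w), h3, map_zero, zero_add]
    rfl

end Vale.Agent.P275MC
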