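import Vale.Agent.P281Z.Hg.G2
import Vale.Agent.P281Z.Hg.K1b
import Vale.Agent.P281Z.Hg.Pb1

/-!
# P275, model of currents: forms with compact support on a complex manifold (definitions)

The manifold is not assumed to be compact.
-/

open scoped Manifold ContDiff Topology Matrix
open Filter MeasureTheory Set
open Vale.Agent.P272.K Vale.Agent.P272.K.C2 Vale.Agent.P272.K.INT Vale.Agent.P299.IX
  Vale.Agent.P299.IX.Fock Vale.Agent.P281Z.Hg Vale.Agent.P281Z.Hg.G1H Vale.Agent.P281Z.Hg.G2H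
  Vale.Agent.P281Z.Hg.Pb1H

noncomputable section

namespace Vale.Agent.P275MC

theorem ka : K1a := k1a f1a f1b

variable {d : ℕ} {M : Type} [TopologicalSpace M] [ChartedSpace (Cm d) M]

variable (d) in
/-- forms vanishing off `K` -/
def Sp (K : Set M) : Submodule ℂ (SF d M) where
  carrier := {u | ∀ x, x ∉ K → u ∈ ZP x}
  add_mem' ha hb x hx := (ZP x).add_mem (ha x hx) (hb x hx)
  zero_mem' x _ := (ZP x).zero_mem
  smul_mem' c _ ha x hx := (ZP x).smul_mem c (ha x hx)

variable (d) in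
/-- forms with compact support in `V` -/
def Ac (V : Set M) : Submodule ℂ (SF d M) where
  carrier := {u | ∃ K, IsCompact K ∧ K ⊆ V ∧ u ∈ Sp d K}
  add_mem' := by
    rintro a b ⟨K, h1, h2, h3⟩ ⟨K', k1, k2, k3⟩
    exact ⟨K ∪ K', h1.union k1, union_subset h2 k2, fun x hx =>
      (ZP x).add_mem (h3 x fun h => hx (Or.inl h)) (k3 x fun h => hx (Or.inr h))⟩
  zero_mem' := ⟨∅, isCompact_empty, empty_subset _, (Sp d ∅).zero_mem⟩
  smul_mem' := by
    rintro c a ⟨K, h1, h2, h3⟩
    exact ⟨K, h1, h2, (Sp d K).smul_mem c h3⟩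

variable (d M) in
/-- forms of degree `k` -/
def Dg (k : ℤ) : Submodule ℂ (SF d M) where
  carrier := {u | ∀ e z (I : FI (d + d)), (I.card : ℤ) ≠ k → vl u e z I = 0}
  add_mem' := fun {a b} ha hb e z I h => by
    rw [vl_add, Pi.add_apply, ha e z I h, hb e z I h, add_zero]
  zero_mem' _ _ _ _ := rfl
  smul_mem' c a ha e z I h := by rw [vl_smul, Pi.smul_apply, ha e z I h, smul_zero]

variable (d) in
/-- forms of degree `k` with compact support in `V` -/
def Am (k : ℤ) (V : Set M) : Submodule ℂ (SF d M) := Ac d V ⊓ Dg d M k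

/-- the operator given by a smooth field of endomorphisms -/
def opr (F : Rw d M (Fm d)) (hF : CovF F) : Module.End ℂ (SF d M) := (op F hF).choose

theorem opr_vl {F : Rw d M (Fm d)} (hF : CovF F) : IsOp F (opr F hF) := (op F hF).choose_spec

theorem cov_fn {ρ : M → ℝ} (hρ : SmoothFn (n := d) ρ) :
    CovF (d := d) (M := M) fun e z => (ρ (e.symm z) : ℂ) • (1 : Fm d) :=
  ⟨fun e x h _ _ => (Complex.ofRealCLM.contDiff.contDiffAt.comp _ (hρ e x h)).mul
    contDiffAt_const, fun e e' x h h' => by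
      rw [e.left_inv h.2, e'.left_inv h'.2, Matrix.smul_mul, Matrix.mul_smul, one_mul, mul_one]⟩

theorem cov_wg (y : SF d M) : CovF fun e z => wg (vl y e z) :=
  ⟨fun e x h I J => by
      simp only [f1a.wg_apply (vl y e _)]
      exact ContDiffAt.sum fun K _ => contDiffAt_const.mul
        (contDiffAt_pi.1 ((vl_isF y).sm e x h) K),
    fun e e' x h h' => by
      rw [(vl_isF y).ch e e' x h h']
      exact (f1a.lr_wg _ _).symm⟩

theorem cov_dgl (c : ℕ → ℂ) : CovF (d := d) (M := M) fun _ _ => dgl c :=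
  ⟨fun _ _ _ => MC_const _ _, fun _ _ _ _ _ => dgl_lam c _⟩

/-- multiplication by a smooth function -/
def mu {ρ : M → ℝ} (hρ : SmoothFn (n := d) ρ) : Module.End ℂ (SF d M) := opr _ (cov_fn hρ)

/-- exterior multiplication on the left -/
def wd (y : SF d M) : Module.End ℂ (SF d M) := opr _ (cov_wg y)

variable (d M) in
/-- the projection on the degree `k` -/
def pj (k : ℤ) : Module.End ℂ (SF d M) := opr _ (cov_dgl fun q => if (q : ℤ) = k then 1 else 0)

variable (d M) in
/-- the parity operator -/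
def pr : Module.End ℂ (SF d M) := opr _ (cov_dgl fun q => (-1) ^ q)

theorem ex_one : ∃ u : SF d M, IsOne u :=
  (mkf (fun _ _ => ev ∅) (fun _ _ _ => contDiffAt_const) fun _ _ _ _ _ =>
    (lam_ev_empty _).symm).imp fun _ hv e _ h => hv e h.1 _ (e.map_source h.2)

variable (d M) in
/-- the constant function `1` -/
def one : SF d M := ex_one.choose

theorem one_vl : IsOne (one d M) := ex_one.choose_spec

variable {e : Chart d M} {x : M}

theorem mu_vl {ρ : M → ℝ} (hρ : SmoothFn (n := d) ρ) (u : SF d M) (h : At e x) :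
    vl (mu hρ u) e (e x) = (ρ x : ℂ) • vl u e (e x) := by
  rw [mu, opr_vl _ u e x h, e.left_inv h.2, Matrix.smul_mulVec, Matrix.one_mulVec]

theorem wd_vl (y u : SF d M) (h : At e x) :
    vl (wd y u) e (e x) = wg (vl y e (e x)) *ᵥ vl u e (e x) := opr_vl (cov_wg y) u e x h

theorem pj_vl (k : ℤ) (u : SF d M) (h : At e x) (I : FI (d + d)) :
    vl (pj d M k u) e (e x) I = if (I.card : ℤ) = k then vl u e (e x) I else 0 := by
  rw [pj, opr_vl _ u e x h, dgl_mulVec]
  split_ifs <;> simp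

theorem pr_vl (u : SF d M) (h : At e x) : vl (pr d M u) e (e x) = par *ᵥ vl u e (e x) :=
  opr_vl (cov_dgl _) u e x h

variable [IsManifold 𝓘(ℂ, Cm d) ω M]

theorem ex_dd : ∃ D : Module.End ℂ (SF d M), ∀ u e x, At e x →
    vl (D u) e (e x) = dT (vl u e) (e x) := by
  have h1 : ∀ u : SF d M, ∃ v : SF d M, ∀ e x, At e x → vl v e (e x) = dT (vl u e) (e x) :=
    fun u => (mkf (fun e => dT (vl u e)) (fun e x he => ka.smooth ((vl_isF u).sm e x he))
      fun e e' x he he' => by
        have h2 := k1b'.nat (u := vl u e') (tr_sm he he')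
          (by rw [e.left_inv he.2]; exact (vl_isF u).sm e' x he')
        rw [pbk, e.left_inv he.2] at h2
        refine (ka.congr (ev_at he ?_)).trans h2
        filter_upwards [e'.open_source.mem_nhds he'.2] with y hy h3
        rw [pbk, e.left_inv h3.2]
        exact (vl_isF u).ch e e' y h3 ⟨he'.1, hy⟩).imp
      fun v hv e x he => hv e he.1 _ (e.map_source he.2)
  choose D hD using h1
  refine ⟨⟨⟨D, fun u v => ext' fun e x he => ?_⟩, fun c u => ext' fun e x he => ?_⟩, hD⟩
  · rw [vl_add, hD _ e x he, hD _ e x he, hD _ e x he]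
    exact ka.add (dif u he) (dif v he)
  · rw [vl_smul, hD _ e x he, hD _ e x he]
    exact ka.smul c (dif u he)

variable (d M) in
/-- the exterior derivative -/
def dd : Module.End ℂ (SF d M) := ex_dd.choose

theorem dd_vl (u : SF d M) (h : At e x) : vl (dd d M u) e (e x) = dT (vl u e) (e x) :=
  ex_dd.choose_spec u e x h

variable {d' : ℕ} {M' : Type} [TopologicalSpace M'] [ChartedSpace (Cm d') M']
  [IsManifold 𝓘(ℂ, Cm d') ω M'] {f : M → M'}

theorem isPb_of (hf : Smo d d' f) (T : SF d' M' → SF d M) (h : ∀ u x, ∃ e c, At e x ∧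
    At c (f x) ∧ vl (T u) e (e x) = pv f u e c x) : IsPb f T := fun u e c x hx hc => by
  obtain ⟨e₂, c₂, a1, a2, a3⟩ := h u x
  rw [(vl_isF (T u)).ch e e₂ x hx a1, a3, ← pv_left f1a k1b' hf u hx a1 a2]
  exact pv_right f1a k1b' hf u hx a2 hc

theorem ex_pb (hf : Smo d d' f) : ∃ T : SF d' M' →ₗ[ℂ] SF d M, IsPb f T := by
  have h1 : ∀ u : SF d' M', ∃ v : SF d M, ∀ e x, At e x →
      vl v e (e x) = pv f u e (chartAt (Cm d') (f x)) x := fun u => by
    obtain ⟨v, hv⟩ := mkf (fun e z => pv f u e (chartAt (Cm d') (f (e.symm z))) (e.symm z))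
      (fun e x hx => by
        refine (k1b'.pbk_smooth (hf.sm e _ x hx (ca (f x)))
          (vl_sm u hx (ca (f x)))).congr_of_eventuallyEq ?_
        filter_upwards [near hf.cont hx (ca (d := d') (f x))] with z hz
        rw [← pv_symm u hz.1]
        exact pv_right f1a k1b' hf u hz.2.1 (ca _) hz.2.2) fun e e₂ x hx hx₂ => by
      rw [e.left_inv hx.2, e₂.left_inv hx₂.2]
      exact pv_left f1a k1b' hf u hx hx₂ (ca _)
    exact ⟨v, fun e x hx => by rw [hv e hx.1 _ (e.map_source hx.2), e.left_inv hx.2]⟩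
  choose T hT using h1
  refine ⟨⟨⟨T, fun u v => ext' fun e x hx => ?_⟩, fun c u => ext' fun e x hx => ?_⟩,
    isPb_of hf T fun u x => ⟨_, _, ca x, ca (f x), hT u _ x (ca x)⟩⟩
  · rw [vl_add, hT _ e x hx, hT _ e x hx, hT _ e x hx, pv, vl_add, Matrix.mulVec_add]
    rfl
  · rw [vl_smul, hT _ e x hx, hT _ e x hx, pv, vl_smul, Matrix.mulVec_smul]
    rfl

/-- the pull-back of forms along a smooth map -/
def pb (hf : Smo d d' f) : SF d' M' →ₗ[ℂ] SF d M := (ex_pb hf).choose

theorem pb_vl (hf : Smo d d' f) : IsPb f (pb hf) := (ex_pb hf).choose_spec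

end Vale.Agent.P275MC
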