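import Vale.Agent.P275MC.Gk
import Vale.Agent.P275KU.Cr
import Vale.Agent.P275S.Htpy

/-!
# P275, model of currents: integration along the fibres
-/

open scoped Manifold ContDiff Topology
open CategoryTheory TopologicalSpace P275S Module Set
open Vale.Agent.P272.K Vale.Agent.P272.K.Prod Vale.Agent.P281Z Vale.Agent.P281Z.Hg
  Vale.Agent.P275KU
open Vale.Agent.P275AR (Hc dc Act)
open Vale.Agent.P275FM (Coh)

set_option backward.isDefEq.respectTransparency false
set_option linter.unusedSectionVars false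

noncomputable section

namespace Vale.Agent.P275MC

attribute [local instance] prodCS isManifold_prod

variable {n m : ℕ} {X F : Type} [TopologicalSpace X] [ChartedSpace (Cm n) X] [T2Space X]
  [IsManifold 𝓘(ℂ, Cm n) ω X] [SecondCountableTopology X] [TopologicalSpace F]
  [ChartedSpace (Cm m) F] [T2Space F] [IsManifold 𝓘(ℂ, Cm m) ω F] [SecondCountableTopology F]
  [CompactSpace F]

theorem itc_ne {k : ℤ} {z : SF n X} (hz : z ∈ Am n k univ) (hk : ((n + n : ℕ) : ℤ) ≠ k) :
    itc n X z = 0 := by rw [← itc_pj hz.1, pj_ne hz.2 hk, map_zero]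

theorem pd_itK (α : H ℂ (TopCat.of F)) (x : Hc m (univ : Set F)) :
    pd m F α x = itK m F (α * toH m univ x) := by
  rw [← toH_hm, itK_toH, ← pd_one, ← pd_mul, one_mul]

theorem itK_gys [CompactSpace X] {f : F → X} {hf : Smo m n f}
    (h : Act (univ : Set X) univ (pb hf)) (α : H ℂ (TopCat.of F)) :
    itK n X (gys h α) = itK m F α := by
  have h1 : one n X ∈ Ac n (univ : Set X) := by rw [Ac_univ]; trivial
  have h2 := pd_gys h α (Coh.mk ⟨_, h1⟩ (Subtype.ext dd_one))
  rw [Act.map_mk, pd_itK, pd_itK, toH_mk, toH_mk, clT_pb hf ⟨_, dd_one⟩, clT_Dg one_Dg, cl_one,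
    map_one, mul_one, mul_one] at h2
  exact h2

theorem act_fst : Act (univ : Set X) univ (pb (smo_fst (n := n) (m := m) (X := X) (Y := F))) :=
  act_univ _ isProperMap_fst_of_compactSpace

/-- integration along the fibre of a product -/
theorem gys_fst (h : Act (univ : Set X) univ (pb (smo_fst (n := n) (m := m) (X := X) (Y := F))))
    (β : H ℂ (TopCat.of F)) :
    gys h (P275S.pb (tm (smo_snd (n := n) (m := m) (X := X))) β) = (sgc n m * itK m F β) • 1 := by
  refine H_ind (d := m) (P := fun β => gys h (P275S.pb (tm smo_snd) β) = (sgc n m * itK m F β) • 1)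
    (by simp only [map_zero, mul_zero, zero_smul])
    (fun v w h1 h2 => by simp only [map_add, h1, h2, mul_add, add_smul])
    (fun k w hw h0 => H_ext (d := n) fun x => ?_) β
  induction x using Hc_ind with
  | h0 => simp only [map_zero]
  | ha x y h1 h2 => simp only [map_add, h1, h2]
  | h j z hz h1 =>
    have h2 : w ∈ Ac m (univ : Set F) := by rw [Ac_univ]; trivial
    rw [pd_gys, Act.map_mk, ← cl_pb, pd_cl (pb_Dg _ hw), map_smul, LinearMap.smul_apply, pd_one,
      itH_mk, itK_cl hw, wd_comm (pb_Dg _ hw) (pb_Dg _ hz.2), map_smul, ← cr_apply,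
      itc_cr hz.1 h2, smul_eq_mul, smul_eq_mul, mul_right_comm]
    by_cases e : ((n + n : ℕ) : ℤ) = j
    · rw [Int.negOnePow_even _ (Even.mul_left (show Even (j : ℤ) from ⟨n, by omega⟩) _),
        Units.val_one, Int.cast_one, one_mul]
    · rw [itc_ne hz e, mul_zero, mul_zero]

variable {P U : Type} [TopologicalSpace P] [ChartedSpace (Cm (n + m)) P] [T2Space P]
  [IsManifold 𝓘(ℂ, Cm (n + m)) ω P] [SecondCountableTopology P] [TopologicalSpace U]
  [ChartedSpace (Cm n) U] [T2Space U] [IsManifold 𝓘(ℂ, Cm n) ω U] [SecondCountableTopology U]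

/-- **the Gysin image over a contractible trivialising open part** -/
theorem gys_fib [ContractibleSpace U] {f : P → X} {hf : Smo (n + m) n f}
    (h : Act (univ : Set X) univ (pb hf)) {j : U → X} {j' : U × F → P} (oj : OE n j)
    (ho : Ori n j) (oj' : OE (n + m) j') (ho' : Ori (n + m) j') (e : ∀ x, f (j' x) = j x.1)
    (rg : f ⁻¹' range j ⊆ range j') (α : H ℂ (TopCat.of P)) (u : U) (i : TopCat.of F ⟶ TopCat.of P)
    (hi : ∀ y, i y = j' (u, y)) :
    P275S.pb (tm oj.smo) (gys h α) = (sgc n m * itK m F (P275S.pb i α)) • 1 := by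
  have := nice (d := n + m) (M := U × F)
  rw [gys_opn oj ho oj' ho' h act_fst e rg, ← gys_fst act_fst, P275S.pb_comp]
  refine congrArg _ (DFunLike.congr_fun (pb_homotopic ?_) α)
  obtain ⟨c, hc⟩ := id_nullhomotopic U
  have h1 : (ContinuousMap.id U).Homotopic (ContinuousMap.const U u) :=
    hc.trans (by simpa using (hc.comp (.refl (ContinuousMap.const U u))).symm)
  have h2 := (ContinuousMap.Homotopic.refl (tm oj'.smo).hom).comp
    (h1.prodMap (.refl (ContinuousMap.id F)))
  have h3 : (tm (smo_snd (n := n) (m := m) (X := U)) ≫ i).hom = (tm oj'.smo).hom.comp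
      ((ContinuousMap.const U u).prodMap (ContinuousMap.id F)) :=
    ContinuousMap.ext fun x => hi x.2
  rw [h3]
  exact h2

end Vale.Agent.P275MC
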